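import Vale.Agent.P226.Final

/-!
# P226: partitions up to null sets
-/

open MeasureTheory ProbabilityTheory Real

namespace Vale.Agent.P226

/-- A partition up to null sets can be replaced by a genuine measurable partition. -/
theorem exists_genuine {k : ℕ} {Ω : Type*} [MeasurableSpace Ω] (μ : Measure Ω)
    (A : Fin (k + 1) → Set Ω) (hm : ∀ i, NullMeasurableSet (A i) μ)
    (hd : ∀ i j, i ≠ j → AEDisjoint μ (A i) (A j)) (hc : μ (⋃ i, A i)ᶜ = 0) :
    ∃ C : Fin (k + 1) → Set Ω, (∀ i, MeasurableSet (C i)) ∧ (∀ i j, i ≠ j → Disjoint (C i) (C j)) ∧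
      (∀ x, ∃ i, x ∈ C i) ∧ ∀ i, C i =ᵐ[μ] A i := by
  classical
  set T : Fin (k + 1) → Set Ω := fun i => toMeasurable μ (A i) with hT
  have hTm : ∀ i, MeasurableSet (T i) := fun i => measurableSet_toMeasurable _ _
  have hTA : ∀ i, T i =ᵐ[μ] A i := fun i => (hm i).toMeasurable_ae_eq
  set D : Fin (k + 1) → Set Ω := fun i => T i \ ⋃ j, ⋃ (_ : j < i), T j with hD
  have hDm : ∀ i, MeasurableSet (D i) := fun i =>
    (hTm i).diff (MeasurableSet.iUnion fun j => MeasurableSet.iUnion fun _ => hTm j)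
  have hDA : ∀ i, D i =ᵐ[μ] A i := by
    intro i
    have h1 : μ (⋃ j, ⋃ (_ : j < i), (T j ∩ T i)) = 0 := by
      rw [measure_iUnion_null_iff]
      intro j
      rw [measure_iUnion_null_iff]
      intro hj
      have h2 : (T j ∩ T i : Set Ω) =ᵐ[μ] (A j ∩ A i : Set Ω) := (hTA j).inter (hTA i)
      rw [measure_congr h2]
      exact hd j i (ne_of_lt hj)
    have h3 : (D i) =ᵐ[μ] (T i) := by
      have h4 : D i = T i \ (⋃ j, ⋃ (_ : j < i), (T j ∩ T i)) := by
        ext x
        simp only [hD, Set.mem_sdiff, Set.mem_iUnion, Set.mem_inter_iff, not_exists, not_and]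
        constructor
        · rintro ⟨a, b⟩
          exact ⟨a, fun j hj hxj => absurd hxj (b j hj)⟩
        · rintro ⟨a, b⟩
          exact ⟨a, fun j hj hxj => b j hj hxj a⟩
      rw [h4]
      exact sdiff_null_ae_eq_self h1
    exact h3.trans (hTA i)
  have hDd : ∀ i j, i < j → Disjoint (D i) (D j) := by
    intro i j hij
    rw [Set.disjoint_left]
    rintro x ⟨h1, _⟩ ⟨_, h4⟩
    exact h4 (Set.mem_iUnion.2 ⟨i, Set.mem_iUnion.2 ⟨hij, h1⟩⟩)
  have hDd' : ∀ i j, i ≠ j → Disjoint (D i) (D j) := by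
    intro i j hij
    rcases lt_or_gt_of_ne hij with h | h
    · exact hDd i j h
    · exact (hDd j i h).symm
  set R : Set Ω := (⋃ i, D i)ᶜ with hR
  have hRm : MeasurableSet R := (MeasurableSet.iUnion hDm).compl
  have hR0 : μ R = 0 := by
    have h1 : (⋃ i, D i : Set Ω) =ᵐ[μ] (⋃ i, A i : Set Ω) := Filter.EventuallyEq.countable_iUnion hDA
    rw [hR, measure_congr h1.compl]
    exact hc
  refine ⟨fun i => if i = 0 then D 0 ∪ R else D i, ?_, ?_, ?_, ?_⟩
  · intro i
    by_cases hi : i = 0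
    · simp only [hi, if_pos]; exact (hDm 0).union hRm
    · simp only [hi, if_neg, not_false_eq_true]; exact hDm i
  · have hRD : ∀ j, Disjoint R (D j) := by
      intro j
      rw [Set.disjoint_left]
      intro x hx hxj
      exact hx (Set.mem_iUnion.2 ⟨j, hxj⟩)
    intro i j hij
    by_cases hi : i = 0
    · have hj : j ≠ 0 := fun h => hij (hi.trans h.symm)
      simp only [hi, if_pos, hj, if_neg, not_false_eq_true]
      rw [Set.disjoint_union_left]
      exact ⟨hDd' 0 j (fun h => hj h.symm), hRD j⟩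
    · by_cases hj : j = 0
      · simp only [hi, if_neg, hj, if_pos, not_false_eq_true]
        rw [Set.disjoint_union_right]
        exact ⟨hDd' i 0 hi, (hRD i).symm⟩
      · simp only [hi, if_neg, hj, not_false_eq_true]
        exact hDd' i j hij
  · intro x
    by_cases hx : x ∈ ⋃ i, D i
    · obtain ⟨i, hi⟩ := Set.mem_iUnion.1 hx
      refine ⟨i, ?_⟩
      by_cases h0 : i = 0
      · simp only [h0, if_pos]; left; rwa [h0] at hi
      · simp only [h0, if_neg, not_false_eq_true]; exact hi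
    · exact ⟨0, by simp only [if_pos]; right; exact hx⟩
  · intro i
    by_cases hi : i = 0
    · simp only [hi, if_pos]
      exact (union_ae_eq_left_of_ae_eq_empty (ae_eq_empty.2 hR0)).trans (hDA 0)
    · simp only [hi, if_neg, not_false_eq_true]; exact hDA i

theorem partition_ae_of_ineq {k n : ℕ} (h : Ineq k n) (A : Fin (k + 1) → Set (E n))
    (hm : ∀ i, NullMeasurableSet (A i) (gam n))
    (hd : ∀ i j, i ≠ j → AEDisjoint (gam n) (A i) (A j))
    (hc : gam n (⋃ i, A i)ᶜ = 0) : ∑ i, ‖∫ x in A i, x ∂(gam n)‖ ^ 2 ≤ m0 := by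
  obtain ⟨C, h1, h2, h3, h4⟩ := exists_genuine (gam n) A hm hd hc
  have h5 := partition_of_ineq h C h1 h2 h3
  refine le_trans (le_of_eq ?_) h5
  refine Finset.sum_congr rfl fun i _ => ?_
  rw [setIntegral_congr_set (h4 i)]

end Vale.Agent.P226
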