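import Vale.Agent.P226.OptEx

/-!
# P226 [FACTS] and [REM]
-/

open MeasureTheory ProbabilityTheory Real

namespace Vale.Agent.P226

open OptAux

namespace Opt

variable {k n : ℕ}

theorem sum_zero (O : Opt k n) : ∑ i, O.z i = 0 := by
  have h1 : ∑ i, O.z i = ∑ i, ∫ x in O.A i, x ∂(gam n) :=
    Finset.sum_congr rfl fun i _ => O.hz i
  rw [h1, ← integral_partition O.meas O.disj O.cover (integrable_id n)]
  exact integral_id_stdGaussian

/-- `∫_{A_i} <w, x> = <w, z_i>` -/
theorem cell_inner (O : Opt k n) (w : E n) (i : Fin (k + 1)) :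
    ∫ x in O.A i, inner ℝ w x ∂(gam n) = inner ℝ w (O.z i) := by
  rw [setIntegral_inner, ← O.hz i]

theorem sq_nonneg' (u : Fin (k + 1) → E n) : 0 ≤ ∑ i, ‖u i‖ ^ 2 :=
  Finset.sum_nonneg fun i _ => by positivity

/-- `F(u) ≤ (M + Σ|u|²)/2` -/
theorem integral_mx_le (O : Opt k n) (u : Fin (k + 1) → E n) :
    ∫ x, mx u x ∂(gam n) ≤ (∑ i, ‖O.z i‖ ^ 2 + ∑ i, ‖u i‖ ^ 2) / 2 := by
  have h1 := O.opt u
  have h2 := sq_nonneg' O.z
  have h3 := sq_nonneg' u
  have h4 : (∫ x, mx u x ∂(gam n)) ^ 2 ≤ ((∑ i, ‖O.z i‖ ^ 2 + ∑ i, ‖u i‖ ^ 2) / 2) ^ 2 := by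
    nlinarith [sq_nonneg (∑ i, ‖O.z i‖ ^ 2 - ∑ i, ‖u i‖ ^ 2)]
  exact le_of_sq_le_sq h4 (by positivity)

theorem inner_nonpos (O : Opt k n) {i j : Fin (k + 1)} (hij : i ≠ j) :
    inner ℝ (O.z i) (O.z j) ≤ 0 := by
  classical
  set u : Fin (k + 1) → E n := Function.update (Function.update O.z i (O.z i + O.z j)) j 0 with hu
  have hui : u i = O.z i + O.z j := by
    rw [hu, Function.update_of_ne hij, Function.update_self]
  have huj : u j = 0 := by rw [hu, Function.update_self]
  have hul : ∀ l, l ≠ i → l ≠ j → u l = O.z l := by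
    intro l hli hlj
    rw [hu, Function.update_of_ne hlj, Function.update_of_ne hli]
  -- the assignment
  set v : Fin (k + 1) → E n := Function.update u j (O.z i + O.z j) with hv
  have hvj : v j = O.z i + O.z j := by rw [hv, Function.update_self]
  have hvl : ∀ l, l ≠ j → v l = u l := by
    intro l hlj
    rw [hv, Function.update_of_ne hlj]
  have h1 := sum_le_integral_mx O.meas O.disj O.cover u (fun l x => inner ℝ (v l) x)
    (fun l => integrable_inner (v l)) (by
      intro l x _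
      by_cases hl : l = j
      · subst hl
        simp only [hvj]
        rw [← hui]
        exact le_mx u i x
      · simp only [hvl l hl]
        exact le_mx u l x)
  simp only [O.cell_inner] at h1
  have h2 := O.opt u
  -- split the sums
  have hsplit : ∀ f : Fin (k + 1) → ℝ, ∑ l, f l = f i + f j +
      ∑ l ∈ (Finset.univ.erase i).erase j, f l := by
    intro f
    rw [← Finset.add_sum_erase _ _ (Finset.mem_univ i),
      ← Finset.add_sum_erase (Finset.univ.erase i) _
        (Finset.mem_erase.2 ⟨hij.symm, Finset.mem_univ j⟩)]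
    ring
  have hmem : ∀ l ∈ (Finset.univ.erase i).erase j, l ≠ i ∧ l ≠ j := by
    intro l hl
    rw [Finset.mem_erase, Finset.mem_erase] at hl
    exact ⟨hl.2.1, hl.1⟩
  set R : ℝ := ∑ l ∈ (Finset.univ.erase i).erase j, ‖O.z l‖ ^ 2 with hR
  have e1 : ∑ l, inner ℝ (v l) (O.z l) = ‖O.z i + O.z j‖ ^ 2 + R := by
    rw [hsplit, hvl i hij, hvj, hui, ← inner_add_right, real_inner_self_eq_norm_sq]
    congr 1
    refine Finset.sum_congr rfl fun l hl => ?_
    rw [hvl l (hmem l hl).2, hul l (hmem l hl).1 (hmem l hl).2, real_inner_self_eq_norm_sq]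
  have e2 : ∑ l, ‖u l‖ ^ 2 = ‖O.z i + O.z j‖ ^ 2 + R := by
    rw [hsplit, hui, huj, norm_zero]
    have : ∑ l ∈ (Finset.univ.erase i).erase j, ‖u l‖ ^ 2 = R := by
      refine Finset.sum_congr rfl fun l hl => ?_
      rw [hul l (hmem l hl).1 (hmem l hl).2]
    rw [this]
    ring
  have e3 : ∑ l, ‖O.z l‖ ^ 2 = ‖O.z i‖ ^ 2 + ‖O.z j‖ ^ 2 + R := hsplit _
  have h3 := O.integral_mx_le u
  rw [e1] at h1
  rw [e2, e3] at h3
  have h4 : ‖O.z i + O.z j‖ ^ 2 = ‖O.z i‖ ^ 2 + 2 * inner ℝ (O.z i) (O.z j) + ‖O.z j‖ ^ 2 :=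
    norm_add_sq_real _ _
  linarith

/-- `F(z) = M` -/
theorem integral_mx_z (O : Opt k n) : ∫ x, mx O.z x ∂(gam n) = ∑ i, ‖O.z i‖ ^ 2 := by
  rw [integral_partition O.meas O.disj O.cover (integrable_mx O.z)]
  refine Finset.sum_congr rfl fun i _ => ?_
  rw [← real_inner_self_eq_norm_sq, ← O.cell_inner]
  exact setIntegral_congr_fun (O.meas i) fun x hx => mx_eq (O.arg i x hx)

theorem z_ne_zero (O : Opt (k + 1) n) (h : Ineq k n) (a : Fin (k + 2)) :
    O.z a ≠ 0 := by
  intro ha
  set w : Fin (k + 1) → E n := fun i => O.z (a.succAbove i) with hw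
  have hsum : ∑ i, w i = 0 := by
    have h1 := O.sum_zero
    rw [Fin.sum_univ_succAbove _ a, ha, zero_add] at h1
    exact h1
  have hsq : ∑ i, ‖w i‖ ^ 2 = ∑ i, ‖O.z i‖ ^ 2 := by
    rw [Fin.sum_univ_succAbove (fun i => ‖O.z i‖ ^ 2) a, ha, norm_zero]
    simp [hw]
  have hmx : ∀ x, mx O.z x = mx w x := by
    intro x
    apply le_antisymm
    · refine mx_le fun i => ?_
      by_cases hia : i = a
      · subst hia
        rw [ha, inner_zero_left]
        -- the sum of the inner products vanishes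
        by_contra hcon
        rw [not_le] at hcon
        have h1 : ∀ j, inner ℝ (w j) x < 0 := fun j => (le_mx w j x).trans_lt hcon
        have h2 : ∑ j, inner ℝ (w j) x < 0 := Finset.sum_neg (fun j _ => h1 j) ⟨0, Finset.mem_univ _⟩
        rw [← sum_inner, hsum, inner_zero_left] at h2
        exact lt_irrefl _ h2
      · obtain ⟨j, hj⟩ := Fin.exists_succAbove_eq hia
        rw [← hj]
        exact le_mx w j x
    · refine mx_le fun i => ?_
      exact le_mx O.z (a.succAbove i) x
  have h1 : ∫ x, mx w x ∂(gam n) = ∑ i, ‖O.z i‖ ^ 2 := by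
    rw [← O.integral_mx_z]
    exact integral_congr_ae (Filter.Eventually.of_forall fun x => (hmx x).symm)
  have h2 := h w
  rw [h1, hsq] at h2
  have h3 := O.big
  have hm0 : 0 < m0 := by unfold m0; positivity
  nlinarith

/-- removal of the cell `a`, splitting its vector equally over three others -/
theorem removal (O : Opt k n) {a i j l : Fin (k + 1)} (hai : a ≠ i) (haj : a ≠ j)
    (hal : a ≠ l) (hij : i ≠ j) (hil : i ≠ l) (hjl : j ≠ l) :
    ∫ x in O.A a, max (max (inner ℝ (O.z i) x) (inner ℝ (O.z j) x)) (inner ℝ (O.z l) x) ∂(gam n)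
      ≤ ‖O.z a‖ ^ 2 / 3 := by
  classical
  set t : ℝ := 1 / 3 with ht
  set u : Fin (k + 1) → E n := fun m => if m = a then 0 else
    if m = i ∨ m = j ∨ m = l then O.z m + t • O.z a else O.z m with hu
  have hua : u a = 0 := by simp [hu]
  have hui : u i = O.z i + t • O.z a := by simp [hu, hai.symm]
  have huj : u j = O.z j + t • O.z a := by simp [hu, haj.symm]
  have hul : u l = O.z l + t • O.z a := by simp [hu, hal.symm]
  have hum : ∀ m, m ≠ a → m ≠ i → m ≠ j → m ≠ l → u m = O.z m := by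
    intro m h1 h2 h3 h4
    simp [hu, h1, h2, h3, h4]
  set f : E n → ℝ := fun x =>
    max (max (inner ℝ (O.z i) x) (inner ℝ (O.z j) x)) (inner ℝ (O.z l) x) with hf
  have hfi : Integrable f (gam n) :=
    ((integrable_inner (O.z i)).sup (integrable_inner (O.z j))).sup (integrable_inner (O.z l))
  have hff : ∀ x, f x + t * inner ℝ (O.z a) x ≤ mx u x := by
    intro x
    have h1 := le_mx u i x
    have h2 := le_mx u j x
    have h3 := le_mx u l x
    rw [hui, inner_add_left, real_inner_smul_left] at h1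
    rw [huj, inner_add_left, real_inner_smul_left] at h2
    rw [hul, inner_add_left, real_inner_smul_left] at h3
    have h4 : f x ≤ mx u x - t * inner ℝ (O.z a) x :=
      max_le (max_le (by linarith) (by linarith)) (by linarith)
    linarith
  have h1 := sum_le_integral_mx O.meas O.disj O.cover u
    (fun m x => if m = a then f x + t * inner ℝ (O.z a) x else inner ℝ (u m) x)
    (by
      intro m
      by_cases hm : m = a
      · simp only [hm, if_true]
        exact hfi.add ((integrable_inner (O.z a)).const_mul t)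
      · simp only [hm, if_false]
        exact integrable_inner (u m))
    (by
      intro m x _
      by_cases hm : m = a
      · simp only [hm, if_true]
        exact hff x
      · simp only [hm, if_false]
        exact le_mx u m x)
  -- the sum on the left
  have hterm : ∀ m, ∫ x in O.A m, (if m = a then f x + t * inner ℝ (O.z a) x
      else inner ℝ (u m) x) ∂(gam n) =
      if m = a then (∫ x in O.A a, f x ∂(gam n)) + t * ‖O.z a‖ ^ 2
        else inner ℝ (u m) (O.z m) := by
    intro m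
    by_cases hm : m = a
    · subst hm
      simp only [if_true]
      rw [integral_add hfi.integrableOn ((integrable_inner (O.z m)).const_mul t).integrableOn,
        integral_const_mul, O.cell_inner, real_inner_self_eq_norm_sq]
    · simp only [hm, if_false]
      exact O.cell_inner _ _
  simp only [hterm] at h1
  -- splitting sums
  have hsplit : ∀ g : Fin (k + 1) → ℝ, ∑ m, g m = g a + g i + g j + g l +
      ∑ m ∈ (((Finset.univ.erase a).erase i).erase j).erase l, g m := by
    intro g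
    rw [← Finset.add_sum_erase _ _ (Finset.mem_univ a),
      ← Finset.add_sum_erase (Finset.univ.erase a) _
        (Finset.mem_erase.2 ⟨hai.symm, Finset.mem_univ i⟩),
      ← Finset.add_sum_erase ((Finset.univ.erase a).erase i) _
        (Finset.mem_erase.2 ⟨hij.symm, Finset.mem_erase.2 ⟨haj.symm, Finset.mem_univ j⟩⟩),
      ← Finset.add_sum_erase (((Finset.univ.erase a).erase i).erase j) _
        (Finset.mem_erase.2 ⟨hjl.symm, Finset.mem_erase.2 ⟨hil.symm,
          Finset.mem_erase.2 ⟨hal.symm, Finset.mem_univ l⟩⟩⟩)]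
    ring
  have hmem : ∀ m ∈ (((Finset.univ.erase a).erase i).erase j).erase l,
      m ≠ a ∧ m ≠ i ∧ m ≠ j ∧ m ≠ l := by
    intro m hm
    rw [Finset.mem_erase, Finset.mem_erase, Finset.mem_erase, Finset.mem_erase] at hm
    exact ⟨hm.2.2.2.1, hm.2.2.1, hm.2.1, hm.1⟩
  set R : ℝ := ∑ m ∈ (((Finset.univ.erase a).erase i).erase j).erase l, ‖O.z m‖ ^ 2 with hR
  have e1 : ∑ m, (if m = a then (∫ x in O.A a, f x ∂(gam n)) + t * ‖O.z a‖ ^ 2
        else inner ℝ (u m) (O.z m)) = ((∫ x in O.A a, f x ∂(gam n)) + t * ‖O.z a‖ ^ 2) +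
        inner ℝ (u i) (O.z i) + inner ℝ (u j) (O.z j) + inner ℝ (u l) (O.z l) + R := by
    rw [hsplit, if_pos rfl, if_neg hai.symm, if_neg haj.symm, if_neg hal.symm]
    congr 1
    refine Finset.sum_congr rfl fun m hm => ?_
    obtain ⟨h2, h3, h4, h5⟩ := hmem m hm
    rw [if_neg h2, hum m h2 h3 h4 h5, real_inner_self_eq_norm_sq]
  have e2 : ∑ m, ‖u m‖ ^ 2 = ‖u i‖ ^ 2 + ‖u j‖ ^ 2 + ‖u l‖ ^ 2 + R := by
    rw [hsplit, hua, norm_zero]
    have : ∑ m ∈ (((Finset.univ.erase a).erase i).erase j).erase l, ‖u m‖ ^ 2 = R := by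
      refine Finset.sum_congr rfl fun m hm => ?_
      obtain ⟨h2, h3, h4, h5⟩ := hmem m hm
      rw [hum m h2 h3 h4 h5]
    rw [this]
    ring
  have e3 : ∑ m, ‖O.z m‖ ^ 2 = ‖O.z a‖ ^ 2 + ‖O.z i‖ ^ 2 + ‖O.z j‖ ^ 2 + ‖O.z l‖ ^ 2 + R :=
    hsplit _
  have h3 := O.integral_mx_le u
  rw [e1] at h1
  rw [e2, e3] at h3
  have hin : ∀ m, inner ℝ (O.z m + t • O.z a) (O.z m) =
      ‖O.z m‖ ^ 2 + t * inner ℝ (O.z a) (O.z m) := by
    intro m
    rw [inner_add_left, real_inner_smul_left, real_inner_self_eq_norm_sq]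
  have hsq : ∀ m, ‖O.z m + t • O.z a‖ ^ 2 =
      ‖O.z m‖ ^ 2 + 2 * (t * inner ℝ (O.z a) (O.z m)) + t ^ 2 * ‖O.z a‖ ^ 2 := by
    intro m
    rw [norm_add_sq_real, real_inner_smul_right, norm_smul, mul_pow, Real.norm_eq_abs, sq_abs,
      real_inner_comm]
  rw [hui, huj, hul, hin, hin, hin] at h1
  rw [hui, huj, hul, hsq, hsq, hsq] at h3
  rw [ht] at h1 h3
  show ∫ x in O.A a, f x ∂(gam n) ≤ _
  linarith

end Opt

end Vale.Agent.P226
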