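import Vale.Agent.P226.Defs

/-!
# P226, piece JEV: closed forms of `J d c`
-/

open MeasureTheory ProbabilityTheory Real

namespace Vale.Agent.P226

theorem J_three (c : ℝ) (hc : -1 ≤ c) (hc1 : c ≤ 1) : J 3 c = 1 - c := by
  simp [J]

theorem sqrt_sq_aux {c v : ℝ} (hc : -1 ≤ c) (hc1 : c ≤ 1) (hv : v ∈ Set.uIcc c 1) :
    (√(1 - v ^ 2)) ^ 2 = 1 - v ^ 2 := by
  rw [Set.uIcc_of_le hc1] at hv
  refine sq_sqrt ?_
  nlinarith [hv.1, hv.2]

theorem J_four (c : ℝ) (hc : -1 ≤ c) (hc1 : c ≤ 1) :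
    J 4 c = (arccos c - c * √(1 - c ^ 2)) / 2 := by
  have h : ∫ v in c..1, √(1 - v ^ 2)
      = (1 * √(1 - 1 ^ 2) - arccos 1) / 2 - (c * √(1 - c ^ 2) - arccos c) / 2 := by
    refine intervalIntegral.integral_eq_sub_of_hasDerivAt_of_le hc1 ?_ ?_ ?_
      (f := fun v => (v * √(1 - v ^ 2) - arccos v) / 2)
    · fun_prop
    · intro v hv
      have hv1 : -1 < v := lt_of_le_of_lt hc hv.1
      have hv2 : v < 1 := hv.2
      have hpos : 0 < 1 - v ^ 2 := by nlinarith
      have hs : 0 < √(1 - v ^ 2) := sqrt_pos.mpr hpos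
      have e1 : HasDerivAt (fun v : ℝ => 1 - v ^ 2) (-(2 * v)) v := by
        have := ((hasDerivAt_id v).pow 2).const_sub 1
        simpa using this
      have e2 := e1.sqrt hpos.ne'
      have e3 := (((hasDerivAt_id v).mul e2).sub (hasDerivAt_arccos hv1.ne' hv2.ne)).div_const 2
      refine e3.congr_deriv ?_
      have hss : √(1 - v ^ 2) * √(1 - v ^ 2) = 1 - v ^ 2 := mul_self_sqrt hpos.le
      simp only [id]
      field_simp
      nlinarith
    · exact (Continuous.intervalIntegrable (by fun_prop) _ _)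
  have h2 : J 4 c = ∫ v in c..1, √(1 - v ^ 2) := by
    simp [J]
  rw [h2, h]
  simp
  ring

theorem J_five (c : ℝ) (hc : -1 ≤ c) (hc1 : c ≤ 1) : J 5 c = 2 / 3 - c + c ^ 3 / 3 := by
  have h : J 5 c = ∫ v in c..1, (1 - v ^ 2) := by
    refine intervalIntegral.integral_congr fun v hv => ?_
    exact sqrt_sq_aux hc hc1 hv
  rw [h, intervalIntegral.integral_sub (by simp) (Continuous.intervalIntegrable (by fun_prop) _ _)]
  simp only [intervalIntegral.integral_const, integral_pow, smul_eq_mul]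
  norm_num
  ring

theorem J_seven (c : ℝ) (hc : -1 ≤ c) (hc1 : c ≤ 1) :
    J 7 c = 8 / 15 - c + 2 * c ^ 3 / 3 - c ^ 5 / 5 := by
  have h : J 7 c = ∫ v in c..1, (1 - v ^ 2) ^ 2 := by
    refine intervalIntegral.integral_congr fun v hv => ?_
    have := sqrt_sq_aux hc hc1 hv
    show (√(1 - v ^ 2)) ^ 4 = _
    rw [show (4 : ℕ) = 2 * 2 from rfl, pow_mul, this]
  rw [h, intervalIntegral.integral_eq_sub_of_hasDerivAt
    (f := fun v : ℝ => v - 2 * v ^ 3 / 3 + v ^ 5 / 5)]
  · ring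
  · intro v _
    have e1 := ((hasDerivAt_id v).sub ((((hasDerivAt_id v).pow 3).const_mul 2).div_const 3)).add
      (((hasDerivAt_id v).pow 5).div_const 5)
    refine e1.congr_deriv ?_
    simp only [id]
    norm_num
    ring
  · exact Continuous.intervalIntegrable (by fun_prop) _ _

theorem J_nine (c : ℝ) (hc : -1 ≤ c) (hc1 : c ≤ 1) :
    J 9 c = 16 / 35 - c + c ^ 3 - 3 * c ^ 5 / 5 + c ^ 7 / 7 := by
  have h : J 9 c = ∫ v in c..1, (1 - v ^ 2) ^ 3 := by
    refine intervalIntegral.integral_congr fun v hv => ?_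
    have := sqrt_sq_aux hc hc1 hv
    show (√(1 - v ^ 2)) ^ 6 = _
    rw [show (6 : ℕ) = 2 * 3 from rfl, pow_mul, this]
  rw [h, intervalIntegral.integral_eq_sub_of_hasDerivAt
    (f := fun v : ℝ => v - v ^ 3 + 3 * v ^ 5 / 5 - v ^ 7 / 7)]
  · ring
  · intro v _
    have e1 := (((hasDerivAt_id v).sub ((hasDerivAt_id v).pow 3)).add
      ((((hasDerivAt_id v).pow 5).const_mul 3).div_const 5)).sub
      (((hasDerivAt_id v).pow 7).div_const 7)
    refine e1.congr_deriv ?_
    simp only [id]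
    norm_num
    ring
  · exact Continuous.intervalIntegrable (by fun_prop) _ _

end Vale.Agent.P226
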