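import Vale.Agent.P226.SmallBall
import Vale.Agent.P226.Facts

/-!
# P226: the three-cells inequality (pieces N3 and AREA)

For an optimal configuration, a cell `a` and three other cells `i, j, l`, the first moment of `a`
cannot be too small compared with the area of the triangle of the projections of
`z i, z j, z l` orthogonally to `z a`.
-/

open MeasureTheory ProbabilityTheory Real

namespace Vale.Agent.P226

open OptAux

/-- real inequality behind the area bound -/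
lemma area_sorted (a1 a2 a3 h12 h13 h23 : ℝ) (h12n : 0 ≤ h12) (h13n : 0 ≤ h13) (h23n : 0 ≤ h23)
    (s2 : h12 + h23 ≤ a2) (s3 : h13 + h23 ≤ a3) (o12 : a2 ≤ a1) (o23 : a3 ≤ a2) :
    3 * (a2 * a3) ≤ a1 * a2 + a1 * a3 + a2 * a3 - h12 ^ 2 - h13 ^ 2 - h23 ^ 2
      + 2 * (h12 * a3 + h13 * a2 + h23 * a1) + 2 * (h12 * h13 + h12 * h23 + h13 * h23) := by
  have a3n : 0 ≤ a3 := by linarith
  have a2n : 0 ≤ a2 := by linarith
  have a1n : 0 ≤ a1 := by linarith
  have e1 : h12 ^ 2 ≤ h12 * (a2 - h23) := by nlinarith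
  have e2 : h13 ^ 2 ≤ h13 * (a3 - h23) := by nlinarith
  have e3 : h23 ^ 2 ≤ h23 * (a3 - h13) := by nlinarith
  have p1 : 0 ≤ h12 * h13 := mul_nonneg h12n h13n
  have p2 : 0 ≤ h12 * h23 := mul_nonneg h12n h23n
  have p3 : 0 ≤ h13 * h23 := mul_nonneg h13n h23n
  have q1 : 0 ≤ h13 * (2 * a2 - a3) := mul_nonneg h13n (by linarith)
  have q2 : 0 ≤ h23 * (2 * a1 - a3) := mul_nonneg h23n (by linarith)
  have t1 : a2 * a3 ≤ a1 * a3 := mul_le_mul_of_nonneg_right o12 a3n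
  have t2 : a2 * a2 ≤ a1 * a2 := mul_le_mul_of_nonneg_right o12 a2n
  have t3 : a2 * a3 ≤ a2 * a2 := mul_le_mul_of_nonneg_left o23 a2n
  have t4 : 0 ≤ a2 * a3 := mul_nonneg a2n a3n
  rcases le_total a2 (2 * a3) with hc | hc
  · have q3 : 0 ≤ h12 * (2 * a3 - a2) := mul_nonneg h12n (by linarith)
    nlinarith
  · have q3 : 0 ≤ (a2 - h12) * (a2 - 2 * a3) := mul_nonneg (by linarith) (by linarith)
    nlinarith

/-- symmetric form: `4 * area^2 >= 3 * (smallest product of two of the a's)` -/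
lemma area_sym (a1 a2 a3 h12 h13 h23 m : ℝ) (h12n : 0 ≤ h12) (h13n : 0 ≤ h13) (h23n : 0 ≤ h23)
    (s1 : h12 + h13 ≤ a1) (s2 : h12 + h23 ≤ a2) (s3 : h13 + h23 ≤ a3)
    (m1 : m ≤ a1 * a2) (m2 : m ≤ a1 * a3) (m3 : m ≤ a2 * a3) :
    3 * m ≤ a1 * a2 + a1 * a3 + a2 * a3 - h12 ^ 2 - h13 ^ 2 - h23 ^ 2
      + 2 * (h12 * a3 + h13 * a2 + h23 * a1) + 2 * (h12 * h13 + h12 * h23 + h13 * h23) := by
  rcases le_total a1 a2 with h1 | h1 <;> rcases le_total a1 a3 with h2 | h2 <;>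
    rcases le_total a2 a3 with h3 | h3
  · -- a1 ≤ a2 ≤ a3
    have := area_sorted a3 a2 a1 h23 h13 h12 h23n h13n h12n (by linarith) (by linarith) h3 h1
    nlinarith
  · -- a1 ≤ a3 ≤ a2
    have := area_sorted a2 a3 a1 h23 h12 h13 h23n h12n h13n (by linarith) (by linarith) h3 h2
    nlinarith
  · -- a1 ≤ a2 ≤ a3 ≤ a1
    have := area_sorted a3 a2 a1 h23 h13 h12 h23n h13n h12n (by linarith) (by linarith) h3 h1
    nlinarith
  · -- a3 ≤ a1 ≤ a2
    have := area_sorted a2 a1 a3 h12 h23 h13 h12n h23n h13n (by linarith) (by linarith) h1 h2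
    nlinarith
  · -- a2 ≤ a1 ≤ a3
    have := area_sorted a3 a1 a2 h13 h23 h12 h13n h23n h12n (by linarith) (by linarith) h2 h1
    nlinarith
  · -- a3 ≤ a2 ≤ a1 ≤ a3
    have := area_sorted a3 a1 a2 h13 h23 h12 h13n h23n h12n (by linarith) (by linarith) h2 h1
    nlinarith
  · -- a2 ≤ a3 ≤ a1
    have := area_sorted a1 a3 a2 h13 h12 h23 h13n h12n h23n (by linarith) (by linarith) h2 h3
    nlinarith
  · -- a3 ≤ a2 ≤ a1
    have := area_sorted a1 a2 a3 h12 h13 h23 h12n h13n h23n (by linarith) (by linarith) h1 h3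
    nlinarith

/-- real inequality: from the row sums of the Gram matrix to the area bound -/
lemma area_real (αi αj αl y p q r gij gil gjl : ℝ) (hy : 0 < y) (hyl : y ≤ αl) (h1 : αj ≤ αi)
    (h2 : αl ≤ αj) (hp0 : 0 ≤ p) (hq0 : 0 ≤ q) (hr0 : 0 ≤ r) (hpqr : p + q + r ≤ 1)
    (nij : 0 ≤ gij) (nil : 0 ≤ gil) (njl : 0 ≤ gjl)
    (ri : p * y + gij + gil ≤ αi) (rj : q * y + gij + gjl ≤ αj) (rl : r * y + gil + gjl ≤ αl) :
    3 * (αj * (αl - y)) ≤ (αi - p ^ 2 * y) * (αj - q ^ 2 * y)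
      + (αi - p ^ 2 * y) * (αl - r ^ 2 * y) + (αj - q ^ 2 * y) * (αl - r ^ 2 * y)
      - (gij + p * q * y) ^ 2 - (gil + p * r * y) ^ 2 - (gjl + q * r * y) ^ 2
      + 2 * ((gij + p * q * y) * (αl - r ^ 2 * y) + (gil + p * r * y) * (αj - q ^ 2 * y)
        + (gjl + q * r * y) * (αi - p ^ 2 * y))
      + 2 * ((gij + p * q * y) * (gil + p * r * y) + (gij + p * q * y) * (gjl + q * r * y)
        + (gil + p * r * y) * (gjl + q * r * y)) := by
  have hpq : 0 ≤ p * q := mul_nonneg hp0 hq0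
  have hpr : 0 ≤ p * r := mul_nonneg hp0 hr0
  have hqr : 0 ≤ q * r := mul_nonneg hq0 hr0
  have sp : p ^ 2 ≤ p * (1 - q - r) := by nlinarith
  have sq' : q ^ 2 ≤ q * (1 - p - r) := by nlinarith
  have sr : r ^ 2 ≤ r * (1 - p - q) := by nlinarith
  have sall : p ^ 2 + q ^ 2 + r ^ 2 ≤ 1 := by nlinarith
  have hp2 : 0 ≤ p ^ 2 := sq_nonneg p
  have hq2 : 0 ≤ q ^ 2 := sq_nonneg q
  have hr2 : 0 ≤ r ^ 2 := sq_nonneg r
  have hαj0 : 0 ≤ αj := by linarith
  have hαi0 : 0 ≤ αi := by linarith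
  have hmain : αj * (αl - y) ≤ αi * (αl - y) :=
    mul_le_mul_of_nonneg_right h1 (by linarith)
  have hmain2 : αi * (αl - y) ≤ αi * (αj - y) :=
    mul_le_mul_of_nonneg_left (by linarith) hαi0
  -- generic product bound
  have prod : ∀ A B s t : ℝ, 0 ≤ A → B ≤ A → 0 ≤ s → 0 ≤ t → s + t ≤ 1 →
      A * (B - y) ≤ (A - s * y) * (B - t * y) := by
    intro A B s t hA hBA hs ht hst
    have e : (A - s * y) * (B - t * y) - A * (B - y)
        = y * (A * (1 - s - t) + s * (A - B)) + s * t * y ^ 2 := by ring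
    have : 0 ≤ y * (A * (1 - s - t) + s * (A - B)) + s * t * y ^ 2 := by
      have u1 : 0 ≤ A * (1 - s - t) := mul_nonneg hA (by linarith)
      have u2 : 0 ≤ s * (A - B) := mul_nonneg hs (by linarith)
      positivity
    linarith
  have P1 := prod αi αj (p ^ 2) (q ^ 2) hαi0 h1 hp2 hq2 (by linarith)
  have P2 := prod αi αl (p ^ 2) (r ^ 2) hαi0 (by linarith) hp2 hr2 (by linarith)
  have P3 := prod αj αl (q ^ 2) (r ^ 2) hαj0 h2 hq2 hr2 (by linarith)
  have y1 : p ^ 2 * y ≤ p * (1 - q - r) * y := mul_le_mul_of_nonneg_right sp hy.le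
  have y2 : q ^ 2 * y ≤ q * (1 - p - r) * y := mul_le_mul_of_nonneg_right sq' hy.le
  have y3 : r ^ 2 * y ≤ r * (1 - p - q) * y := mul_le_mul_of_nonneg_right sr hy.le
  have z1 : 0 ≤ p * q * y := by positivity
  have z2 : 0 ≤ p * r * y := by positivity
  have z3 : 0 ≤ q * r * y := by positivity
  exact area_sym (αi - p ^ 2 * y) (αj - q ^ 2 * y) (αl - r ^ 2 * y)
    (gij + p * q * y) (gil + p * r * y) (gjl + q * r * y) (αj * (αl - y))
    (by linarith) (by linarith) (by linarith)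
    (by linarith) (by linarith) (by linarith)
    (by linarith) (by linarith) (by linarith)

/-- real inequality: from the row sums of the Gram matrix to the area bound, symmetric form -/
lemma area_real2 (αi αj αl y p q r gij gil gjl m : ℝ) (hy : 0 < y) (hym : y ≤ m)
    (hmi : m ≤ αi) (hmj : m ≤ αj) (hml : m ≤ αl)
    (hp0 : 0 ≤ p) (hq0 : 0 ≤ q) (hr0 : 0 ≤ r) (hpqr : p + q + r ≤ 1)
    (nij : 0 ≤ gij) (nil : 0 ≤ gil) (njl : 0 ≤ gjl)
    (ri : p * y + gij + gil ≤ αi) (rj : q * y + gij + gjl ≤ αj) (rl : r * y + gil + gjl ≤ αl) :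
    3 * (m * (m - y)) ≤ (αi - p ^ 2 * y) * (αj - q ^ 2 * y)
      + (αi - p ^ 2 * y) * (αl - r ^ 2 * y) + (αj - q ^ 2 * y) * (αl - r ^ 2 * y)
      - (gij + p * q * y) ^ 2 - (gil + p * r * y) ^ 2 - (gjl + q * r * y) ^ 2
      + 2 * ((gij + p * q * y) * (αl - r ^ 2 * y) + (gil + p * r * y) * (αj - q ^ 2 * y)
        + (gjl + q * r * y) * (αi - p ^ 2 * y))
      + 2 * ((gij + p * q * y) * (gil + p * r * y) + (gij + p * q * y) * (gjl + q * r * y)
        + (gil + p * r * y) * (gjl + q * r * y)) := by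
  have hpq : 0 ≤ p * q := mul_nonneg hp0 hq0
  have hpr : 0 ≤ p * r := mul_nonneg hp0 hr0
  have hqr : 0 ≤ q * r := mul_nonneg hq0 hr0
  have sp : p ^ 2 ≤ p * (1 - q - r) := by nlinarith
  have sq' : q ^ 2 ≤ q * (1 - p - r) := by nlinarith
  have sr : r ^ 2 ≤ r * (1 - p - q) := by nlinarith
  have sall : p ^ 2 + q ^ 2 + r ^ 2 ≤ 1 := by nlinarith
  have hp2 : 0 ≤ p ^ 2 := sq_nonneg p
  have hq2 : 0 ≤ q ^ 2 := sq_nonneg q
  have hr2 : 0 ≤ r ^ 2 := sq_nonneg r
  -- generic product bound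
  have prod : ∀ A B s t : ℝ, m ≤ A → m ≤ B → 0 ≤ s → 0 ≤ t → s + t ≤ 1 →
      m * (m - y) ≤ (A - s * y) * (B - t * y) := by
    intro A B s t hA hB hs ht hst
    have u1 : s * y ≤ y := by nlinarith
    have u2 : t * y ≤ y := by nlinarith
    have e1 : (m - s * y) * (m - t * y) ≤ (A - s * y) * (B - t * y) :=
      mul_le_mul (by linarith) (by linarith) (by linarith) (by linarith)
    have e2 : (m - s * y) * (m - t * y) - m * (m - y) = m * y * (1 - s - t) + s * t * y ^ 2 := by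
      ring
    have e3 : 0 ≤ m * y * (1 - s - t) :=
      mul_nonneg (mul_nonneg (by linarith) hy.le) (by linarith)
    have e4 : 0 ≤ s * t * y ^ 2 := by positivity
    linarith
  have P1 := prod αi αj (p ^ 2) (q ^ 2) hmi hmj hp2 hq2 (by linarith)
  have P2 := prod αi αl (p ^ 2) (r ^ 2) hmi hml hp2 hr2 (by linarith)
  have P3 := prod αj αl (q ^ 2) (r ^ 2) hmj hml hq2 hr2 (by linarith)
  have y1 : p ^ 2 * y ≤ p * (1 - q - r) * y := mul_le_mul_of_nonneg_right sp hy.le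
  have y2 : q ^ 2 * y ≤ q * (1 - p - r) * y := mul_le_mul_of_nonneg_right sq' hy.le
  have y3 : r ^ 2 * y ≤ r * (1 - p - q) * y := mul_le_mul_of_nonneg_right sr hy.le
  have z1 : 0 ≤ p * q * y := by positivity
  have z2 : 0 ≤ p * r * y := by positivity
  have z3 : 0 ≤ q * r * y := by positivity
  exact area_sym (αi - p ^ 2 * y) (αj - q ^ 2 * y) (αl - r ^ 2 * y)
    (gij + p * q * y) (gil + p * r * y) (gjl + q * r * y) (m * (m - y))
    (by linarith) (by linarith) (by linarith)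
    (by linarith) (by linarith) (by linarith)
    (by linarith) (by linarith) (by linarith)

namespace Opt

variable {k n : ℕ}

/-- row sums: for distinct `a, i, j, l`, `-(<z a, z i> + <z a, z j> + <z a, z l>) <= |z a|^2` -/
lemma row_three (O : Opt k n) {a i j l : Fin (k + 1)} (hai : a ≠ i) (haj : a ≠ j)
    (hal : a ≠ l) (hij : i ≠ j) (hil : i ≠ l) (hjl : j ≠ l) :
    -(inner ℝ (O.z a) (O.z i) + inner ℝ (O.z a) (O.z j) + inner ℝ (O.z a) (O.z l))
      ≤ ‖O.z a‖ ^ 2 := by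
  classical
  have h0 : inner ℝ (O.z a) (∑ m, O.z m) = (0:ℝ) := by rw [O.sum_zero, inner_zero_right]
  rw [inner_sum] at h0
  have h1 : ∑ m ∈ ({a, i, j, l} : Finset (Fin (k + 1))), inner ℝ (O.z a) (O.z m)
      = ‖O.z a‖ ^ 2 + (inner ℝ (O.z a) (O.z i) + inner ℝ (O.z a) (O.z j)
        + inner ℝ (O.z a) (O.z l)) := by
    rw [Finset.sum_insert (by simp [hai, haj, hal]), Finset.sum_insert (by simp [hij, hil]),
      Finset.sum_insert (by simp [hjl]), Finset.sum_singleton, real_inner_self_eq_norm_sq]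
    ring
  have h2 : ∑ m, inner ℝ (O.z a) (O.z m)
      = ∑ m ∈ ({a, i, j, l} : Finset (Fin (k + 1))), inner ℝ (O.z a) (O.z m)
        + ∑ m ∈ ({a, i, j, l} : Finset (Fin (k + 1)))ᶜ, inner ℝ (O.z a) (O.z m) :=
    (Finset.sum_add_sum_compl _ _).symm
  have h3 : ∑ m ∈ ({a, i, j, l} : Finset (Fin (k + 1)))ᶜ, inner ℝ (O.z a) (O.z m) ≤ 0 := by
    apply Finset.sum_nonpos
    intro m hm
    apply O.inner_nonpos
    rintro rfl
    simp at hm
  rw [h2, h1] at h0
  linarith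

/-- the projection of `z m` orthogonally to `z a` -/
noncomputable def w (O : Opt k n) (a m : Fin (k + 1)) : E n :=
  O.z m - (inner ℝ (O.z a) (O.z m) / ‖O.z a‖ ^ 2) • O.z a

lemma inner_w (O : Opt k n) {a : Fin (k + 1)} (hza : O.z a ≠ 0) (i j : Fin (k + 1)) :
    inner ℝ (O.w a i) (O.w a j) = inner ℝ (O.z i) (O.z j)
      - inner ℝ (O.z a) (O.z i) * inner ℝ (O.z a) (O.z j) / ‖O.z a‖ ^ 2 := by
  have hx : ‖O.z a‖ ^ 2 ≠ 0 := by
    have := norm_pos_iff.mpr hza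
    positivity
  unfold w
  rw [inner_sub_left, inner_sub_right, inner_sub_right, real_inner_smul_left,
    real_inner_smul_left, real_inner_smul_right, real_inner_smul_right,
    real_inner_self_eq_norm_sq, real_inner_comm (O.z a) (O.z i)]
  field_simp
  ring

lemma inner_za_w (O : Opt k n) {a : Fin (k + 1)} (hza : O.z a ≠ 0) (i : Fin (k + 1)) :
    inner ℝ (O.z a) (O.w a i) = (0:ℝ) := by
  have hx : ‖O.z a‖ ^ 2 ≠ 0 := by
    have := norm_pos_iff.mpr hza
    positivity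
  unfold w
  rw [inner_sub_right, real_inner_smul_right, real_inner_self_eq_norm_sq]
  field_simp
  ring

lemma inner_w_left (O : Opt k n) (a m : Fin (k + 1)) (y : E n) :
    inner ℝ (O.w a m) y = inner ℝ (O.z m) y
      - inner ℝ (O.z a) (O.z m) / ‖O.z a‖ ^ 2 * inner ℝ (O.z a) y := by
  unfold w
  rw [inner_sub_left, real_inner_smul_left]

/-- `4 * (area)^2` of the triangle of three vectors -/
noncomputable def D4 (u v w : E n) : ℝ :=
  ‖u - w‖ ^ 2 * ‖v - w‖ ^ 2 - (inner ℝ (u - w) (v - w)) ^ 2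

/-- the three-cells inequality with the free parameter `L` -/
theorem N3L (O : Opt k n) {a i j l : Fin (k + 1)} (hai : a ≠ i) (haj : a ≠ j)
    (hal : a ≠ l) (hij : i ≠ j) (hil : i ≠ l) (hjl : j ≠ l) (hza : O.z a ≠ 0)
    (D : ℝ) (hDpos : 0 < D) (hDsq : D ^ 2 = D4 (O.w a i) (O.w a j) (O.w a l) / 9)
    (R : ℝ) (hR : -(inner ℝ (O.z a) (O.z i) + inner ℝ (O.z a) (O.z j) + inner ℝ (O.z a) (O.z l))
      ≤ R * ‖O.z a‖ ^ 2) (L : ℝ) (hL : 0 ≤ L) :
    L * ‖O.z a‖ ≤ ‖O.z a‖ ^ 2 * (1 + R) / 3 + 3 * √(2 / π) / (4 * π * D) * L ^ 3 := by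
  have hx : 0 < ‖O.z a‖ := norm_pos_iff.mpr hza
  set x := ‖O.z a‖ with hxdef
  set c : E n := (1 / 3 : ℝ) • (O.w a i + O.w a j + O.w a l) with hc
  set v1 : E n := O.w a i - c with hv1
  set v2 : E n := O.w a j - c with hv2
  set v3 : E n := O.w a l - c with hv3
  set e : E n := x⁻¹ • O.z a with he
  have hen : ‖e‖ = 1 := by
    rw [he, norm_smul, Real.norm_eq_abs, abs_of_pos (inv_pos.mpr hx), ← hxdef]
    exact inv_mul_cancel₀ hx.ne'
  have hzc : inner ℝ (O.z a) c = (0:ℝ) := by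
    rw [hc, real_inner_smul_right, inner_add_right, inner_add_right, O.inner_za_w hza,
      O.inner_za_w hza, O.inner_za_w hza]
    ring
  have hev : ∀ m, inner ℝ e (O.w a m - c) = (0:ℝ) := by
    intro m
    rw [he, real_inner_smul_left, inner_sub_right, O.inner_za_w hza, hzc]
    ring
  have hsum : v1 + v2 + v3 = 0 := by
    rw [hv1, hv2, hv3, hc]
    module
  have hD2 : D ^ 2 = ‖v1‖ ^ 2 * ‖v2‖ ^ 2 - (inner ℝ v1 v2) ^ 2 := by
    have h3 : v3 = -(v1 + v2) := by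
      rw [eq_neg_iff_add_eq_zero, ← hsum]; abel
    have e1 : O.w a i - O.w a l = (2:ℝ) • v1 + v2 := by
      have : O.w a i - O.w a l = v1 - v3 := by rw [hv1, hv3]; abel
      rw [this, h3]; module
    have e2 : O.w a j - O.w a l = v1 + (2:ℝ) • v2 := by
      have : O.w a j - O.w a l = v2 - v3 := by rw [hv2, hv3]; abel
      rw [this, h3]; module
    rw [hDsq, D4, e1, e2]
    rw [← real_inner_self_eq_norm_sq, ← real_inner_self_eq_norm_sq,
      ← real_inner_self_eq_norm_sq, ← real_inner_self_eq_norm_sq]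
    simp only [inner_add_left, inner_add_right, real_inner_smul_left, real_inner_smul_right,
      real_inner_comm v1 v2]
    ring
  set ri : ℝ := -(inner ℝ (O.z a) (O.z i) / x ^ 2) with hri
  set rj : ℝ := -(inner ℝ (O.z a) (O.z j) / x ^ 2) with hrj
  set rl : ℝ := -(inner ℝ (O.z a) (O.z l) / x ^ 2) with hrl
  set rb : ℝ := (ri + rj + rl) / 3 with hrb
  have hrow : ri + rj + rl ≤ R := by
    have h2 : ri + rj + rl = -(inner ℝ (O.z a) (O.z i) + inner ℝ (O.z a) (O.z j)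
        + inner ℝ (O.z a) (O.z l)) / x ^ 2 := by
      rw [hri, hrj, hrl]; ring
    rw [h2, div_le_iff₀ (by positivity)]
    exact hR
  have key := smallball' v1 v2 v3 e hen (hev i) (hev j) hsum D hDpos hD2
    (-(ri - rb) * x) (-(rj - rb) * x) (-(rl - rb) * x) (by rw [hrb]; ring) L hL (O.A a)
  -- rewrite the integrand
  have hz : ∀ m y, inner ℝ (O.z m) y = inner ℝ (O.w a m - c) y + inner ℝ c y
      - (-(inner ℝ (O.z a) (O.z m) / x ^ 2)) * x * inner ℝ e y := by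
    intro m y
    have hey : inner ℝ e y = x⁻¹ * inner ℝ (O.z a) y := by
      rw [he, real_inner_smul_left]
    rw [hey, inner_sub_left, O.inner_w_left, ← hxdef]
    generalize inner ℝ c y = cy
    field_simp
    ring
  have hT : ∀ y, max (max (inner ℝ v1 y + -(ri - rb) * x * inner ℝ e y)
      (inner ℝ v2 y + -(rj - rb) * x * inner ℝ e y)) (inner ℝ v3 y + -(rl - rb) * x * inner ℝ e y)
      = max (max (inner ℝ (O.z i) y) (inner ℝ (O.z j) y)) (inner ℝ (O.z l) y)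
        + (-(inner ℝ c y) + rb * inner ℝ (O.z a) y) := by
    intro y
    have hey : inner ℝ (O.z a) y = x * inner ℝ e y := by
      rw [he, real_inner_smul_left]
      field_simp
    rw [← max_add_add_right, ← max_add_add_right, hz i y, hz j y, hz l y, hey]
    congr 1
    · congr 1
      · rw [hri]; ring
      · rw [hrj]; ring
    · rw [hrl]; ring
  have hint : ∫ y in O.A a, max (max (inner ℝ v1 y + -(ri - rb) * x * inner ℝ e y)
      (inner ℝ v2 y + -(rj - rb) * x * inner ℝ e y)) (inner ℝ v3 y + -(rl - rb) * x * inner ℝ e y)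
        ∂(gam n) = (∫ y in O.A a, max (max (inner ℝ (O.z i) y) (inner ℝ (O.z j) y))
          (inner ℝ (O.z l) y) ∂(gam n)) + rb * x ^ 2 := by
    simp_rw [hT]
    have hfi : Integrable (fun y => max (max (inner ℝ (O.z i) y) (inner ℝ (O.z j) y))
          (inner ℝ (O.z l) y)) (gam n) :=
      ((integrable_inner (O.z i)).sup (integrable_inner (O.z j))).sup (integrable_inner (O.z l))
    have hgi : Integrable (fun y => -(inner ℝ c y) + rb * inner ℝ (O.z a) y) (gam n) :=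
      (integrable_inner c).neg.add ((integrable_inner (O.z a)).const_mul rb)
    have hni : Integrable (fun y => -(inner ℝ c y)) (gam n) := (integrable_inner c).neg
    rw [integral_add hfi.integrableOn hgi.integrableOn,
      integral_add hni.integrableOn
        ((integrable_inner (O.z a)).const_mul rb).integrableOn, integral_neg, integral_const_mul,
      O.cell_inner, O.cell_inner, real_inner_self_eq_norm_sq, real_inner_comm, hzc, ← hxdef]
    ring
  rw [hint] at key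
  have hrem := O.removal hai haj hal hij hil hjl
  have hza' : inner ℝ e (∫ y in O.A a, y ∂(gam n)) = x := by
    rw [← O.hz a, he, real_inner_smul_left, real_inner_self_eq_norm_sq, ← hxdef]
    field_simp
  rw [hza'] at key
  have h1 : rb ≤ R / 3 := by rw [hrb]; linarith
  have h2 : rb * x ^ 2 ≤ R / 3 * x ^ 2 := mul_le_mul_of_nonneg_right h1 (by positivity)
  linarith

/-- **The three-cells inequality.** -/
theorem N3wR (O : Opt k n) {a i j l : Fin (k + 1)} (hai : a ≠ i) (haj : a ≠ j)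
    (hal : a ≠ l) (hij : i ≠ j) (hil : i ≠ l) (hjl : j ≠ l) (hza : O.z a ≠ 0)
    (R : ℝ) (hR : -(inner ℝ (O.z a) (O.z i) + inner ℝ (O.z a) (O.z j) + inner ℝ (O.z a) (O.z l))
      ≤ R * ‖O.z a‖ ^ 2) :
    128 * π ^ 3 / 729 * D4 (O.w a i) (O.w a j) (O.w a l) ≤ ‖O.z a‖ ^ 2 * (1 + R) ^ 4 := by
  have hx : 0 < ‖O.z a‖ := norm_pos_iff.mpr hza
  have hR0 : 0 ≤ R := by
    have nai := O.inner_nonpos hai
    have naj := O.inner_nonpos haj
    have nal := O.inner_nonpos hal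
    by_contra hneg
    have : R * ‖O.z a‖ ^ 2 < 0 := mul_neg_of_neg_of_pos (not_le.mp hneg) (by positivity)
    linarith
  rcases le_or_gt (D4 (O.w a i) (O.w a j) (O.w a l)) 0 with hD4 | hD4
  · have : 128 * π ^ 3 / 729 * D4 (O.w a i) (O.w a j) (O.w a l) ≤ 0 :=
      mul_nonpos_of_nonneg_of_nonpos (by positivity) hD4
    have h2 : 0 ≤ ‖O.z a‖ ^ 2 * (1 + R) ^ 4 := by positivity
    linarith
  -- set up
  set D : ℝ := √(D4 (O.w a i) (O.w a j) (O.w a l) / 9) with hD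
  have hDpos : 0 < D := by rw [hD]; positivity
  have hDsq : D ^ 2 = D4 (O.w a i) (O.w a j) (O.w a l) / 9 := by
    rw [hD, Real.sq_sqrt (by positivity)]
  set x := ‖O.z a‖ with hxdef
  set C : ℝ := 3 * √(2 / π) / (4 * π * D) with hC
  have hCpos : 0 < C := by rw [hC]; positivity
  set L : ℝ := √(x / (3 * C)) with hLdef
  have hL0 : 0 < L := by rw [hLdef]; positivity
  have hL2 : L ^ 2 = x / (3 * C) := by rw [hLdef, Real.sq_sqrt (by positivity)]
  have key := O.N3L hai haj hal hij hil hjl hza D hDpos hDsq R hR L hL0.le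
  rw [← hxdef, ← hC] at key
  have h1 : C * L ^ 3 = L * x / 3 := by
    have : C * L ^ 3 = L * (C * L ^ 2) := by ring
    rw [this, hL2]
    field_simp
  rw [h1] at key
  have h2 : 2 * L ≤ x * (1 + R) := by
    have : x * (2 * L) ≤ x * (x * (1 + R)) := by nlinarith
    exact le_of_mul_le_mul_left this hx
  have h3 : (2 * L) ^ 2 ≤ (x * (1 + R)) ^ 2 := pow_le_pow_left₀ (by positivity) h2 2
  have h4 : 4 / (3 * C) ≤ x * (1 + R) ^ 2 := by
    have e1 : (2 * L) ^ 2 = x * (4 / (3 * C)) := by rw [mul_pow, hL2]; ring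
    have e2 : (x * (1 + R)) ^ 2 = x * (x * (1 + R) ^ 2) := by ring
    rw [e1, e2] at h3
    exact le_of_mul_le_mul_left h3 hx
  have h5 : (4 / (3 * C)) ^ 2 ≤ (x * (1 + R) ^ 2) ^ 2 := pow_le_pow_left₀ (by positivity) h4 2
  have h6 : (4 / (3 * C)) ^ 2 = 128 * π ^ 3 / 729 * D4 (O.w a i) (O.w a j) (O.w a l) := by
    have h7 : D4 (O.w a i) (O.w a j) (O.w a l) = 9 * D ^ 2 := by rw [hDsq]; ring
    rw [h7, hC]
    have h8 : (√(2 / π)) ^ 2 = 2 / π := Real.sq_sqrt (by positivity)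
    rw [div_pow, mul_pow, div_pow, mul_pow, h8]
    field_simp
    ring
  rw [← h6]
  refine h5.trans (le_of_eq (by ring))

/-- **The three-cells inequality.** -/
theorem N3w (O : Opt k n) {a i j l : Fin (k + 1)} (hai : a ≠ i) (haj : a ≠ j)
    (hal : a ≠ l) (hij : i ≠ j) (hil : i ≠ l) (hjl : j ≠ l) (hza : O.z a ≠ 0) :
    8 * π ^ 3 / 729 * D4 (O.w a i) (O.w a j) (O.w a l) ≤ ‖O.z a‖ ^ 2 := by
  have h := O.N3wR hai haj hal hij hil hjl hza 1
    (by rw [one_mul]; exact O.row_three hai haj hal hij hil hjl)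
  norm_num at h
  linarith

/-- `4 area^2` in terms of the Gram matrix -/
lemma D4_gram (u v w : E n) :
    D4 u v w = inner ℝ u u * inner ℝ v v + inner ℝ u u * inner ℝ w w + inner ℝ v v * inner ℝ w w
      - (-inner ℝ u v) ^ 2 - (-inner ℝ u w) ^ 2 - (-inner ℝ v w) ^ 2
      + 2 * ((-inner ℝ u v) * inner ℝ w w + (-inner ℝ u w) * inner ℝ v v
        + (-inner ℝ v w) * inner ℝ u u)
      + 2 * ((-inner ℝ u v) * (-inner ℝ u w) + (-inner ℝ u v) * (-inner ℝ v w)
        + (-inner ℝ u w) * (-inner ℝ v w)) := by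
  unfold D4
  rw [← real_inner_self_eq_norm_sq, ← real_inner_self_eq_norm_sq]
  simp only [inner_sub_left, inner_sub_right, real_inner_comm u w,
    real_inner_comm v w]
  ring

/-- **N3, general form.** -/
theorem N3top (O : Opt k n) {a i j l : Fin (k + 1)} (hai : a ≠ i) (haj : a ≠ j)
    (hal : a ≠ l) (hij : i ≠ j) (hil : i ≠ l) (hjl : j ≠ l) (hza : O.z a ≠ 0)
    (h1 : ‖O.z j‖ ^ 2 ≤ ‖O.z i‖ ^ 2) (h2 : ‖O.z l‖ ^ 2 ≤ ‖O.z j‖ ^ 2) :
    8 * π ^ 3 / 243 * (‖O.z j‖ ^ 2 * (‖O.z l‖ ^ 2 - ‖O.z a‖ ^ 2)) ≤ ‖O.z a‖ ^ 2 := by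
  have hx : 0 < ‖O.z a‖ := norm_pos_iff.mpr hza
  have hy : 0 < ‖O.z a‖ ^ 2 := by positivity
  rcases le_or_gt (‖O.z l‖ ^ 2) (‖O.z a‖ ^ 2) with hla | hla
  · have : 8 * π ^ 3 / 243 * (‖O.z j‖ ^ 2 * (‖O.z l‖ ^ 2 - ‖O.z a‖ ^ 2)) ≤ 0 :=
      mul_nonpos_of_nonneg_of_nonpos (by positivity)
        (mul_nonpos_of_nonneg_of_nonpos (by positivity) (by linarith))
    linarith
  have key := O.N3w hai haj hal hij hil hjl hza
  suffices h : 3 * (‖O.z j‖ ^ 2 * (‖O.z l‖ ^ 2 - ‖O.z a‖ ^ 2))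
      ≤ D4 (O.w a i) (O.w a j) (O.w a l) by
    have hp : 0 ≤ 8 * π ^ 3 / 729 := by positivity
    have h' := mul_le_mul_of_nonneg_left h hp
    linarith
  have ri := O.row_three hai.symm hij hil haj hal hjl
  have rj := O.row_three haj.symm hij.symm hjl hai hal hil
  have rl := O.row_three hal.symm hil.symm hjl.symm hai haj hij
  have ra := O.row_three hai haj hal hij hil hjl
  rw [real_inner_comm (O.z a) (O.z i)] at ri
  rw [real_inner_comm (O.z a) (O.z j), real_inner_comm (O.z i) (O.z j)] at rj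
  rw [real_inner_comm (O.z a) (O.z l), real_inner_comm (O.z i) (O.z l),
    real_inner_comm (O.z j) (O.z l)] at rl
  have nai := O.inner_nonpos hai
  have naj := O.inner_nonpos haj
  have nal := O.inner_nonpos hal
  have nij := O.inner_nonpos hij
  have nil := O.inner_nonpos hil
  have njl := O.inner_nonpos hjl
  have hyne : ‖O.z a‖ ^ 2 ≠ 0 := hy.ne'
  have ediv : ∀ g : ℝ, -g / ‖O.z a‖ ^ 2 * ‖O.z a‖ ^ 2 = -g := by
    intro g; field_simp
  have h := area_real (‖O.z i‖ ^ 2) (‖O.z j‖ ^ 2) (‖O.z l‖ ^ 2) (‖O.z a‖ ^ 2)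
    (-inner ℝ (O.z a) (O.z i) / ‖O.z a‖ ^ 2) (-inner ℝ (O.z a) (O.z j) / ‖O.z a‖ ^ 2)
    (-inner ℝ (O.z a) (O.z l) / ‖O.z a‖ ^ 2) (-inner ℝ (O.z i) (O.z j))
    (-inner ℝ (O.z i) (O.z l)) (-inner ℝ (O.z j) (O.z l)) hy hla.le h1 h2
    (div_nonneg (by linarith) hy.le) (div_nonneg (by linarith) hy.le)
    (div_nonneg (by linarith) hy.le)
    (by rw [← add_div, ← add_div, div_le_one hy]; linarith)
    (by linarith) (by linarith) (by linarith)
    (by rw [ediv]; linarith) (by rw [ediv]; linarith) (by rw [ediv]; linarith)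
  rw [D4_gram]
  simp only [O.inner_w hza, real_inner_self_eq_norm_sq]
  refine h.trans (le_of_eq ?_)
  generalize inner ℝ (O.z i) (O.z j) = gij
  generalize inner ℝ (O.z i) (O.z l) = gil
  generalize inner ℝ (O.z j) (O.z l) = gjl
  generalize inner ℝ (O.z a) (O.z i) = ga
  generalize inner ℝ (O.z a) (O.z j) = gb
  generalize inner ℝ (O.z a) (O.z l) = gc
  have e1 : ∀ u v : ℝ, -u / ‖O.z a‖ ^ 2 * (-v / ‖O.z a‖ ^ 2) * ‖O.z a‖ ^ 2
      = u * v / ‖O.z a‖ ^ 2 := by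
    intro u v; field_simp
  have e2 : ∀ u : ℝ, (-u / ‖O.z a‖ ^ 2) ^ 2 * ‖O.z a‖ ^ 2 = u * u / ‖O.z a‖ ^ 2 := by
    intro u; field_simp
  simp only [e1, e2]
  ring

/-- **N3, form with parameters `m` and `R`.** -/
theorem N3R (O : Opt k n) {a i j l : Fin (k + 1)} (hai : a ≠ i) (haj : a ≠ j)
    (hal : a ≠ l) (hij : i ≠ j) (hil : i ≠ l) (hjl : j ≠ l) (hza : O.z a ≠ 0)
    (m R : ℝ) (hm : 0 ≤ m) (hmi : m ≤ ‖O.z i‖ ^ 2) (hmj : m ≤ ‖O.z j‖ ^ 2)
    (hml : m ≤ ‖O.z l‖ ^ 2)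
    (hR : -(inner ℝ (O.z a) (O.z i) + inner ℝ (O.z a) (O.z j) + inner ℝ (O.z a) (O.z l))
      ≤ R * ‖O.z a‖ ^ 2) :
    128 * π ^ 3 / 243 * (m * (m - ‖O.z a‖ ^ 2)) ≤ ‖O.z a‖ ^ 2 * (1 + R) ^ 4 := by
  have hx : 0 < ‖O.z a‖ := norm_pos_iff.mpr hza
  have hy : 0 < ‖O.z a‖ ^ 2 := by positivity
  have key := O.N3wR hai haj hal hij hil hjl hza R hR
  rcases le_or_gt m (‖O.z a‖ ^ 2) with hla | hla
  · have h1 : 128 * π ^ 3 / 243 * (m * (m - ‖O.z a‖ ^ 2)) ≤ 0 :=
      mul_nonpos_of_nonneg_of_nonpos (by positivity)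
        (mul_nonpos_of_nonneg_of_nonpos hm (by linarith))
    have h2 : 0 ≤ ‖O.z a‖ ^ 2 * (1 + R) ^ 4 := by positivity
    linarith
  suffices h : 3 * (m * (m - ‖O.z a‖ ^ 2))
      ≤ D4 (O.w a i) (O.w a j) (O.w a l) by
    have hp : 0 ≤ 128 * π ^ 3 / 729 := by positivity
    have h' := mul_le_mul_of_nonneg_left h hp
    linarith
  have ri := O.row_three hai.symm hij hil haj hal hjl
  have rj := O.row_three haj.symm hij.symm hjl hai hal hil
  have rl := O.row_three hal.symm hil.symm hjl.symm hai haj hij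
  have ra := O.row_three hai haj hal hij hil hjl
  rw [real_inner_comm (O.z a) (O.z i)] at ri
  rw [real_inner_comm (O.z a) (O.z j), real_inner_comm (O.z i) (O.z j)] at rj
  rw [real_inner_comm (O.z a) (O.z l), real_inner_comm (O.z i) (O.z l),
    real_inner_comm (O.z j) (O.z l)] at rl
  have nai := O.inner_nonpos hai
  have naj := O.inner_nonpos haj
  have nal := O.inner_nonpos hal
  have nij := O.inner_nonpos hij
  have nil := O.inner_nonpos hil
  have njl := O.inner_nonpos hjl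
  have hyne : ‖O.z a‖ ^ 2 ≠ 0 := hy.ne'
  have ediv : ∀ g : ℝ, -g / ‖O.z a‖ ^ 2 * ‖O.z a‖ ^ 2 = -g := by
    intro g; field_simp
  have h := area_real2 (‖O.z i‖ ^ 2) (‖O.z j‖ ^ 2) (‖O.z l‖ ^ 2) (‖O.z a‖ ^ 2)
    (-inner ℝ (O.z a) (O.z i) / ‖O.z a‖ ^ 2) (-inner ℝ (O.z a) (O.z j) / ‖O.z a‖ ^ 2)
    (-inner ℝ (O.z a) (O.z l) / ‖O.z a‖ ^ 2) (-inner ℝ (O.z i) (O.z j))
    (-inner ℝ (O.z i) (O.z l)) (-inner ℝ (O.z j) (O.z l)) m hy hla.le hmi hmj hml
    (div_nonneg (by linarith) hy.le) (div_nonneg (by linarith) hy.le)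
    (div_nonneg (by linarith) hy.le)
    (by rw [← add_div, ← add_div, div_le_one hy]; linarith)
    (by linarith) (by linarith) (by linarith)
    (by rw [ediv]; linarith) (by rw [ediv]; linarith) (by rw [ediv]; linarith)
  rw [D4_gram]
  simp only [O.inner_w hza, real_inner_self_eq_norm_sq]
  refine h.trans (le_of_eq ?_)
  generalize inner ℝ (O.z i) (O.z j) = gij
  generalize inner ℝ (O.z i) (O.z l) = gil
  generalize inner ℝ (O.z j) (O.z l) = gjl
  generalize inner ℝ (O.z a) (O.z i) = ga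
  generalize inner ℝ (O.z a) (O.z j) = gb
  generalize inner ℝ (O.z a) (O.z l) = gc
  have e1 : ∀ u v : ℝ, -u / ‖O.z a‖ ^ 2 * (-v / ‖O.z a‖ ^ 2) * ‖O.z a‖ ^ 2
      = u * v / ‖O.z a‖ ^ 2 := by
    intro u v; field_simp
  have e2 : ∀ u : ℝ, (-u / ‖O.z a‖ ^ 2) ^ 2 * ‖O.z a‖ ^ 2 = u * u / ‖O.z a‖ ^ 2 := by
    intro u; field_simp
  simp only [e1, e2]
  ring

/-- **N3 for four cells.** -/
theorem N3four (O : Opt 3 n) {a i j l : Fin 4} (hai : a ≠ i) (haj : a ≠ j)
    (hal : a ≠ l) (hij : i ≠ j) (hil : i ≠ l) (hjl : j ≠ l) (hza : O.z a ≠ 0)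
    (bi bj bl : ℝ) (hbi : bi = ‖O.z i‖ ^ 2 - (inner ℝ (O.z a) (O.z i)) ^ 2 / ‖O.z a‖ ^ 2)
    (hbj : bj = ‖O.z j‖ ^ 2 - (inner ℝ (O.z a) (O.z j)) ^ 2 / ‖O.z a‖ ^ 2)
    (hbl : bl = ‖O.z l‖ ^ 2 - (inner ℝ (O.z a) (O.z l)) ^ 2 / ‖O.z a‖ ^ 2) :
    2 * π ^ 3 / 81 * (2 * (bi * bj + bi * bl + bj * bl) - bi ^ 2 - bj ^ 2 - bl ^ 2)
      ≤ ‖O.z a‖ ^ 2 := by
  have key := O.N3w hai haj hal hij hil hjl hza
  have huniv : ({a, i, j, l} : Finset (Fin 4)) = Finset.univ := by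
    apply Finset.eq_univ_of_card
    rw [Finset.card_insert_of_notMem (by simp [hai, haj, hal]),
      Finset.card_insert_of_notMem (by simp [hij, hil]),
      Finset.card_insert_of_notMem (by simp [hjl]), Finset.card_singleton]
    rfl
  have hzsum : O.z a + O.z i + O.z j + O.z l = 0 := by
    have h0 := O.sum_zero
    rw [← huniv, Finset.sum_insert (by simp [hai, haj, hal]),
      Finset.sum_insert (by simp [hij, hil]), Finset.sum_insert (by simp [hjl]),
      Finset.sum_singleton] at h0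
    rw [← h0]; abel
  have hwsum : O.w a i + O.w a j + O.w a l = 0 := by
    have h1 : O.z i + O.z j + O.z l = -O.z a := by
      rw [eq_neg_iff_add_eq_zero, ← hzsum]; abel
    have h2 : inner ℝ (O.z a) (O.z i) + inner ℝ (O.z a) (O.z j) + inner ℝ (O.z a) (O.z l)
        = -‖O.z a‖ ^ 2 := by
      rw [← inner_add_right, ← inner_add_right, h1, inner_neg_right, real_inner_self_eq_norm_sq]
    have h3 : ‖O.z a‖ ^ 2 ≠ 0 := by
      have := norm_pos_iff.mpr hza
      positivity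
    have h4 : O.w a i + O.w a j + O.w a l = (O.z i + O.z j + O.z l)
        - ((inner ℝ (O.z a) (O.z i) + inner ℝ (O.z a) (O.z j) + inner ℝ (O.z a) (O.z l))
          / ‖O.z a‖ ^ 2) • O.z a := by
      unfold w
      rw [add_div, add_div]
      module
    rw [h4, h1, h2, neg_div, div_self h3]
    module
  have hb : ∀ m, inner ℝ (O.w a m) (O.w a m)
      = ‖O.z m‖ ^ 2 - (inner ℝ (O.z a) (O.z m)) ^ 2 / ‖O.z a‖ ^ 2 := by
    intro m
    rw [O.inner_w hza, real_inner_self_eq_norm_sq, sq (inner ℝ (O.z a) (O.z m))]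
  have r1 : inner ℝ (O.w a i) (O.w a i + O.w a j + O.w a l) = (0:ℝ) := by
    rw [hwsum, inner_zero_right]
  have r2 : inner ℝ (O.w a j) (O.w a i + O.w a j + O.w a l) = (0:ℝ) := by
    rw [hwsum, inner_zero_right]
  have r3 : inner ℝ (O.w a l) (O.w a i + O.w a j + O.w a l) = (0:ℝ) := by
    rw [hwsum, inner_zero_right]
  rw [inner_add_right, inner_add_right, hb, ← hbi] at r1
  rw [inner_add_right, inner_add_right, hb, ← hbj, real_inner_comm] at r2
  rw [inner_add_right, inner_add_right, hb, ← hbl, real_inner_comm,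
    real_inner_comm (O.w a j) (O.w a l)] at r3
  rw [D4_gram, hb, hb, hb, ← hbi, ← hbj, ← hbl] at key
  generalize inner ℝ (O.w a i) (O.w a j) = gij at *
  generalize inner ℝ (O.w a i) (O.w a l) = gil at *
  generalize inner ℝ (O.w a j) (O.w a l) = gjl at *
  have s1 : gij = (bl - bi - bj) / 2 := by linarith
  have s2 : gil = (bj - bi - bl) / 2 := by linarith
  have s3 : gjl = (bi - bj - bl) / 2 := by linarith
  rw [s1, s2, s3] at key
  refine le_trans (le_of_eq ?_) key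
  ring

end Opt

end Vale.Agent.P226
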