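import Vale.Agent.P226.Cap
import Vale.Agent.P226.JEval
import Vale.Agent.P226.N3
import Vale.Agent.P226.Facts

/-!
# P226 [ASM]: the scaled quantities of an optimal configuration
-/

open MeasureTheory ProbabilityTheory Real

namespace Vale.Agent.P226

open OptAux

namespace Opt

variable {k n : ℕ}

/-- `X i = √(2π) |z_i|` -/
noncomputable def X (O : Opt k n) (i : Fin (k + 1)) : ℝ := √(2 * π) * ‖O.z i‖

/-- `p i = γ(A_i)` -/
noncomputable def p (O : Opt k n) (i : Fin (k + 1)) : ℝ := (gam n).real (O.A i)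

theorem p_nonneg (O : Opt k n) (i : Fin (k + 1)) : 0 ≤ O.p i := measureReal_nonneg

theorem sum_p (O : Opt k n) : ∑ i, O.p i = 1 := by
  have h1 := integral_partition O.meas O.disj O.cover
    (f := fun _ : E n => (1 : ℝ)) (integrable_const 1)
  simp only [integral_const, smul_eq_mul, mul_one] at h1
  rw [probReal_univ] at h1
  rw [h1]
  refine Finset.sum_congr rfl fun i _ => ?_
  rw [measureReal_restrict_apply MeasurableSet.univ, Set.univ_inter]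
  rfl

theorem X_nonneg (O : Opt k n) (i : Fin (k + 1)) : 0 ≤ O.X i := by
  unfold X; positivity

theorem X_pos (O : Opt k n) (hz : ∀ a, O.z a ≠ 0) (i : Fin (k + 1)) : 0 < O.X i := by
  unfold X
  have := norm_pos_iff.2 (hz i)
  positivity

theorem X_sq (O : Opt k n) (i : Fin (k + 1)) : O.X i ^ 2 = 2 * π * ‖O.z i‖ ^ 2 := by
  unfold X
  rw [mul_pow, Real.sq_sqrt (by positivity)]

theorem sum_X_sq (O : Opt k n) : 9 / 4 < ∑ i, O.X i ^ 2 := by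
  have h1 := O.big
  simp only [X_sq]
  rw [← Finset.mul_sum]
  unfold m0 at h1
  have hpi := Real.pi_pos
  calc (9 / 4 : ℝ) = 2 * π * (9 / (8 * π)) := by field_simp; norm_num
    _ < _ := by gcongr

/-- sum of the pairings with the other vectors -/
theorem sum_neg_inner (O : Opt k n) (a : Fin (k + 1)) :
    ∑ j ∈ Finset.univ.erase a, -inner ℝ (O.z a) (O.z j) = ‖O.z a‖ ^ 2 := by
  have h1 := congrArg (fun v => inner ℝ (O.z a) v) O.sum_zero
  simp only [inner_zero_right] at h1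
  rw [inner_sum, ← Finset.add_sum_erase _ _ (Finset.mem_univ a), real_inner_self_eq_norm_sq] at h1
  rw [Finset.sum_neg_distrib]
  linarith

theorem triple_le (O : Opt k n) {a i j l : Fin (k + 1)}
    (hai : a ≠ i) (haj : a ≠ j) (hal : a ≠ l) (hij : i ≠ j) (hil : i ≠ l) (hjl : j ≠ l) :
    -(inner ℝ (O.z a) (O.z i) + inner ℝ (O.z a) (O.z j) + inner ℝ (O.z a) (O.z l))
      ≤ 1 * ‖O.z a‖ ^ 2 := by
  classical
  rw [one_mul, ← O.sum_neg_inner a]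
  have hsub : ({i, j, l} : Finset (Fin (k + 1))) ⊆ Finset.univ.erase a := by
    intro m hm
    simp only [Finset.mem_insert, Finset.mem_singleton] at hm
    rw [Finset.mem_erase]
    rcases hm with rfl | rfl | rfl
    · exact ⟨hai.symm, Finset.mem_univ _⟩
    · exact ⟨haj.symm, Finset.mem_univ _⟩
    · exact ⟨hal.symm, Finset.mem_univ _⟩
  have h1 : ∑ m ∈ ({i, j, l} : Finset (Fin (k + 1))), -inner ℝ (O.z a) (O.z m) ≤
      ∑ m ∈ Finset.univ.erase a, -inner ℝ (O.z a) (O.z m) := by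
    refine Finset.sum_le_sum_of_subset_of_nonneg hsub ?_
    intro m hm _
    rw [Finset.mem_erase] at hm
    have := O.inner_nonpos (Ne.symm hm.1)
    linarith
  rw [Finset.sum_insert (by simp [hij, hil]), Finset.sum_insert (by simp [hjl]),
    Finset.sum_singleton] at h1
  linarith

/-- scaled form of `N3R` -/
theorem N_scaled (O : Opt k n) {a i j l : Fin (k + 1)}
    (hai : a ≠ i) (haj : a ≠ j) (hal : a ≠ l) (hij : i ≠ j) (hil : i ≠ l) (hjl : j ≠ l)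
    (hz : ∀ a, O.z a ≠ 0) (m R : ℝ) (hm : 0 ≤ m) (hmi : m ≤ O.X i ^ 2) (hmj : m ≤ O.X j ^ 2)
    (hml : m ≤ O.X l ^ 2)
    (hR : -(inner ℝ (O.z a) (O.z i) + inner ℝ (O.z a) (O.z j) + inner ℝ (O.z a) (O.z l))
      ≤ R * ‖O.z a‖ ^ 2) :
    64 * π ^ 2 / 243 * (m * (m - O.X a ^ 2)) ≤ O.X a ^ 2 * (1 + R) ^ 4 := by
  have hpi := Real.pi_pos
  have h2pi : 0 < 2 * π := by positivity
  rw [X_sq] at hmi hmj hml
  have hconv : ∀ t : ℝ, m ≤ 2 * π * t → m / (2 * π) ≤ t := by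
    intro t ht
    rw [div_le_iff₀ h2pi]
    linarith
  have h1 := O.N3R hai haj hal hij hil hjl (hz a) (m / (2 * π)) R (by positivity)
    (hconv _ hmi) (hconv _ hmj) (hconv _ hml) hR
  rw [X_sq]
  have h2 : m / (2 * π) * (m / (2 * π) - ‖O.z a‖ ^ 2) =
      (m * (m - 2 * π * ‖O.z a‖ ^ 2)) / (4 * π ^ 2) := by
    field_simp
    ring
  rw [h2] at h1
  have h3 : 128 * π ^ 3 / 243 * ((m * (m - 2 * π * ‖O.z a‖ ^ 2)) / (4 * π ^ 2)) * (2 * π) =
      64 * π ^ 2 / 243 * (m * (m - 2 * π * ‖O.z a‖ ^ 2)) := by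
    field_simp
    ring
  rw [← h3]
  calc 128 * π ^ 3 / 243 * ((m * (m - 2 * π * ‖O.z a‖ ^ 2)) / (4 * π ^ 2)) * (2 * π)
      ≤ (‖O.z a‖ ^ 2 * (1 + R) ^ 4) * (2 * π) := by gcongr
    _ = _ := by ring

theorem hN1 (O : Opt k n) (hz : ∀ a, O.z a ≠ 0) {a i j l : Fin (k + 1)}
    (hai : a ≠ i) (haj : a ≠ j) (hal : a ≠ l) (hij : i ≠ j) (hil : i ≠ l) (hjl : j ≠ l)
    (m : ℝ) (hm : 0 ≤ m) (hmi : m ≤ O.X i ^ 2) (hmj : m ≤ O.X j ^ 2) (hml : m ≤ O.X l ^ 2) :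
    1624 / 10000 * m * (m - O.X a ^ 2) ≤ O.X a ^ 2 := by
  have h1 := O.N_scaled hai haj hal hij hil hjl hz m 1 hm hmi hmj hml
    (O.triple_le hai haj hal hij hil hjl)
  have hpi := Real.pi_gt_d4
  have hsq : 3.1415 ^ 2 < π ^ 2 := by gcongr
  have hX : 0 ≤ O.X a ^ 2 := by positivity
  rcases le_or_gt 0 (m * (m - O.X a ^ 2)) with h2 | h2
  · nlinarith
  · nlinarith

theorem hN4 {n : ℕ} (O : Opt 4 n) (hz : ∀ a, O.z a ≠ 0) (a : Fin 5)
    (m : ℝ) (hm : 0 ≤ m) (hmj : ∀ j, j ≠ a → m ≤ O.X j ^ 2) :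
    2771 / 10000 * m * (m - O.X a ^ 2) ≤ O.X a ^ 2 := by
  classical
  -- the four others
  set s : Fin 4 → Fin 5 := a.succAbove with hs
  have hsa : ∀ i, a ≠ s i := fun i => (Fin.succAbove_ne a i).symm
  have hinj : ∀ i j, i ≠ j → s i ≠ s j := fun i j hij h => hij (Fin.succAbove_right_injective h)
  set r : Fin 4 → ℝ := fun i => -inner ℝ (O.z a) (O.z (s i)) with hr
  have hsum : r 0 + r 1 + r 2 + r 3 = ‖O.z a‖ ^ 2 := by
    have h1 := congrArg (fun v => inner ℝ (O.z a) v) O.sum_zero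
    simp only [inner_zero_right] at h1
    rw [inner_sum, Fin.sum_univ_succAbove _ a, real_inner_self_eq_norm_sq, Fin.sum_univ_four] at h1
    simp only [hr, hs]
    linarith
  have key : ∀ i j l : Fin 4, i ≠ j → i ≠ l → j ≠ l → r i + r j + r l ≤ 3 / 4 * ‖O.z a‖ ^ 2 →
      2771 / 10000 * m * (m - O.X a ^ 2) ≤ O.X a ^ 2 := by
    intro i j l hij hil hjl hR
    have h1 := O.N_scaled (hsa i) (hsa j) (hsa l) (hinj _ _ hij) (hinj _ _ hil) (hinj _ _ hjl) hz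
      m (3 / 4) hm (hmj _ (hsa i).symm) (hmj _ (hsa j).symm) (hmj _ (hsa l).symm) (by
        simp only [hr] at hR
        linarith)
    have hpi := Real.pi_gt_d4
    have hsq : 3.1415 ^ 2 < π ^ 2 := by gcongr
    have hX : 0 ≤ O.X a ^ 2 := by positivity
    rcases le_or_gt 0 (m * (m - O.X a ^ 2)) with h2 | h2
    · nlinarith
    · nlinarith
  by_contra hcon
  have h0 : ¬ (r 0 + r 1 + r 2 ≤ 3 / 4 * ‖O.z a‖ ^ 2) :=
    fun h => hcon (key 0 1 2 (by decide) (by decide) (by decide) h)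
  have h1 : ¬ (r 0 + r 1 + r 3 ≤ 3 / 4 * ‖O.z a‖ ^ 2) :=
    fun h => hcon (key 0 1 3 (by decide) (by decide) (by decide) h)
  have h2 : ¬ (r 0 + r 2 + r 3 ≤ 3 / 4 * ‖O.z a‖ ^ 2) :=
    fun h => hcon (key 0 2 3 (by decide) (by decide) (by decide) h)
  have h3 : ¬ (r 1 + r 2 + r 3 ≤ 3 / 4 * ‖O.z a‖ ^ 2) :=
    fun h => hcon (key 1 2 3 (by decide) (by decide) (by decide) h)
  rw [not_le] at h0 h1 h2 h3
  linarith

/-- the cap line for the cell `i` -/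
theorem line (O : Opt k n) (hn : 3 ≤ n) (i : Fin (k + 1)) (c : ℝ) (hc0 : 0 ≤ c) (hc1 : c ≤ 1) :
    O.X i ≤ (√(1 - c ^ 2)) ^ (n - 1) + ((n : ℝ) - 1) * c * (J n (-1) * O.p i - J n c) := by
  have h1 := cap_line hn (O.A i) (O.meas i) (O.cone i) c hc0 hc1
  rw [← O.hz i] at h1
  exact h1

theorem line3 (O : Opt k 3) (i : Fin (k + 1)) (c : ℝ) (hc0 : 0 ≤ c) (hc1 : c ≤ 1) :
    O.X i ≤ (1 - c ^ 2) + 2 * c * (2 * O.p i - (1 - c)) := by
  have h1 := O.line le_rfl i c hc0 hc1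
  have hsq : 0 ≤ 1 - c ^ 2 := by nlinarith
  rw [J_three (-1) le_rfl (by norm_num), J_three c (by linarith) hc1] at h1
  have e1 : (√(1 - c ^ 2)) ^ (3 - 1) = 1 - c ^ 2 := by
    show (√(1 - c ^ 2)) ^ 2 = _
    exact Real.sq_sqrt hsq
  rw [e1] at h1
  push_cast at h1
  linarith

theorem line4 (O : Opt k 4) (i : Fin (k + 1)) (c : ℝ) (hc0 : 0 ≤ c) (hc1 : c ≤ 1) :
    O.X i ≤ (1 - c ^ 2) * √(1 - c ^ 2) + 3 * c * (π / 2 * O.p i - J 4 c) := by
  have h1 := O.line (by norm_num) i c hc0 hc1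
  have hsq : 0 ≤ 1 - c ^ 2 := by nlinarith
  have hJ : J 4 (-1) = π / 2 := by
    rw [J_four (-1) le_rfl (by norm_num), Real.arccos_neg_one]
    norm_num
  rw [hJ] at h1
  have e1 : (√(1 - c ^ 2)) ^ (4 - 1) = (1 - c ^ 2) * √(1 - c ^ 2) := by
    show (√(1 - c ^ 2)) ^ 3 = _
    rw [pow_succ, Real.sq_sqrt hsq]
  rw [e1] at h1
  push_cast at h1
  linarith

theorem line5 (O : Opt k 5) (i : Fin (k + 1)) (c : ℝ) (hc0 : 0 ≤ c) (hc1 : c ≤ 1) :
    O.X i ≤ (1 - c ^ 2) ^ 2 + 4 * c * (4 / 3 * O.p i - (2 / 3 - c + c ^ 3 / 3)) := by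
  have h1 := O.line (by norm_num) i c hc0 hc1
  have hsq : 0 ≤ 1 - c ^ 2 := by nlinarith
  rw [J_five (-1) le_rfl (by norm_num), J_five c (by linarith) hc1] at h1
  have e1 : (√(1 - c ^ 2)) ^ (5 - 1) = (1 - c ^ 2) ^ 2 := by
    show (√(1 - c ^ 2)) ^ (2 * 2) = _
    rw [pow_mul, Real.sq_sqrt hsq]
  rw [e1] at h1
  push_cast at h1
  linarith

theorem line7 (O : Opt k 7) (i : Fin (k + 1)) (c : ℝ) (hc0 : 0 ≤ c) (hc1 : c ≤ 1) :
    O.X i ≤ (1 - c ^ 2) ^ 3 +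
      6 * c * (16 / 15 * O.p i - (8 / 15 - c + 2 * c ^ 3 / 3 - c ^ 5 / 5)) := by
  have h1 := O.line (by norm_num) i c hc0 hc1
  have hsq : 0 ≤ 1 - c ^ 2 := by nlinarith
  rw [J_seven (-1) le_rfl (by norm_num), J_seven c (by linarith) hc1] at h1
  have e1 : (√(1 - c ^ 2)) ^ (7 - 1) = (1 - c ^ 2) ^ 3 := by
    show (√(1 - c ^ 2)) ^ (2 * 3) = _
    rw [pow_mul, Real.sq_sqrt hsq]
  rw [e1] at h1
  push_cast at h1
  linarith

theorem line9 (O : Opt k 9) (i : Fin (k + 1)) (c : ℝ) (hc0 : 0 ≤ c) (hc1 : c ≤ 1) :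
    O.X i ≤ (1 - c ^ 2) ^ 4 +
      8 * c * (32 / 35 * O.p i - (16 / 35 - c + c ^ 3 - 3 * c ^ 5 / 5 + c ^ 7 / 7)) := by
  have h1 := O.line (by norm_num) i c hc0 hc1
  have hsq : 0 ≤ 1 - c ^ 2 := by nlinarith
  rw [J_nine (-1) le_rfl (by norm_num), J_nine c (by linarith) hc1] at h1
  have e1 : (√(1 - c ^ 2)) ^ (9 - 1) = (1 - c ^ 2) ^ 4 := by
    show (√(1 - c ^ 2)) ^ (2 * 4) = _
    rw [pow_mul, Real.sq_sqrt hsq]
  rw [e1] at h1
  push_cast at h1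
  linarith

end Opt

end Vale.Agent.P226
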