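import Vale.Agent.P226.Defs

/-!
# P226, piece OM: orthonormal marginals of the standard Gaussian measure
-/

open MeasureTheory ProbabilityTheory Real

namespace Vale.Agent.P226

theorem map_orthonormal_aux {n m : ℕ} (u : Fin m → E n) (hu : Orthonormal ℝ u) :
    (gam n).map (fun x => (WithLp.toLp 2 (fun i => inner ℝ (u i) x) : E m)) = gam m := by
  have hmeas : Measurable (fun x : E n => (WithLp.toLp 2 (fun i => inner ℝ (u i) x) : E m)) := by
    fun_prop
  apply Measure.ext_of_charFun
  ext t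
  rw [charFun_stdGaussian, charFun_apply,
    integral_map hmeas.aemeasurable (Measurable.aestronglyMeasurable (by fun_prop))]
  have h1 : ∀ x : E n, inner ℝ (WithLp.toLp 2 (fun i => inner ℝ (u i) x) : E m) t
      = inner ℝ x (∑ i, t i • u i) := by
    intro x
    rw [PiLp.inner_apply, inner_sum]
    refine Finset.sum_congr rfl fun i _ => ?_
    rw [inner_smul_right, real_inner_comm (u i) x]
    simp
  simp_rw [h1]
  rw [← charFun_apply, charFun_stdGaussian]
  have h2 : ‖∑ i, t i • u i‖ ^ 2 = ‖t‖ ^ 2 := by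
    rw [← real_inner_self_eq_norm_sq, hu.inner_sum, EuclideanSpace.real_norm_sq_eq]
    simp [sq]
  rw [← Complex.ofReal_pow, h2, Complex.ofReal_pow]

/-- if `u` is an orthonormal family, `x ↦ (<u_i,x>)_i` maps the standard Gaussian to the product
of standard Gaussians -/
theorem map_orthonormal {n m : ℕ} (u : Fin m → E n) (hu : Orthonormal ℝ u) :
    (gam n).map (fun x => (fun i => inner ℝ (u i) x : Fin m → ℝ))
      = Measure.pi (fun _ : Fin m => gaussianReal 0 1) := by
  have h := map_orthonormal_aux u hu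
  have h2 : (gam m).map (WithLp.ofLp) = Measure.pi (fun _ : Fin m => gaussianReal 0 1) := by
    have h3 := map_pi_eq_stdGaussian (ι := Fin m)
    unfold gam
    rw [← h3, Measure.map_map (by fun_prop) (by fun_prop)]
    have : (WithLp.ofLp ∘ WithLp.toLp 2 : (Fin m → ℝ) → (Fin m → ℝ)) = id := by
      ext; rfl
    rw [this, Measure.map_id]
  rw [← h2, ← h, Measure.map_map (by fun_prop) (by fun_prop)]
  rfl

theorem map_unit {n : ℕ} (w : E n) (hw : ‖w‖ = 1) :
    (gam n).map (fun x => inner ℝ w x) = gaussianReal 0 1 := by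
  apply Measure.ext_of_charFun
  ext t
  rw [charFun_gaussianReal, charFun_apply,
    integral_map (Measurable.aemeasurable (by fun_prop))
      (Measurable.aestronglyMeasurable (by fun_prop))]
  have h1 : ∀ x : E n, inner ℝ (inner ℝ w x : ℝ) t = inner ℝ x (t • w) := by
    intro x
    rw [inner_smul_right, real_inner_comm x w]
    simp
  simp_rw [h1]
  rw [← charFun_apply, charFun_stdGaussian, norm_smul, hw]
  congr 1
  simp only [mul_one, Complex.ofReal_zero, mul_zero, zero_mul, NNReal.coe_one, Complex.ofReal_one,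
    one_mul, zero_sub, norm_eq_abs]
  rw [← Complex.ofReal_pow, sq_abs, Complex.ofReal_pow, neg_div]

theorem integral_abs_gaussian : ∫ x, |x| ∂(gaussianReal 0 1) = √(2 / π) := by
  rw [integral_gaussianReal_eq_integral_smul (by norm_num)]
  have h1 : ∀ x : ℝ, gaussianPDFReal 0 1 x • |x|
      = (fun y : ℝ => (√(2 * π))⁻¹ * (y * exp (-y ^ 2 / 2))) |x| := by
    intro x
    simp only [gaussianPDFReal, NNReal.coe_one, mul_one, sub_zero, smul_eq_mul, sq_abs]
    ring
  simp_rw [h1]
  rw [integral_comp_abs (f := fun y : ℝ => (√(2 * π))⁻¹ * (y * exp (-y ^ 2 / 2))),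
    integral_const_mul]
  have h2 : ∫ y in Set.Ioi (0 : ℝ), y * exp (-y ^ 2 / 2) = 1 := by
    have h := integral_rpow_mul_exp_neg_mul_rpow (p := 2) (q := 1) (b := 1 / 2)
      (by norm_num) (by norm_num) (by norm_num)
    have h3 : ∫ y in Set.Ioi (0 : ℝ), y * exp (-y ^ 2 / 2)
        = ∫ y in Set.Ioi (0 : ℝ), y ^ (1 : ℝ) * exp (-(1 / 2) * y ^ (2 : ℝ)) := by
      refine setIntegral_congr_fun measurableSet_Ioi fun y hy => ?_
      simp only [rpow_one, rpow_ofNat]
      congr 2
      ring
    rw [h3, h]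
    norm_num
  rw [h2, mul_one]
  have hp : 0 < π := pi_pos
  rw [sqrt_div (by norm_num), sqrt_mul (by norm_num)]
  have e2 : √2 * √2 = (2 : ℝ) := mul_self_sqrt (by norm_num)
  have h4 : (0 : ℝ) < √2 := sqrt_pos.mpr (by norm_num)
  have h5 : (0 : ℝ) < √π := sqrt_pos.mpr hp
  field_simp
  linarith

/-- one-dimensional marginal -/
theorem integral_abs_inner {n : ℕ} (w : E n) :
    ∫ x, |inner ℝ w x| ∂(gam n) = √(2 / π) * ‖w‖ := by
  rcases eq_or_ne w 0 with rfl | hw
  · simp
  have hw' : ‖w‖ ≠ 0 := norm_ne_zero_iff.mpr hw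
  have h1 : ∀ x : E n, |inner ℝ w x| = ‖w‖ * |inner ℝ (‖w‖⁻¹ • w) x| := by
    intro x
    rw [real_inner_smul_left, abs_mul, abs_inv, abs_norm, ← mul_assoc, mul_inv_cancel₀ hw',
      one_mul]
  have h2 : ‖‖w‖⁻¹ • w‖ = 1 := by
    rw [norm_smul, norm_inv, norm_norm, inv_mul_cancel₀ hw']
  simp_rw [h1]
  rw [integral_const_mul]
  have h3 : ∫ x, |inner ℝ (‖w‖⁻¹ • w) x| ∂(gam n) = ∫ y, |y| ∂(gaussianReal 0 1) := by
    rw [← map_unit _ h2, integral_map (Measurable.aemeasurable (by fun_prop))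
      (Measurable.aestronglyMeasurable (by fun_prop))]
  rw [h3, integral_abs_gaussian, mul_comm]

end Vale.Agent.P226
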