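import Vale.Agent.P226.Defs
import Vale.Agent.P226.OM

/-!
# P226: piece BASE, three vectors

`E max(g1,g2,g3) = (1/4) * sqrt(2/pi) * sum_{i<j} |w_i - w_j|`.
-/

open MeasureTheory ProbabilityTheory Real

namespace Vale.Agent.P226

private lemma max_add_max_neg (a b c : ℝ) :
    max (max a b) c + max (max (-a) (-b)) (-c) = (|a - b| + |b - c| + |a - c|) / 2 := by
  rcases le_total a b with h1 | h1 <;> rcases le_total b c with h2 | h2 <;>
    rcases le_total a c with h3 | h3
  · rw [max_eq_right h1, max_eq_right h2, max_eq_left (by linarith : -b ≤ -a),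
      max_eq_left (by linarith : -c ≤ -a), abs_of_nonpos (by linarith), abs_of_nonpos (by linarith),
      abs_of_nonpos (by linarith)]
    ring
  · have h4 : a = b := by linarith
    have h5 : b = c := by linarith
    subst h4; subst h5; simp
  · rw [max_eq_right h1, max_eq_left h2, max_eq_left (by linarith : -b ≤ -a),
      max_eq_left (by linarith : -c ≤ -a), abs_of_nonpos (by linarith), abs_of_nonneg (by linarith),
      abs_of_nonpos (by linarith)]
    ring
  · rw [max_eq_right h1, max_eq_left h2, max_eq_left (by linarith : -b ≤ -a),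
      max_eq_right (by linarith : -a ≤ -c), abs_of_nonpos (by linarith),
      abs_of_nonneg (by linarith), abs_of_nonneg (by linarith)]
    ring
  · rw [max_eq_left h1, max_eq_right h3, max_eq_right (by linarith : -a ≤ -b),
      max_eq_left (by linarith : -c ≤ -b), abs_of_nonneg (by linarith),
      abs_of_nonpos (by linarith), abs_of_nonpos (by linarith)]
    ring
  · rw [max_eq_left h1, max_eq_left h3, max_eq_right (by linarith : -a ≤ -b),
      max_eq_left (by linarith : -c ≤ -b), abs_of_nonneg (by linarith),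
      abs_of_nonpos (by linarith), abs_of_nonneg (by linarith)]
    ring
  · have h4 : a = b := by linarith
    have h5 : b = c := by linarith
    subst h4; subst h5; simp
  · rw [max_eq_left h1, max_eq_left h3, max_eq_right (by linarith : -a ≤ -b),
      max_eq_right (by linarith : -b ≤ -c), abs_of_nonneg (by linarith),
      abs_of_nonneg (by linarith), abs_of_nonneg (by linarith)]
    ring

private lemma mx_three {n : ℕ} (w : Fin (2 + 1) → E n) (x : E n) :
    mx w x = max (max (inner ℝ (w 0) x) (inner ℝ (w 1) x)) (inner ℝ (w 2) x) := by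
  unfold mx
  apply le_antisymm
  · apply Finset.sup'_le
    intro i _
    fin_cases i
    · exact le_max_of_le_left (le_max_left _ _)
    · exact le_max_of_le_left (le_max_right _ _)
    · exact le_max_right _ _
  · refine max_le (max_le ?_ ?_) ?_
    · exact Finset.le_sup' (f := fun i => (inner ℝ (w i) x : ℝ)) (Finset.mem_univ 0)
    · exact Finset.le_sup' (f := fun i => (inner ℝ (w i) x : ℝ)) (Finset.mem_univ 1)
    · exact Finset.le_sup' (f := fun i => (inner ℝ (w i) x : ℝ)) (Finset.mem_univ 2)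

private lemma integrable_inner {n : ℕ} (w : E n) :
    Integrable (fun x => (inner ℝ w x : ℝ)) (gam n) :=
  (innerSL ℝ w).integrable_comp IsGaussian.integrable_id

private lemma integrable_mx {n : ℕ} (w : Fin (2 + 1) → E n) :
    Integrable (fun x => mx w x) (gam n) := by
  have h := ((integrable_inner (w 0)).sup (integrable_inner (w 1))).sup (integrable_inner (w 2))
  refine h.congr (Filter.Eventually.of_forall fun x => ?_)
  simp only [mx_three]
  rfl

private lemma map_neg_gam (n : ℕ) : (gam n).map (fun x => -x) = gam n := by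
  have := stdGaussian_map (E := E n) (LinearIsometryEquiv.neg ℝ)
  simpa using this

private lemma integral_mx_neg {n : ℕ} (w : Fin (2 + 1) → E n) :
    ∫ x, mx w (-x) ∂(gam n) = ∫ x, mx w x ∂(gam n) := by
  conv_rhs => rw [← map_neg_gam n]
  rw [integral_map (by fun_prop)]
  have := (integrable_mx w).aestronglyMeasurable
  rwa [map_neg_gam]

theorem integral_mx_three {n : ℕ} (w : Fin (2 + 1) → E n) :
    ∫ x, mx w x ∂(gam n)
      = √(2 / π) / 4 * (‖w 0 - w 1‖ + ‖w 1 - w 2‖ + ‖w 0 - w 2‖) := by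
  have hint : Integrable (fun x => mx w (-x)) (gam n) := by
    have h := integrable_mx w
    rw [← map_neg_gam n] at h
    exact h.comp_aemeasurable (by fun_prop)
  have h1 : 2 * ∫ x, mx w x ∂(gam n)
      = ∫ x, (mx w x + mx w (-x)) ∂(gam n) := by
    rw [integral_add (integrable_mx w) hint, integral_mx_neg]
    ring
  have h2 : ∀ x : E n, mx w x + mx w (-x)
      = (|inner ℝ (w 0 - w 1) x| + |inner ℝ (w 1 - w 2) x| + |inner ℝ (w 0 - w 2) x|) / 2 := by
    intro x
    rw [mx_three, mx_three, inner_neg_right, inner_neg_right, inner_neg_right, max_add_max_neg,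
      inner_sub_left, inner_sub_left, inner_sub_left]
  simp_rw [h2] at h1
  have h3 : ∫ x, (|inner ℝ (w 0 - w 1) x| + |inner ℝ (w 1 - w 2) x| + |inner ℝ (w 0 - w 2) x|)
      ∂(gam n) = (∫ x, |inner ℝ (w 0 - w 1) x| ∂(gam n)) + (∫ x, |inner ℝ (w 1 - w 2) x| ∂(gam n))
        + ∫ x, |inner ℝ (w 0 - w 2) x| ∂(gam n) := by
    have i1 : Integrable (fun x => |inner ℝ (w 0 - w 1) x|) (gam n) := (integrable_inner _).abs
    have i2 : Integrable (fun x => |inner ℝ (w 1 - w 2) x|) (gam n) := (integrable_inner _).abs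
    have i3 : Integrable (fun x => |inner ℝ (w 0 - w 2) x|) (gam n) := (integrable_inner _).abs
    have i12 : Integrable (fun x => |inner ℝ (w 0 - w 1) x| + |inner ℝ (w 1 - w 2) x|) (gam n) :=
      i1.add i2
    rw [integral_add i12 i3, integral_add i1 i2]
  rw [integral_div, h3, integral_abs_inner, integral_abs_inner, integral_abs_inner] at h1
  linarith

theorem base_two (n : ℕ) : Ineq 2 n := by
  intro w
  rw [integral_mx_three, m0]
  rw [Fin.sum_univ_three]
  set A := ‖w 0 - w 1‖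
  set B := ‖w 1 - w 2‖
  set C := ‖w 0 - w 2‖
  have hA : 0 ≤ A := norm_nonneg _
  have hB : 0 ≤ B := norm_nonneg _
  have hC : 0 ≤ C := norm_nonneg _
  have h1 : A ^ 2 = ‖w 0‖ ^ 2 - 2 * inner ℝ (w 0) (w 1) + ‖w 1‖ ^ 2 := norm_sub_sq_real _ _
  have h2 : B ^ 2 = ‖w 1‖ ^ 2 - 2 * inner ℝ (w 1) (w 2) + ‖w 2‖ ^ 2 := norm_sub_sq_real _ _
  have h3 : C ^ 2 = ‖w 0‖ ^ 2 - 2 * inner ℝ (w 0) (w 2) + ‖w 2‖ ^ 2 := norm_sub_sq_real _ _
  have h4 : 0 ≤ ‖w 0‖ ^ 2 + ‖w 1‖ ^ 2 + ‖w 2‖ ^ 2 + 2 * inner ℝ (w 0) (w 1)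
      + 2 * inner ℝ (w 1) (w 2) + 2 * inner ℝ (w 0) (w 2) := by
    have h5 : 0 ≤ ‖w 0 + w 1 + w 2‖ ^ 2 := by positivity
    rw [norm_add_sq_real, norm_add_sq_real, inner_add_left] at h5
    linarith
  have h6 : A ^ 2 + B ^ 2 + C ^ 2 ≤ 3 * (‖w 0‖ ^ 2 + ‖w 1‖ ^ 2 + ‖w 2‖ ^ 2) := by
    linarith
  have h7 : (A + B + C) ^ 2 ≤ 3 * (A ^ 2 + B ^ 2 + C ^ 2) := by
    nlinarith [sq_nonneg (A - B), sq_nonneg (B - C), sq_nonneg (A - C)]
  have hpi : 0 < π := pi_pos
  have h8 : √(2 / π) ^ 2 = 2 / π := Real.sq_sqrt (by positivity)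
  calc (√(2 / π) / 4 * (A + B + C)) ^ 2 = (√(2 / π)) ^ 2 / 16 * (A + B + C) ^ 2 := by ring
    _ = 2 / π / 16 * (A + B + C) ^ 2 := by rw [h8]
    _ ≤ 2 / π / 16 * (9 * (‖w 0‖ ^ 2 + ‖w 1‖ ^ 2 + ‖w 2‖ ^ 2)) := by
        apply mul_le_mul_of_nonneg_left _ (by positivity)
        linarith
    _ = 9 / (8 * π) * (‖w 0‖ ^ 2 + ‖w 1‖ ^ 2 + ‖w 2‖ ^ 2) := by
        field_simp
        ring

end Vale.Agent.P226
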