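import Vale.Agent.P226.Defs

open MeasureTheory ProbabilityTheory Real Set Metric
open scoped ENNReal RealInnerProductSpace

namespace Vale.Agent.P226.CapAux

noncomputable def gd (n : ℕ) (r : ℝ) : ℝ := (2 * π) ^ (-(n : ℝ) / 2) * exp (-r ^ 2 / 2)

theorem gd_nonneg (n : ℕ) (r : ℝ) : 0 ≤ gd n r := by unfold gd; positivity

@[fun_prop]
theorem measurable_gd (n : ℕ) : Measurable (gd n) := by unfold gd; fun_prop

theorem integrable_gd (n : ℕ) : Integrable (fun x : E n => gd n ‖x‖) := by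
  have h := GaussianFourier.integrable_cexp_neg_mul_sq_norm_add (V := E n) (b := 1/2) (by norm_num) 0 0
  have h2 := h.norm.const_mul ((2 * π) ^ (-(n : ℝ) / 2))
  refine h2.congr (Filter.Eventually.of_forall fun x => ?_)
  simp only [gd, Complex.norm_exp]
  congr 2
  simp [← Complex.ofReal_pow]
  ring

theorem density (n : ℕ) :
    gam n = (volume : Measure (E n)).withDensity (fun x => ENNReal.ofReal (gd n ‖x‖)) := by
  have hfin : IsFiniteMeasure
      ((volume : Measure (E n)).withDensity (fun x => ENNReal.ofReal (gd n ‖x‖))) :=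
    isFiniteMeasure_withDensity_ofReal (integrable_gd n).2
  apply Measure.ext_of_charFun
  ext t
  rw [charFun_stdGaussian, charFun_apply, integral_withDensity_eq_integral_toReal_smul]
  · have h := GaussianFourier.integral_cexp_neg_mul_sq_norm_add (V := E n) (b := 1/2)
      (by norm_num) Complex.I t
    have h3 : ∀ x : E n, (ENNReal.ofReal (gd n ‖x‖)).toReal • Complex.exp (⟪x, t⟫ * Complex.I)
        = ((2 * π) ^ (-(n : ℝ) / 2) : ℝ) *
          Complex.exp (-(1/2) * ‖x‖ ^ 2 + Complex.I * ⟪t, x⟫) := by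
      intro x
      rw [ENNReal.toReal_ofReal (gd_nonneg _ _), gd, Complex.real_smul, Complex.ofReal_mul,
        Complex.ofReal_exp, mul_assoc, ← Complex.exp_add, real_inner_comm]
      congr 2
      push_cast
      ring
    simp_rw [h3]
    rw [integral_const_mul, h]
    have h4 : ((π : ℂ) / (1/2)) = ((2 * π : ℝ) : ℂ) := by push_cast; ring
    rw [h4, finrank_euclideanSpace, Fintype.card_fin]
    have h5 : ((2 * π : ℝ) : ℂ) ^ ((n : ℂ) / 2) = (((2 * π) ^ ((n : ℝ) / 2) : ℝ) : ℂ) := by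
      rw [Complex.ofReal_cpow (by positivity)]
      push_cast; rfl
    rw [h5, ← mul_assoc, ← Complex.ofReal_mul, ← Real.rpow_add (by positivity)]
    have h6 : -(n : ℝ) / 2 + (n : ℝ) / 2 = 0 := by ring
    rw [h6, Real.rpow_zero]
    simp only [Complex.I_sq]
    push_cast
    rw [one_mul]
    congr 1
    ring
  · fun_prop
  · simp


theorem lintegral_cone_vol {n : ℕ} (hn : 1 ≤ n) (A : Set (E n)) (hA : MeasurableSet A)
    (hcone : ∀ x ∈ A, ∀ t : ℝ, 0 < t → t • x ∈ A) (h : ℝ → ℝ≥0∞) (hh : Measurable h) :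
    ∫⁻ x in A, h ‖x‖ ∂(volume : Measure (E n))
      = (volume : Measure (E n)).toSphere {u | (u : E n) ∈ A}
        * ∫⁻ r : Ioi (0 : ℝ), h r ∂(Measure.volumeIoiPow (n - 1)) := by
  have : Nonempty (Fin n) := ⟨⟨0, hn⟩⟩
  have : Nontrivial (E n) := inferInstance
  have hmS : MeasurableSet {u : sphere (0 : E n) 1 | (u : E n) ∈ A} :=
    measurable_subtype_coe hA
  have hmp := (volume : Measure (E n)).measurePreserving_homeomorphUnitSphereProd
  rw [finrank_euclideanSpace, Fintype.card_fin] at hmp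
  have e1 : ∫⁻ x in A, h ‖x‖ ∂(volume : Measure (E n))
      = ∫⁻ x in ({(0 : E n)}ᶜ : Set (E n)), A.indicator (fun x => h ‖x‖) x := by
    rw [restrict_compl_singleton, lintegral_indicator hA]
  have e2 : ∫⁻ x in ({(0 : E n)}ᶜ : Set (E n)), A.indicator (fun x => h ‖x‖) x
      = ∫⁻ x : ({(0 : E n)}ᶜ : Set (E n)), A.indicator (fun x => h ‖x‖) x
          ∂(Measure.comap (↑) (volume : Measure (E n))) := by
    rw [lintegral_subtype_comap (measurableSet_singleton _).compl]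
  let F : sphere (0 : E n) 1 × Ioi (0 : ℝ) → ℝ≥0∞ := fun p =>
    ({u : sphere (0 : E n) 1 | (u : E n) ∈ A}.indicator (fun _ => (1 : ℝ≥0∞)) p.1) * h p.2
  have hF : Measurable F := ((measurable_const.indicator hmS).comp measurable_fst).mul
      (hh.comp (measurable_subtype_coe.comp measurable_snd))
  have e3 : ∀ x : ({(0 : E n)}ᶜ : Set (E n)), A.indicator (fun x => h ‖x‖) (x : E n)
      = F (homeomorphUnitSphereProd (E n) x) := by
    intro x
    have hx : (x : E n) ≠ 0 := x.2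
    have hx' : 0 < ‖(x : E n)‖ := norm_pos_iff.2 hx
    have key : ‖(x : E n)‖⁻¹ • (x : E n) ∈ A ↔ (x : E n) ∈ A := by
      constructor
      · intro hm
        have := hcone _ hm ‖(x : E n)‖ hx'
        rwa [smul_smul, mul_inv_cancel₀ hx'.ne', one_smul] at this
      · intro hm
        exact hcone _ hm _ (by positivity)
    by_cases hxa : (x : E n) ∈ A
    · simp [F, indicator, hxa, key]
    · simp [F, indicator, hxa, key]
  rw [e1, e2, lintegral_congr e3, hmp.lintegral_comp hF]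
  refine (lintegral_prod_mul (f := fun u : sphere (0 : E n) 1 =>
      {u : sphere (0 : E n) 1 | (u : E n) ∈ A}.indicator (fun _ => (1 : ℝ≥0∞)) u)
      (g := fun r : Ioi (0 : ℝ) => h r)
      (measurable_const.indicator hmS).aemeasurable
      (hh.comp measurable_subtype_coe).aemeasurable).trans ?_
  rw [lintegral_indicator_const hmS, one_mul]

/-- the radial part of the Gaussian integral -/
theorem lintegral_ioiPow (k : ℕ) (h : ℝ → ℝ≥0∞) (hh : Measurable h) :
    ∫⁻ r : Ioi (0 : ℝ), h r ∂(Measure.volumeIoiPow k)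
      = ∫⁻ r in Ioi (0 : ℝ), ENNReal.ofReal (r ^ k) * h r := by
  rw [Measure.volumeIoiPow, lintegral_withDensity_eq_lintegral_mul]
  · rw [← lintegral_subtype_comap measurableSet_Ioi]
    rfl
  · fun_prop
  · exact hh.comp measurable_subtype_coe


theorem lintegral_gam {n : ℕ} (A : Set (E n)) (hA : MeasurableSet A) (h : ℝ → ℝ≥0∞)
    (hh : Measurable h) :
    ∫⁻ x in A, h ‖x‖ ∂(gam n)
      = ∫⁻ x in A, (fun r => ENNReal.ofReal (gd n r) * h r) ‖x‖ ∂(volume : Measure (E n)) := by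
  have hg : Measurable (fun x : E n => h ‖x‖) := hh.comp measurable_norm
  have hf : Measurable (fun x : E n => ENNReal.ofReal (gd n ‖x‖)) := by fun_prop
  rw [density, setLIntegral_withDensity_eq_setLIntegral_mul _ hf hg hA]
  rfl

theorem cone_gam {n : ℕ} (hn : 1 ≤ n) (A : Set (E n)) (hA : MeasurableSet A)
    (hcone : ∀ x ∈ A, ∀ t : ℝ, 0 < t → t • x ∈ A) (h : ℝ → ℝ≥0∞) (hh : Measurable h) :
    ∫⁻ x in A, h ‖x‖ ∂(gam n) = gam n A * ∫⁻ x, h ‖x‖ ∂(gam n) := by
  have hm : Measurable (fun r => ENNReal.ofReal (gd n r) * h r) := by fun_prop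
  have hm1 : Measurable (fun r => ENNReal.ofReal (gd n r) * (fun _ : ℝ => (1 : ℝ≥0∞)) r) := by
    fun_prop
  have a1 : ∫⁻ x in A, h ‖x‖ ∂(gam n) = (volume : Measure (E n)).toSphere {u | (u : E n) ∈ A}
        * ∫⁻ r : Ioi (0 : ℝ), ENNReal.ofReal (gd n r) * h r ∂(Measure.volumeIoiPow (n - 1)) := by
    rw [lintegral_gam A hA h hh, lintegral_cone_vol hn A hA hcone _ hm]
  have a2 : gam n A = (volume : Measure (E n)).toSphere {u | (u : E n) ∈ A}
        * ∫⁻ r : Ioi (0 : ℝ), ENNReal.ofReal (gd n r) * 1 ∂(Measure.volumeIoiPow (n - 1)) := by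
    have := lintegral_gam A hA (fun _ => (1 : ℝ≥0∞)) measurable_const
    rw [lintegral_cone_vol hn A hA hcone _ hm1] at this
    simpa using this
  have a3 : ∫⁻ x, h ‖x‖ ∂(gam n) = (volume : Measure (E n)).toSphere {u | (u : E n) ∈ univ}
        * ∫⁻ r : Ioi (0 : ℝ), ENNReal.ofReal (gd n r) * h r ∂(Measure.volumeIoiPow (n - 1)) := by
    rw [← setLIntegral_univ, lintegral_gam univ MeasurableSet.univ h hh,
      lintegral_cone_vol hn univ MeasurableSet.univ (fun _ _ _ _ => mem_univ _) _ hm]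
  have a4 : (1 : ℝ≥0∞) = (volume : Measure (E n)).toSphere {u | (u : E n) ∈ univ}
        * ∫⁻ r : Ioi (0 : ℝ), ENNReal.ofReal (gd n r) * 1 ∂(Measure.volumeIoiPow (n - 1)) := by
    have := lintegral_gam (univ : Set (E n)) MeasurableSet.univ (fun _ => (1 : ℝ≥0∞)) measurable_const
    rw [lintegral_cone_vol hn univ MeasurableSet.univ (fun _ _ _ _ => mem_univ _) _ hm1] at this
    simpa using this
  rw [a1, a2, a3]
  generalize (volume : Measure (E n)).toSphere {u | (u : E n) ∈ A} = s at *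
  generalize (volume : Measure (E n)).toSphere {u | (u : E n) ∈ univ} = S at *
  generalize (∫⁻ r : Ioi (0 : ℝ), ENNReal.ofReal (gd n r) * 1 ∂(Measure.volumeIoiPow (n - 1))) = c0 at *
  generalize (∫⁻ r : Ioi (0 : ℝ), ENNReal.ofReal (gd n r) * h r ∂(Measure.volumeIoiPow (n - 1))) = c1 at *
  calc s * c1 = s * c1 * 1 := by rw [mul_one]
    _ = s * c1 * (S * c0) := by rw [← a4]
    _ = s * c0 * (S * c1) := by ring

/-- the Gaussian moments on the half line -/
noncomputable def I (k : ℕ) : ℝ := ∫ r in Ioi (0 : ℝ), r ^ k * exp (-r ^ 2 / 2)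

theorem integral_scaled (k : ℕ) (b : ℝ) (hb : 0 < b) :
    ∫ r in Ioi (0 : ℝ), r ^ k * exp (-b * r ^ 2 / 2)
      = (b / 2) ^ (-((k : ℝ) + 1) / 2) * (1 / 2) * Real.Gamma (((k : ℝ) + 1) / 2) := by
  have h := integral_rpow_mul_exp_neg_mul_rpow (p := 2) (q := k) (b := b / 2) (by norm_num)
    (by have : (0 : ℝ) ≤ k := k.cast_nonneg
        linarith) (by positivity)
  rw [← h]
  refine setIntegral_congr_fun measurableSet_Ioi fun r hr => ?_
  simp only [mem_Ioi] at hr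
  rw [Real.rpow_natCast, Real.rpow_two]
  congr 2
  ring

theorem integrable_scaled (k : ℕ) (b : ℝ) (hb : 0 < b) :
    IntegrableOn (fun r : ℝ => r ^ k * exp (-b * r ^ 2 / 2)) (Ioi 0) := by
  have h := integrableOn_rpow_mul_exp_neg_mul_sq (s := k) (b := b / 2) (by positivity)
    (by have : (0 : ℝ) ≤ k := k.cast_nonneg
        linarith)
  refine h.congr_fun (fun r hr => ?_) measurableSet_Ioi
  simp only [Real.rpow_natCast]
  congr 2
  ring

theorem I_eq (k : ℕ) : I k = ((1 : ℝ) / 2) ^ (-((k : ℝ) + 1) / 2) * (1 / 2)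
    * Real.Gamma (((k : ℝ) + 1) / 2) := by
  have := integral_scaled k 1 one_pos
  rw [← this, I]
  simp

theorem I_pos (k : ℕ) : 0 < I k := by
  rw [I_eq]
  have : 0 < Real.Gamma (((k : ℝ) + 1) / 2) := Real.Gamma_pos_of_pos (by positivity)
  positivity

theorem I_succ_succ (k : ℕ) : I (k + 2) = (k + 1) * I k := by
  rw [I_eq, I_eq]
  have h1 : (((k + 2 : ℕ) : ℝ) + 1) / 2 = ((k : ℝ) + 1) / 2 + 1 := by push_cast; ring
  have h2 : -(((k + 2 : ℕ) : ℝ) + 1) / 2 = -((k : ℝ) + 1) / 2 + (-1) := by push_cast; ring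
  rw [h1, h2, Real.Gamma_add_one (by positivity), Real.rpow_add (by norm_num)]
  rw [Real.rpow_neg_one]
  ring

theorem scaled_eq (k : ℕ) (b : ℝ) (hb : 0 < b) :
    ∫ r in Ioi (0 : ℝ), r ^ k * exp (-b * r ^ 2 / 2) = b ^ (-((k : ℝ) + 1) / 2) * I k := by
  rw [integral_scaled k b hb, I_eq, div_eq_mul_one_div b 2,
    Real.mul_rpow hb.le (by norm_num)]
  ring

theorem radial {n : ℕ} (hn : 1 ≤ n) (h : ℝ → ℝ≥0∞) (hh : Measurable h) :
    ENNReal.ofReal (I (n - 1)) * ∫⁻ x, h ‖x‖ ∂(gam n)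
      = ∫⁻ r in Ioi (0 : ℝ), ENNReal.ofReal (r ^ (n - 1) * exp (-r ^ 2 / 2)) * h r := by
  have key : ∀ h : ℝ → ℝ≥0∞, Measurable h → ∫⁻ x, h ‖x‖ ∂(gam n)
      = ((volume : Measure (E n)).toSphere {u | (u : E n) ∈ univ}
          * ENNReal.ofReal ((2 * π) ^ (-(n : ℝ) / 2)))
        * ∫⁻ r in Ioi (0 : ℝ), ENNReal.ofReal (r ^ (n - 1) * exp (-r ^ 2 / 2)) * h r := by
    intro h hh
    have hm : Measurable (fun r => ENNReal.ofReal (gd n r) * h r) := by fun_prop
    rw [← setLIntegral_univ, lintegral_gam univ MeasurableSet.univ h hh,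
      lintegral_cone_vol hn univ MeasurableSet.univ (fun _ _ _ _ => mem_univ _) _ hm,
      lintegral_ioiPow _ _ hm, mul_assoc]
    congr 1
    rw [← lintegral_const_mul]
    · refine setLIntegral_congr_fun measurableSet_Ioi fun r hr => ?_
      simp only [mem_Ioi] at hr
      have h1 : (0 : ℝ) ≤ r ^ (n - 1) := by positivity
      rw [gd, ENNReal.ofReal_mul (by positivity), ENNReal.ofReal_mul h1]
      ring
    · fun_prop
  have h1 := key (fun _ => 1) measurable_const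
  simp only [lintegral_const, measure_univ, mul_one] at h1
  have h2 : ∫⁻ r in Ioi (0 : ℝ), ENNReal.ofReal (r ^ (n - 1) * exp (-r ^ 2 / 2))
      = ENNReal.ofReal (I (n - 1)) := by
    rw [I, ofReal_integral_eq_lintegral_ofReal]
    · have := integrable_scaled (n - 1) 1 one_pos
      simpa [IntegrableOn] using this
    · refine (ae_restrict_iff' measurableSet_Ioi).2 (Filter.Eventually.of_forall fun r hr => ?_)
      simp only [mem_Ioi] at hr
      simp only [Pi.zero_apply]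
      positivity
  rw [h2] at h1
  rw [key h hh, ← mul_assoc, mul_comm (ENNReal.ofReal (I (n - 1))), ← h1, one_mul]


theorem prod_rep {m : ℕ} (e : E (m + 1)) (he : ‖e‖ = 1) (S : Set (ℝ × ℝ)) (hS : MeasurableSet S) :
    gam (m + 1) {x | (⟪e, x⟫, ‖x‖) ∈ S}
      = ((gaussianReal 0 1).prod (gam m)) {p | (p.1, √(p.1 ^ 2 + ‖p.2‖ ^ 2)) ∈ S} := by
  obtain ⟨b, hb⟩ := Orthonormal.exists_orthonormalBasis_extension_of_card_eq (𝕜 := ℝ)
    (E := E (m + 1)) (ι := Fin (m + 1)) (by simp) (v := fun _ => e) (s := {0}) (by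
      rw [orthonormal_iff_ite]
      intro i j
      have : i = j := Subsingleton.elim _ _
      simp [this, he])
  have hb0 : b 0 = e := hb 0 rfl
  have hin : ∀ x : Fin (m + 1) → ℝ, ⟪e, ∑ i, x i • b i⟫ = x 0 := by
    intro x
    rw [← hb0]
    exact b.orthonormal.inner_right_fintype x 0
  have hno : ∀ x : Fin (m + 1) → ℝ, ‖∑ i, x i • b i‖ = √(∑ i, x i ^ 2) := by
    intro x
    rw [norm_eq_sqrt_real_inner, b.orthonormal.inner_sum]
    simp [sq]
  let γ : Measure ℝ := gaussianReal 0 1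
  have MP1 : MeasurePreserving (MeasurableEquiv.piFinSuccAbove (fun _ : Fin (m + 1) => ℝ) 0)
      (Measure.pi fun _ => γ) (γ.prod (Measure.pi fun _ : Fin m => γ)) :=
    measurePreserving_piFinSuccAbove (fun _ => γ) 0
  have MP2 : MeasurePreserving (WithLp.toLp 2 : (Fin m → ℝ) → E m)
      (Measure.pi fun _ : Fin m => γ) (gam m) := ⟨by fun_prop, map_pi_eq_stdGaussian⟩
  have MP3 := (MeasurePreserving.id γ).prod MP2
  have hS' : MeasurableSet {p : ℝ × E m | (p.1, √(p.1 ^ 2 + ‖p.2‖ ^ 2)) ∈ S} := by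
    have : Measurable (fun p : ℝ × E m => (p.1, √(p.1 ^ 2 + ‖p.2‖ ^ 2))) := by fun_prop
    exact this hS
  have hS2 : MeasurableSet {x : E (m + 1) | (⟪e, x⟫, ‖x‖) ∈ S} := by
    have : Measurable (fun x : E (m + 1) => (⟪e, x⟫, ‖x‖)) := by fun_prop
    exact this hS
  rw [← (MP3.comp MP1).measure_preimage hS'.nullMeasurableSet]
  rw [show gam (m + 1) = stdGaussian (E (m + 1)) from rfl,
    stdGaussian_eq_map_pi_orthonormalBasis b, Measure.map_apply (by fun_prop) hS2]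
  congr 1
  ext x
  simp only [mem_preimage, mem_ofPred_eq, hin, hno, Function.comp_apply,
    MeasurableEquiv.piFinSuccAbove_apply, Prod.map]
  simp [Fin.sum_univ_succ, EuclideanSpace.norm_eq, Real.sq_sqrt, Finset.sum_nonneg, sq_nonneg, Fin.tail]


/-- change of variables `s = ρ w / √(1-w^2)` -/
theorem cov {ρ v : ℝ} (hρ : 0 < ρ) (hv0 : 0 ≤ v) (hv1 : v < 1) (f : ℝ → ℝ≥0∞) :
    ∫⁻ s in Ioi (v / √(1 - v ^ 2) * ρ), f s
      = ∫⁻ w in Ioo v 1, ENNReal.ofReal (ρ / √(1 - w ^ 2) ^ 3) * f (ρ * w / √(1 - w ^ 2)) := by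
  have hpos : ∀ w, v ≤ w → w < 1 → 0 < 1 - w ^ 2 := fun w hw hw' => by nlinarith
  have hinv : ∀ w, v ≤ w → w < 1 →
      (ρ * w / √(1 - w ^ 2)) / √((ρ * w / √(1 - w ^ 2)) ^ 2 + ρ ^ 2) = w := by
    intro w hw hw'
    have h1 := hpos w hw hw'
    have h2 := Real.sqrt_pos.2 h1
    have h7 : √(1 - w ^ 2) ^ 2 = 1 - w ^ 2 := Real.sq_sqrt h1.le
    have h8 : (ρ * w / √(1 - w ^ 2)) ^ 2 + ρ ^ 2 = (ρ / √(1 - w ^ 2)) ^ 2 := by
      rw [div_pow, div_pow, h7]
      field_simp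
      ring
    rw [h8, Real.sqrt_sq (by positivity)]
    field_simp
  have hmono : ∀ a b, v ≤ a → a < b → b < 1 →
      ρ * a / √(1 - a ^ 2) < ρ * b / √(1 - b ^ 2) := by
    intro a b ha hab hb
    have h1 := Real.sqrt_pos.2 (hpos a ha (hab.trans hb))
    have h2 := Real.sqrt_pos.2 (hpos b (ha.trans hab.le) hb)
    have h3 : √(1 - b ^ 2) ≤ √(1 - a ^ 2) := Real.sqrt_le_sqrt (by nlinarith)
    rw [div_lt_div_iff₀ h1 h2]
    have : a * √(1 - b ^ 2) < b * √(1 - a ^ 2) := by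
      calc a * √(1 - b ^ 2) < b * √(1 - b ^ 2) := by gcongr
        _ ≤ b * √(1 - a ^ 2) := by
          have : 0 ≤ b := by linarith
          gcongr
    nlinarith
  have himg : (fun w => ρ * w / √(1 - w ^ 2)) '' Ioo v 1 = Ioi (v / √(1 - v ^ 2) * ρ) := by
    ext s
    simp only [mem_image, mem_Ioo, mem_Ioi]
    constructor
    · rintro ⟨w, ⟨hw, hw'⟩, rfl⟩
      have := hmono v w le_rfl hw hw'
      calc v / √(1 - v ^ 2) * ρ = ρ * v / √(1 - v ^ 2) := by ring
        _ < _ := this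
    · intro hs
      have hk : 0 ≤ v / √(1 - v ^ 2) * ρ := by positivity
      have hs0 : 0 < s := lt_of_le_of_lt hk hs
      have hr : 0 < √(s ^ 2 + ρ ^ 2) := Real.sqrt_pos.2 (by positivity)
      have hr2 : √(s ^ 2 + ρ ^ 2) ^ 2 = s ^ 2 + ρ ^ 2 := Real.sq_sqrt (by positivity)
      have hw1 : s / √(s ^ 2 + ρ ^ 2) < 1 := by
        rw [div_lt_one hr]
        exact Real.lt_sqrt_of_sq_lt (by nlinarith)
      have h9 : 1 - (s / √(s ^ 2 + ρ ^ 2)) ^ 2 = (ρ / √(s ^ 2 + ρ ^ 2)) ^ 2 := by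
        rw [div_pow, div_pow, hr2]
        field_simp
        ring
      have hval : ρ * (s / √(s ^ 2 + ρ ^ 2)) / √(1 - (s / √(s ^ 2 + ρ ^ 2)) ^ 2) = s := by
        rw [h9, Real.sqrt_sq (by positivity)]
        field_simp
      refine ⟨s / √(s ^ 2 + ρ ^ 2), ⟨?_, hw1⟩, hval⟩
      by_contra hcon
      push Not at hcon
      rcases hcon.lt_or_eq with h | h
      · by_cases h0 : s / √(s ^ 2 + ρ ^ 2) < v
        · have hw0 : 0 ≤ s / √(s ^ 2 + ρ ^ 2) := by positivity
          have h1 : 0 < 1 - (s / √(s ^ 2 + ρ ^ 2)) ^ 2 := by nlinarith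
          have h3 : √(1 - v ^ 2) ≤ √(1 - (s / √(s ^ 2 + ρ ^ 2)) ^ 2) :=
            Real.sqrt_le_sqrt (by nlinarith)
          have h4 := Real.sqrt_pos.2 (hpos v le_rfl hv1)
          have : s ≤ v / √(1 - v ^ 2) * ρ := by
            rw [← hval]
            calc ρ * (s / √(s ^ 2 + ρ ^ 2)) / √(1 - (s / √(s ^ 2 + ρ ^ 2)) ^ 2)
                ≤ ρ * v / √(1 - v ^ 2) := by gcongr
              _ = v / √(1 - v ^ 2) * ρ := by ring
          linarith
        · exact h0 h
      · rw [h] at hval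
        have : s = v / √(1 - v ^ 2) * ρ := by rw [← hval]; ring
        linarith
  rw [← himg, lintegral_image_eq_lintegral_abs_deriv_mul measurableSet_Ioo
    (f' := fun w => ρ / √(1 - w ^ 2) ^ 3)]
  · refine setLIntegral_congr_fun measurableSet_Ioo fun w hw => ?_
    have := Real.sqrt_pos.2 (hpos w hw.1.le hw.2)
    rw [abs_of_pos (by positivity)]
  · intro w hw
    have h1 := hpos w hw.1.le hw.2
    have h2 := Real.sqrt_pos.2 h1
    have h3 : HasDerivAt (fun w : ℝ => 1 - w ^ 2) (-(2 * w)) w := by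
      simpa using (hasDerivAt_pow 2 w).const_sub 1
    have h4 := h3.sqrt h1.ne'
    have h5 : HasDerivAt (fun w : ℝ => ρ * w) ρ w := by
      simpa using (hasDerivAt_id w).const_mul ρ
    have h6 := (h5.div h4 h2.ne')
    refine (HasDerivAt.congr_deriv h6 ?_).hasDerivWithinAt
    have h7 : √(1 - w ^ 2) ^ 2 = 1 - w ^ 2 := Real.sq_sqrt h1.le
    have h8 : √(1 - w ^ 2) ^ 3 = (1 - w ^ 2) * √(1 - w ^ 2) := by
      rw [pow_succ, h7]
    rw [h7, h8]
    field_simp
    rw [h7]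
    ring
  · intro a ha b hb hab
    beta_reduce at hab
    rw [← hinv a ha.1.le ha.2, ← hinv b hb.1.le hb.2, hab]


theorem set_eq {v s ρ : ℝ} (hv0 : 0 ≤ v) (hv1 : v < 1) (hρ : 0 ≤ ρ) :
    v * √(s ^ 2 + ρ ^ 2) < s ↔ v / √(1 - v ^ 2) * ρ < s := by
  have h1 : 0 < 1 - v ^ 2 := by nlinarith
  have h2 := Real.sqrt_pos.2 h1
  have h3 : √(1 - v ^ 2) ^ 2 = 1 - v ^ 2 := Real.sq_sqrt h1.le
  have h4 : √(s ^ 2 + ρ ^ 2) ^ 2 = s ^ 2 + ρ ^ 2 := Real.sq_sqrt (by positivity)
  have h5 : 0 ≤ √(s ^ 2 + ρ ^ 2) := Real.sqrt_nonneg _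
  have h6 : v / √(1 - v ^ 2) * ρ < s ↔ v * ρ < √(1 - v ^ 2) * s := by
    rw [div_mul_eq_mul_div, div_lt_iff₀ h2, mul_comm s]
  rw [h6]
  constructor
  · intro h
    have hs : 0 < s := lt_of_le_of_lt (by positivity) h
    have h7 : (v * √(s ^ 2 + ρ ^ 2)) ^ 2 < s ^ 2 := by
      apply pow_lt_pow_left₀ h (by positivity) (by norm_num)
    apply lt_of_pow_lt_pow_left₀ 2 (by positivity)
    rw [mul_pow, mul_pow, h3]
    rw [mul_pow, h4] at h7
    nlinarith
  · intro h
    have hs : 0 < √(1 - v ^ 2) * s := lt_of_le_of_lt (by positivity) h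
    have hs' : 0 < s := by
      by_contra hcon
      push Not at hcon
      nlinarith
    have h7 : (v * ρ) ^ 2 < (√(1 - v ^ 2) * s) ^ 2 := by
      apply pow_lt_pow_left₀ h (by positivity) (by norm_num)
    apply lt_of_pow_lt_pow_left₀ 2 hs'.le
    rw [mul_pow, h4]
    rw [mul_pow, mul_pow, h3] at h7
    nlinarith

theorem inner_int (m : ℕ) (hm : 2 ≤ m) {w : ℝ} (hw0 : 0 ≤ w) (hw1 : w < 1) :
    ∫⁻ ρ in Ioi (0 : ℝ), ENNReal.ofReal (ρ ^ (m - 1) * exp (-ρ ^ 2 / 2)) *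
      (ENNReal.ofReal (ρ / √(1 - w ^ 2) ^ 3) *
        ENNReal.ofReal ((√(2 * π))⁻¹ * exp (-(ρ * w / √(1 - w ^ 2)) ^ 2 / 2)))
      = ENNReal.ofReal ((√(2 * π))⁻¹ * I m) * ENNReal.ofReal ((√(1 - w ^ 2)) ^ (m - 2)) := by
  have h1 : 0 < 1 - w ^ 2 := by nlinarith
  have h2 := Real.sqrt_pos.2 h1
  have h3 : √(1 - w ^ 2) ^ 2 = 1 - w ^ 2 := Real.sq_sqrt h1.le
  have e1 : ∀ ρ ∈ Ioi (0 : ℝ), ENNReal.ofReal (ρ ^ (m - 1) * exp (-ρ ^ 2 / 2)) *
      (ENNReal.ofReal (ρ / √(1 - w ^ 2) ^ 3) *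
        ENNReal.ofReal ((√(2 * π))⁻¹ * exp (-(ρ * w / √(1 - w ^ 2)) ^ 2 / 2)))
      = ENNReal.ofReal ((√(2 * π))⁻¹ / √(1 - w ^ 2) ^ 3 *
        (ρ ^ m * exp (-(1 / (1 - w ^ 2)) * ρ ^ 2 / 2))) := by
    intro ρ hρ
    simp only [mem_Ioi] at hρ
    rw [← ENNReal.ofReal_mul (by positivity), ← ENNReal.ofReal_mul (by positivity)]
    congr 1
    have h4 : ρ ^ m = ρ ^ (m - 1) * ρ := by
      rw [← pow_succ]; congr 1; omega
    have h5 : exp (-(1 / (1 - w ^ 2)) * ρ ^ 2 / 2)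
        = exp (-ρ ^ 2 / 2) * exp (-(ρ * w / √(1 - w ^ 2)) ^ 2 / 2) := by
      rw [← exp_add]
      congr 1
      rw [div_pow, h3]
      field_simp
      ring
    rw [h4, h5]
    ring
  rw [setLIntegral_congr_fun measurableSet_Ioi e1, ← ofReal_integral_eq_lintegral_ofReal,
    integral_const_mul, scaled_eq m _ (by positivity), ← ENNReal.ofReal_mul (by
      have := I_pos m
      positivity)]
  · congr 1
    have h6 : (1 / (1 - w ^ 2)) ^ (-((m : ℝ) + 1) / 2) = √(1 - w ^ 2) ^ (m - 2) * √(1 - w ^ 2) ^ 3 := by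
      rw [← pow_add, show m - 2 + 3 = m + 1 by omega, one_div, Real.inv_rpow h1.le,
        ← Real.rpow_neg h1.le, Real.sqrt_eq_rpow]
      generalize 1 - w ^ 2 = x at h1
      rw [← Real.rpow_natCast, ← Real.rpow_mul h1.le]
      congr 1
      push_cast
      ring
    rw [h6]
    field_simp
  · exact (integrable_scaled m _ (by positivity)).const_mul _
  · refine (ae_restrict_iff' measurableSet_Ioi).2 (Filter.Eventually.of_forall fun r hr => ?_)
    simp only [mem_Ioi] at hr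
    simp only [Pi.zero_apply]
    positivity

theorem cap_measure (m : ℕ) (hm : 2 ≤ m) (e : E (m + 1)) (he : ‖e‖ = 1) {v : ℝ} (hv0 : 0 ≤ v)
    (hv1 : v < 1) :
    ENNReal.ofReal (I (m - 1)) * gam (m + 1) {x | v * ‖x‖ < ⟪e, x⟫}
      = ENNReal.ofReal ((√(2 * π))⁻¹ * I m)
        * ∫⁻ w in Ioo v 1, ENNReal.ofReal ((√(1 - w ^ 2)) ^ (m - 2)) := by
  have hS : MeasurableSet {p : ℝ × ℝ | v * p.2 < p.1} :=
    measurableSet_lt (by fun_prop) (by fun_prop)
  have h1 := prod_rep e he _ hS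
  simp only [mem_ofPred_eq] at h1
  rw [h1]
  have h2 : {p : ℝ × E m | v * √(p.1 ^ 2 + ‖p.2‖ ^ 2) < p.1}
      = {p : ℝ × E m | v / √(1 - v ^ 2) * ‖p.2‖ < p.1} := by
    ext p
    exact set_eq hv0 hv1 (norm_nonneg _)
  rw [h2]
  have hS2 : MeasurableSet {p : ℝ × E m | v / √(1 - v ^ 2) * ‖p.2‖ < p.1} :=
    measurableSet_lt (by fun_prop) (by fun_prop)
  rw [Measure.prod_apply_symm hS2]
  have h3 : ∀ y : E m, gaussianReal 0 1 ((fun x => (x, y)) ⁻¹' {p : ℝ × E m | v / √(1 - v ^ 2) * ‖p.2‖ < p.1})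
      = (fun r => gaussianReal 0 1 (Ioi (v / √(1 - v ^ 2) * r))) ‖y‖ := fun y => rfl
  have hk : 0 ≤ v / √(1 - v ^ 2) := by positivity
  have hmeas : Measurable (fun r : ℝ => gaussianReal 0 1 (Ioi (v / √(1 - v ^ 2) * r))) := by
    apply Antitone.measurable
    intro a b hab
    exact measure_mono (Ioi_subset_Ioi (by gcongr))
  rw [lintegral_congr h3, radial (by omega) _ hmeas]
  have h4 : ∀ ρ ∈ Ioi (0 : ℝ), ENNReal.ofReal (ρ ^ (m - 1) * exp (-ρ ^ 2 / 2))
      * gaussianReal 0 1 (Ioi (v / √(1 - v ^ 2) * ρ))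
      = ∫⁻ w in Ioo v 1, ENNReal.ofReal (ρ ^ (m - 1) * exp (-ρ ^ 2 / 2)) *
      (ENNReal.ofReal (ρ / √(1 - w ^ 2) ^ 3) *
        ENNReal.ofReal ((√(2 * π))⁻¹ * exp (-(ρ * w / √(1 - w ^ 2)) ^ 2 / 2))) := by
    intro ρ hρ
    rw [gaussianReal_apply _ one_ne_zero, cov hρ hv0 hv1, lintegral_const_mul]
    · congr 1
      refine lintegral_congr fun w => ?_
      rw [gaussianPDF, gaussianPDFReal]
      simp
    · fun_prop
  rw [setLIntegral_congr_fun measurableSet_Ioi h4, lintegral_lintegral_swap,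
    ← lintegral_const_mul]
  · refine setLIntegral_congr_fun measurableSet_Ioo fun w hw => ?_
    exact inner_int m hm (hv0.trans hw.1.le) hw.2
  · fun_prop
  · apply Measurable.aemeasurable
    fun_prop


theorem lint_Ioo {c d : ℝ} (hcd : c ≤ d) (f : ℝ → ℝ) (hf : IntervalIntegrable f volume c d)
    (h0 : ∀ v ∈ Ioo c d, 0 ≤ f v) :
    ∫⁻ w in Ioo c d, ENNReal.ofReal (f w) = ENNReal.ofReal (∫ w in c..d, f w) := by
  rw [intervalIntegral.integral_of_le hcd, integral_Ioc_eq_integral_Ioo,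
    ofReal_integral_eq_lintegral_ofReal]
  · exact hf.1.mono_set Ioo_subset_Ioc_self
  · refine (ae_restrict_iff' measurableSet_Ioo).2 (Filter.Eventually.of_forall fun r hr => ?_)
    exact h0 r hr

theorem J_cont (d : ℕ) : Continuous (fun v : ℝ => (√(1 - v ^ 2)) ^ (d - 3)) := by fun_prop

theorem J_nonneg (d : ℕ) {c : ℝ} (hc : c ≤ 1) : 0 ≤ J d c :=
  intervalIntegral.integral_nonneg hc fun v _ => by positivity

theorem J_lint (m : ℕ) {v : ℝ} (hv : v ≤ 1) :
    ∫⁻ w in Ioo v 1, ENNReal.ofReal ((√(1 - w ^ 2)) ^ (m - 2)) = ENNReal.ofReal (J (m + 1) v) := by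
  rw [J, show m + 1 - 3 = m - 2 by omega]
  refine lint_Ioo hv _ (Continuous.intervalIntegrable (by fun_prop) _ _) fun w _ => by positivity

/-- `J` is continuous with derivative minus the integrand -/
theorem J_hasDerivAt (d : ℕ) (c : ℝ) : HasDerivAt (J d) (-(√(1 - c ^ 2)) ^ (d - 3)) c := by
  have h := intervalIntegral.integral_hasDerivAt_left
    ((J_cont d).intervalIntegrable c 1) ((J_cont d).stronglyMeasurableAtFilter _ _)
    (J_cont d).continuousAt
  exact h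

theorem J_continuous (d : ℕ) : Continuous (J d) :=
  continuous_iff_continuousAt.2 fun c => (J_hasDerivAt d c).continuousAt

theorem J_neg_one (d : ℕ) : J d (-1) = 2 * J d 0 := by
  have h1 : J d (-1) = (∫ v in (-1 : ℝ)..0, (√(1 - v ^ 2)) ^ (d - 3)) + J d 0 := by
    rw [J, J, intervalIntegral.integral_add_adjacent_intervals] <;>
      exact (J_cont d).intervalIntegrable _ _
  have h2 : (∫ v in (-1 : ℝ)..0, (√(1 - v ^ 2)) ^ (d - 3)) = J d 0 := by
    have := intervalIntegral.integral_comp_neg (a := 0) (b := 1)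
      (fun v : ℝ => (√(1 - v ^ 2)) ^ (d - 3))
    simp only [neg_zero, even_two, Even.neg_pow] at this
    rw [J, this]
  rw [h1, h2]
  ring

theorem J_int {n : ℕ} (hn : 3 ≤ n) {c : ℝ} (hc0 : 0 ≤ c) (hc1 : c ≤ 1) :
    ((n : ℝ) - 1) * ∫ v in c..1, J n v = (√(1 - c ^ 2)) ^ (n - 1) - ((n : ℝ) - 1) * c * J n c := by
  have hcast : ((n - 1 : ℕ) : ℝ) = (n : ℝ) - 1 := by
    rw [Nat.cast_sub (by omega)]; simp
  let K : ℝ → ℝ := fun v => ((n : ℝ) - 1) * v * J n v - (√(1 - v ^ 2)) ^ (n - 1)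
  have hK : ∀ v ∈ Ioo c 1, HasDerivAt K (((n : ℝ) - 1) * J n v) v := by
    intro v hv
    have h1 : 0 < 1 - v ^ 2 := by nlinarith [hv.1, hv.2]
    have h2 := Real.sqrt_pos.2 h1
    have h3 : HasDerivAt (fun w : ℝ => 1 - w ^ 2) (-(2 * v)) v := by
      simpa using (hasDerivAt_pow 2 v).const_sub 1
    have h4 := (h3.sqrt h1.ne').pow (n - 1)
    have h5 := ((hasDerivAt_id v).const_mul ((n : ℝ) - 1)).mul (J_hasDerivAt n v)
    refine (h5.sub h4).congr_deriv ?_
    rw [show n - 1 - 1 = (n - 3) + 1 by omega, pow_succ, hcast]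
    simp only [id]
    field_simp
    ring
  have hKc : ContinuousOn K (Icc c 1) := by
    apply Continuous.continuousOn
    have := J_continuous n
    fun_prop
  have hint := intervalIntegral.integral_eq_sub_of_hasDerivAt_of_le hc1 hKc hK
    ((continuous_const.mul (J_continuous n)).intervalIntegrable _ _)
  rw [intervalIntegral.integral_const_mul] at hint
  rw [hint]
  have hJ1 : J n 1 = 0 := by simp [J]
  simp only [K, hJ1]
  have : (√(1 - (1 : ℝ) ^ 2)) ^ (n - 1) = 0 := by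
    simp
    omega
  rw [this]
  ring

theorem half (m : ℕ) (e : E (m + 1)) (he : ‖e‖ = 1) :
    gam (m + 1) {x | 0 * ‖x‖ < ⟪e, x⟫} = ENNReal.ofReal (1 / 2) := by
  have hS : MeasurableSet {p : ℝ × ℝ | 0 * p.2 < p.1} :=
    measurableSet_lt (by fun_prop) (by fun_prop)
  have h1 := prod_rep e he _ hS
  simp only [mem_ofPred_eq] at h1
  rw [h1]
  have h2 : {p : ℝ × E m | 0 * √(p.1 ^ 2 + ‖p.2‖ ^ 2) < p.1} = Ioi 0 ×ˢ univ := by
    ext p
    simp
  rw [h2, Measure.prod_prod, measure_univ, mul_one, gaussianReal_apply _ one_ne_zero]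
  have h3 : ∀ x : ℝ, gaussianPDF 0 1 x = ENNReal.ofReal ((√(2 * π))⁻¹ * exp (-(1/2) * x ^ 2)) := by
    intro x
    rw [gaussianPDF, gaussianPDFReal]
    simp
    ring_nf
  rw [lintegral_congr h3, ← ofReal_integral_eq_lintegral_ofReal, integral_const_mul,
    integral_gaussian_Ioi]
  · congr 1
    rw [show π / (1 / 2) = 2 * π by ring]
    field_simp
  · exact ((integrable_exp_neg_mul_sq (by norm_num)).const_mul _).integrableOn
  · exact Filter.Eventually.of_forall fun r => by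
      simp only [Pi.zero_apply]
      positivity


/-- the normalising constant -/
noncomputable def bb (m : ℕ) : ℝ := I m / (√(2 * π) * I (m - 1))

theorem bb_pos (m : ℕ) : 0 < bb m := by
  have := I_pos m
  have := I_pos (m - 1)
  unfold bb
  positivity

theorem cap_eq (m : ℕ) (hm : 2 ≤ m) (e : E (m + 1)) (he : ‖e‖ = 1) {v : ℝ} (hv0 : 0 ≤ v)
    (hv1 : v < 1) :
    gam (m + 1) {x | v * ‖x‖ < ⟪e, x⟫} = ENNReal.ofReal (bb m * J (m + 1) v) := by
  have h := cap_measure m hm e he hv0 hv1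
  have h1 := I_pos m
  have h2 := I_pos (m - 1)
  rw [J_lint m hv1.le] at h
  have h3 : ENNReal.ofReal (I (m - 1)) ≠ 0 := by simpa using h2
  have h4 : ENNReal.ofReal (I (m - 1)) ≠ ⊤ := ENNReal.ofReal_ne_top
  have h5 : ENNReal.ofReal ((√(2 * π))⁻¹ * I m) * ENNReal.ofReal (J (m + 1) v)
      = ENNReal.ofReal (I (m - 1)) * ENNReal.ofReal (bb m * J (m + 1) v) := by
    rw [← ENNReal.ofReal_mul (by positivity), ← ENNReal.ofReal_mul h2.le]
    congr 1
    unfold bb
    field_simp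
  rw [h5] at h
  exact (ENNReal.mul_right_inj h3 h4).1 h

theorem bb_J (m : ℕ) (hm : 2 ≤ m) : bb m * J (m + 1) (-1) = 1 := by
  let e : E (m + 1) := EuclideanSpace.single 0 1
  have he : ‖e‖ = 1 := by simp [e]
  have h := cap_eq m hm e he le_rfl one_pos
  rw [half m e he] at h
  have h1 : (1 / 2 : ℝ) = bb m * J (m + 1) 0 := by
    have h2 := bb_pos m
    have h3 := J_nonneg (m + 1) (c := 0) zero_le_one
    exact (ENNReal.ofReal_eq_ofReal_iff (by norm_num) (by positivity)).1 h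
  rw [J_neg_one]
  linarith

/-- the mean norm -/
noncomputable def RR (m : ℕ) : ℝ := I (m + 1) / I m

theorem RR_pos (m : ℕ) : 0 < RR m := by
  have := I_pos m
  have := I_pos (m + 1)
  unfold RR
  positivity

theorem lint_norm (m : ℕ) : ∫⁻ x, ENNReal.ofReal ‖x‖ ∂(gam (m + 1)) = ENNReal.ofReal (RR m) := by
  have h := radial (n := m + 1) (by omega) (fun r => ENNReal.ofReal r) (by fun_prop)
  have h1 := I_pos m
  rw [Nat.add_sub_cancel] at h
  have h2 : ∫⁻ r in Ioi (0 : ℝ), ENNReal.ofReal (r ^ m * exp (-r ^ 2 / 2)) * ENNReal.ofReal r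
      = ENNReal.ofReal (I (m + 1)) := by
    rw [I, ofReal_integral_eq_lintegral_ofReal]
    · refine setLIntegral_congr_fun measurableSet_Ioi fun r hr => ?_
      simp only [mem_Ioi] at hr
      rw [← ENNReal.ofReal_mul (by positivity)]
      congr 1
      ring
    · have := integrable_scaled (m + 1) 1 one_pos
      simpa [IntegrableOn] using this
    · refine (ae_restrict_iff' measurableSet_Ioi).2 (Filter.Eventually.of_forall fun r hr => ?_)
      simp only [mem_Ioi] at hr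
      simp only [Pi.zero_apply]
      positivity
  have h3 : ENNReal.ofReal (I m) ≠ 0 := by simpa using h1
  have h4 : ENNReal.ofReal (I m) ≠ ⊤ := ENNReal.ofReal_ne_top
  have h5 : ENNReal.ofReal (I (m + 1)) = ENNReal.ofReal (I m) * ENNReal.ofReal (RR m) := by
    rw [← ENNReal.ofReal_mul h1.le]
    congr 1
    unfold RR
    field_simp
  rw [h2, h5] at h
  exact (ENNReal.mul_right_inj h3 h4).1 h

theorem RR_bb (m : ℕ) (hm : 2 ≤ m) : √(2 * π) * RR m * bb m = m := by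
  have h1 := I_pos m
  have h2 := I_pos (m - 1)
  have h3 : I (m + 1) = m * I (m - 1) := by
    have := I_succ_succ (m - 1)
    rw [show m - 1 + 2 = m + 1 by omega] at this
    rw [this]
    congr 1
    have : ((m - 1 : ℕ) : ℝ) = (m : ℝ) - 1 := by rw [Nat.cast_sub (by omega)]; simp
    rw [this]
    ring
  unfold RR bb
  rw [h3]
  have : √(2 * π) ≠ 0 := by positivity
  field_simp

theorem pointwise {n : ℕ} (e x : E n) (he : ‖e‖ = 1) (c : ℝ) :
    ENNReal.ofReal (⟪e, x⟫ - c * ‖x‖)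
      = ∫⁻ v in Ioo c 1, {p : E n × ℝ | p.2 * ‖p.1‖ < ⟪e, p.1⟫}.indicator
          (fun p => ENNReal.ofReal ‖p.1‖) (x, v) := by
  have hle : ⟪e, x⟫ ≤ ‖x‖ := by
    have := real_inner_le_norm e x
    rwa [he, one_mul] at this
  rcases eq_or_ne x 0 with rfl | hx
  · simp [indicator]
  · have hx' : 0 < ‖x‖ := norm_pos_iff.2 hx
    have h1 : ∀ v : ℝ, {p : E n × ℝ | p.2 * ‖p.1‖ < ⟪e, p.1⟫}.indicator
          (fun p => ENNReal.ofReal ‖p.1‖) (x, v)
        = ENNReal.ofReal ‖x‖ * (Iio (⟪e, x⟫ / ‖x‖)).indicator (fun _ => 1) v := by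
      intro v
      by_cases hv : v * ‖x‖ < ⟪e, x⟫
      · have : v < ⟪e, x⟫ / ‖x‖ := (lt_div_iff₀ hx').2 hv
        simp [indicator, hv, this]
      · have : ¬ v < ⟪e, x⟫ / ‖x‖ := fun h => hv ((lt_div_iff₀ hx').1 h)
        simp only [indicator, mem_ofPred_eq, hv, if_false, mem_Iio, this, mul_zero]
    rw [lintegral_congr h1, lintegral_const_mul _ (measurable_const.indicator measurableSet_Iio),
      lintegral_indicator_const measurableSet_Iio, one_mul,
      Measure.restrict_apply measurableSet_Iio]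
    have h2 : Iio (⟪e, x⟫ / ‖x‖) ∩ Ioo c 1 = Ioo c (⟪e, x⟫ / ‖x‖) := by
      ext v
      simp only [mem_inter_iff, mem_Iio, mem_Ioo]
      have h3 : ⟪e, x⟫ / ‖x‖ ≤ 1 := (div_le_one hx').2 hle
      constructor
      · rintro ⟨h, h', _⟩
        exact ⟨h', h⟩
      · rintro ⟨h, h'⟩
        exact ⟨h', h, h'.trans_le h3⟩
    rw [h2, Real.volume_Ioo, ← ENNReal.ofReal_mul hx'.le]
    congr 1
    field_simp

theorem Phi (m : ℕ) (hm : 2 ≤ m) (e : E (m + 1)) (he : ‖e‖ = 1) {c : ℝ} (hc0 : 0 ≤ c)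
    (hc1 : c ≤ 1) :
    ∫⁻ x, ENNReal.ofReal (⟪e, x⟫ - c * ‖x‖) ∂(gam (m + 1))
      = ENNReal.ofReal (bb m * RR m * ∫ v in c..1, J (m + 1) v) := by
  have hS : MeasurableSet {p : E (m + 1) × ℝ | p.2 * ‖p.1‖ < ⟪e, p.1⟫} :=
    measurableSet_lt (by fun_prop) (by fun_prop)
  have hb := bb_pos m
  have hR := RR_pos m
  rw [lintegral_congr fun x => pointwise e x he c, lintegral_lintegral_swap]
  · have h1 : ∀ v ∈ Ioo c 1, ∫⁻ x, {p : E (m + 1) × ℝ | p.2 * ‖p.1‖ < ⟪e, p.1⟫}.indicator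
          (fun p => ENNReal.ofReal ‖p.1‖) (x, v) ∂(gam (m + 1))
        = ENNReal.ofReal (bb m * RR m * J (m + 1) v) := by
      intro v hv
      have hv0 : 0 ≤ v := hc0.trans hv.1.le
      have hSv : MeasurableSet {x : E (m + 1) | v * ‖x‖ < ⟪e, x⟫} :=
        measurableSet_lt (by fun_prop) (by fun_prop)
      have h2 : ∀ x : E (m + 1), {p : E (m + 1) × ℝ | p.2 * ‖p.1‖ < ⟪e, p.1⟫}.indicator
          (fun p => ENNReal.ofReal ‖p.1‖) (x, v)
          = {x : E (m + 1) | v * ‖x‖ < ⟪e, x⟫}.indicator (fun x => ENNReal.ofReal ‖x‖) x :=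
        fun x => rfl
      rw [lintegral_congr h2, lintegral_indicator hSv,
        cone_gam (by omega) _ hSv (fun x hx t ht => ?_) (fun r => ENNReal.ofReal r) (by fun_prop),
        cap_eq m hm e he hv0 hv.2, lint_norm, ← ENNReal.ofReal_mul]
      · congr 1
        ring
      · have := J_nonneg (m + 1) hv.2.le
        positivity
      · simp only [mem_ofPred_eq] at hx ⊢
        rw [norm_smul, inner_smul_right, Real.norm_of_nonneg ht.le]
        calc v * (t * ‖x‖) = t * (v * ‖x‖) := by ring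
          _ < t * ⟪e, x⟫ := by gcongr
    rw [setLIntegral_congr_fun measurableSet_Ioo h1, lint_Ioo hc1,
      intervalIntegral.integral_const_mul]
    · exact (continuous_const.mul (J_continuous _)).intervalIntegrable _ _
    · intro v hv
      have := J_nonneg (m + 1) hv.2.le
      positivity
  · apply Measurable.aemeasurable
    exact (Measurable.indicator (by fun_prop) hS)

end Vale.Agent.P226.CapAux

namespace Vale.Agent.P226

open CapAux

theorem cap_line {n : ℕ} (hn : 3 ≤ n) (A : Set (E n)) (hA : MeasurableSet A)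
    (hcone : ∀ x ∈ A, ∀ t : ℝ, 0 < t → t • x ∈ A) (c : ℝ) (hc0 : 0 ≤ c) (hc1 : c ≤ 1) :
    √(2 * π) * ‖∫ x in A, x ∂(gam n)‖
      ≤ (√(1 - c ^ 2)) ^ (n - 1) + ((n : ℝ) - 1) * c * (J n (-1) * (gam n).real A - J n c) := by
  obtain ⟨m, rfl⟩ : ∃ m, n = m + 1 := ⟨n - 1, by omega⟩
  have hm : 2 ≤ m := by omega
  have hb := bb_pos m
  have hR := RR_pos m
  have hid : Integrable (fun x : E (m + 1) => x) (gam (m + 1)) := IsGaussian.integrable_id
  set z : E (m + 1) := ∫ x in A, x ∂(gam (m + 1)) with hz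
  obtain ⟨e, he, hez⟩ : ∃ e : E (m + 1), ‖e‖ = 1 ∧ ⟪e, z⟫ = ‖z‖ := by
    rcases eq_or_ne z 0 with h | h
    · exact ⟨EuclideanSpace.single 0 1, by simp, by simp [h]⟩
    · refine ⟨‖z‖⁻¹ • z, norm_smul_inv_norm h, ?_⟩
      have : ‖z‖ ≠ 0 := norm_ne_zero_iff.2 h
      rw [real_inner_smul_left, real_inner_self_eq_norm_sq]
      field_simp
  have i1 : Integrable (fun x : E (m + 1) => ‖x‖) (gam (m + 1)) := hid.norm
  have i2 : Integrable (fun x : E (m + 1) => ⟪e, x⟫) (gam (m + 1)) := hid.const_inner e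
  have i3 : Integrable (fun x : E (m + 1) => ⟪e, x⟫ - c * ‖x‖) (gam (m + 1)) :=
    i2.sub (i1.const_mul c)
  have i4 : Integrable (fun x : E (m + 1) => max (⟪e, x⟫ - c * ‖x‖) 0) (gam (m + 1)) := i3.pos_part
  have h1 : ⟪e, z⟫ = ∫ x in A, ⟪e, x⟫ ∂(gam (m + 1)) := by
    rw [hz, ← integral_inner hid.integrableOn]
  have h2 : ∫ x in A, ⟪e, x⟫ ∂(gam (m + 1))
      = (∫ x in A, (⟪e, x⟫ - c * ‖x‖) ∂(gam (m + 1))) + c * ∫ x in A, ‖x‖ ∂(gam (m + 1)) := by
    rw [← integral_const_mul, ← integral_add i3.integrableOn (i1.const_mul c).integrableOn]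
    congr 1
    ext x
    ring
  have h3 : ∫ x in A, (⟪e, x⟫ - c * ‖x‖) ∂(gam (m + 1))
      ≤ ∫ x, max (⟪e, x⟫ - c * ‖x‖) 0 ∂(gam (m + 1)) := by
    calc ∫ x in A, (⟪e, x⟫ - c * ‖x‖) ∂(gam (m + 1))
        ≤ ∫ x in A, max (⟪e, x⟫ - c * ‖x‖) 0 ∂(gam (m + 1)) :=
          integral_mono i3.integrableOn i4.integrableOn fun x => le_max_left _ _
      _ ≤ _ := setIntegral_le_integral i4 (Filter.Eventually.of_forall fun x => le_max_right _ _)
  have h4 : ∫ x, max (⟪e, x⟫ - c * ‖x‖) 0 ∂(gam (m + 1))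
      = bb m * RR m * ∫ v in c..1, J (m + 1) v := by
    have h0 : 0 ≤ᵐ[gam (m + 1)] (fun x : E (m + 1) => max (⟪e, x⟫ - c * ‖x‖) 0) :=
      Filter.Eventually.of_forall fun x => le_max_right _ _
    rw [integral_eq_lintegral_of_nonneg_ae h0 i4.aestronglyMeasurable]
    have : ∀ x : E (m + 1), ENNReal.ofReal (max (⟪e, x⟫ - c * ‖x‖) 0)
        = ENNReal.ofReal (⟪e, x⟫ - c * ‖x‖) := by
      intro x
      rcases le_total (⟪e, x⟫ - c * ‖x‖) 0 with h | h
      · rw [max_eq_right h, ENNReal.ofReal_of_nonpos h, ENNReal.ofReal_zero]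
      · rw [max_eq_left h]
    rw [lintegral_congr this, Phi m hm e he hc0 hc1, ENNReal.toReal_ofReal]
    have : 0 ≤ ∫ v in c..1, J (m + 1) v :=
      intervalIntegral.integral_nonneg hc1 fun v hv => J_nonneg _ hv.2
    positivity
  have h5 : ∫ x in A, ‖x‖ ∂(gam (m + 1)) = (gam (m + 1)).real A * RR m := by
    have h0 : 0 ≤ᵐ[(gam (m + 1)).restrict A] (fun x : E (m + 1) => ‖x‖) :=
      Filter.Eventually.of_forall fun x => norm_nonneg _
    rw [integral_eq_lintegral_of_nonneg_ae h0 i1.aestronglyMeasurable.restrict,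
      cone_gam (by omega) A hA hcone (fun r => ENNReal.ofReal r) (by fun_prop), lint_norm,
      ENNReal.toReal_mul, ENNReal.toReal_ofReal hR.le]
    rfl
  have h6 := J_int (n := m + 1) hn hc0 hc1
  have h7 := RR_bb m hm
  have h8 := bb_J m hm
  have hcast : ((m + 1 : ℕ) : ℝ) - 1 = m := by push_cast; ring
  rw [hcast] at h6 ⊢
  have h9 : √(2 * π) * RR m = m * J (m + 1) (-1) := by
    have : √(2 * π) * RR m * (bb m * J (m + 1) (-1)) = m * J (m + 1) (-1) := by
      rw [← h7]; ring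
    rw [← this, h8, mul_one]
  have h10 : 0 < √(2 * π) := by positivity
  have h11 : ‖z‖ ≤ bb m * RR m * (∫ v in c..1, J (m + 1) v) + c * ((gam (m + 1)).real A * RR m) := by
    rw [← hez, h1, h2, h5]
    linarith
  calc √(2 * π) * ‖z‖
      ≤ √(2 * π) * (bb m * RR m * (∫ v in c..1, J (m + 1) v)
        + c * ((gam (m + 1)).real A * RR m)) := by gcongr
    _ = (√(2 * π) * RR m * bb m) * (∫ v in c..1, J (m + 1) v)
        + (√(2 * π) * RR m) * c * (gam (m + 1)).real A := by ring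
    _ = (m : ℝ) * (∫ v in c..1, J (m + 1) v)
        + (m * J (m + 1) (-1)) * c * (gam (m + 1)).real A := by rw [h7, h9]
    _ = _ := by rw [h6]; ring

end Vale.Agent.P226
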