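import Vale.Agent.P226.JEval

/-!
# P226: numeric tangent lines for the four dimensional cap bound
-/

open MeasureTheory ProbabilityTheory Real

namespace Vale.Agent.P226

namespace CapNum4

/-- a function with nonnegative derivative on `[0,∞)` vanishing at `0` is nonnegative -/
theorem nonneg_of_deriv {f f' : ℝ → ℝ} (hf : ∀ x, HasDerivAt f (f' x) x)
    (h' : ∀ x, 0 ≤ x → 0 ≤ f' x) (h0 : f 0 = 0) {x : ℝ} (hx : 0 ≤ x) : 0 ≤ f x := by
  have hm : MonotoneOn f (Set.Ici 0) := by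
    refine monotoneOn_of_deriv_nonneg (convex_Ici 0)
      (fun y _ => (hf y).continuousAt.continuousWithinAt)
      (fun y _ => (hf y).differentiableAt.differentiableWithinAt) ?_
    intro y hy
    rw [interior_Ici] at hy
    rw [(hf y).deriv]
    exact h' y (le_of_lt hy)
  have := hm (Set.mem_Ici.2 le_rfl) (Set.mem_Ici.2 hx) hx
  rwa [h0] at this

theorem cos_le4 {x : ℝ} (hx : 0 ≤ x) : cos x ≤ 1 - x ^ 2 / 2 + x ^ 4 / 24 := by
  have h := nonneg_of_deriv (f := fun x => 1 - x ^ 2 / 2 + x ^ 4 / 24 - cos x)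
    (f' := fun x => - x + x ^ 3 / 6 + sin x) (fun x => by
      have h1 := (((hasDerivAt_pow 2 x).div_const 2).const_sub 1).add
        ((hasDerivAt_pow 4 x).div_const 24)
      have h2 := h1.sub (hasDerivAt_cos x)
      refine (h2.congr_deriv ?_)
      push_cast
      ring)
    (fun x hx => by have := sin_ge_sub_cube hx; linarith) (by norm_num) hx
  linarith

theorem sin_le5 {x : ℝ} (hx : 0 ≤ x) : sin x ≤ x - x ^ 3 / 6 + x ^ 5 / 120 := by
  have h := nonneg_of_deriv (f := fun x => x - x ^ 3 / 6 + x ^ 5 / 120 - sin x)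
    (f' := fun x => 1 - x ^ 2 / 2 + x ^ 4 / 24 - cos x) (fun x => by
      have h1 := ((hasDerivAt_id' x).sub ((hasDerivAt_pow 3 x).div_const 6)).add
        ((hasDerivAt_pow 5 x).div_const 120)
      have h2 := h1.sub (hasDerivAt_sin x)
      refine (h2.congr_deriv ?_)
      push_cast
      ring)
    (fun x hx => by have := cos_le4 hx; linarith) (by norm_num) hx
  linarith

theorem le_cos6 {x : ℝ} (hx : 0 ≤ x) :
    1 - x ^ 2 / 2 + x ^ 4 / 24 - x ^ 6 / 720 ≤ cos x := by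
  have h := nonneg_of_deriv (f := fun x => cos x - (1 - x ^ 2 / 2 + x ^ 4 / 24 - x ^ 6 / 720))
    (f' := fun x => x - x ^ 3 / 6 + x ^ 5 / 120 - sin x) (fun x => by
      have h1 := ((((hasDerivAt_pow 2 x).div_const 2).const_sub 1).add
        ((hasDerivAt_pow 4 x).div_const 24)).sub ((hasDerivAt_pow 6 x).div_const 720)
      have h2 := (hasDerivAt_cos x).sub h1
      refine (h2.congr_deriv ?_)
      push_cast
      ring)
    (fun x hx => by have := sin_le5 hx; linarith) (by norm_num) hx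
  linarith

theorem le_sin7 {x : ℝ} (hx : 0 ≤ x) :
    x - x ^ 3 / 6 + x ^ 5 / 120 - x ^ 7 / 5040 ≤ sin x := by
  have h := nonneg_of_deriv (f := fun x => sin x - (x - x ^ 3 / 6 + x ^ 5 / 120 - x ^ 7 / 5040))
    (f' := fun x => cos x - (1 - x ^ 2 / 2 + x ^ 4 / 24 - x ^ 6 / 720)) (fun x => by
      have h1 := (((hasDerivAt_id' x).sub ((hasDerivAt_pow 3 x).div_const 6)).add
        ((hasDerivAt_pow 5 x).div_const 120)).sub ((hasDerivAt_pow 7 x).div_const 5040)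
      have h2 := (hasDerivAt_sin x).sub h1
      refine (h2.congr_deriv ?_)
      push_cast
      ring)
    (fun x hx => by have := le_cos6 hx; linarith) (by norm_num) hx
  linarith

theorem arcsin_le {c a : ℝ} (hc0 : 0 ≤ c) (hc1 : c ≤ 1) (ha0 : 0 ≤ a) (ha1 : a ≤ 1)
    (h : c ≤ a - a ^ 3 / 6 + a ^ 5 / 120 - a ^ 7 / 5040) : arcsin c ≤ a := by
  have hp := pi_gt_three
  rw [arcsin_le_iff_le_sin ⟨by linarith, hc1⟩ ⟨by linarith, by linarith⟩]
  exact h.trans (le_sin7 ha0)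

/-- one tangent line -/
theorem line {X p c a s sl ic : ℝ} (hp : 0 ≤ p)
    (hline : ∀ c : ℝ, 0 ≤ c → c ≤ 1 →
      X ≤ (1 - c ^ 2) * √(1 - c ^ 2) + 3 * c * (π / 2 * p - J 4 c))
    (hc0 : 0 ≤ c) (hc1 : c ≤ 1) (ha0 : 0 ≤ a) (ha1 : a ≤ 1)
    (ha : c ≤ a - a ^ 3 / 6 + a ^ 5 / 120 - a ^ 7 / 5040)
    (hs0 : 0 ≤ s) (hs : 1 - c ^ 2 ≤ s ^ 2)
    (hsl : 3 * c * (3.1416 / 2) ≤ sl)
    (hic : (1 - c ^ 2) * s - 3 * 3.141592 / 4 * c + 3 * c / 2 * a + 3 * c ^ 2 / 2 * s ≤ ic) :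
    X ≤ sl * p + ic := by
  have h1 := hline c hc0 hc1
  rw [J_four c (by linarith) hc1] at h1
  have h2 : √(1 - c ^ 2) ≤ s := by
    rw [Real.sqrt_le_left hs0]
    exact hs
  have h3 := arcsin_le hc0 hc1 ha0 ha1 ha
  have h4 : arccos c = π / 2 - arcsin c := rfl
  rw [h4] at h1
  have h5 : 0 ≤ 1 - c ^ 2 := by nlinarith
  have h6 : (1 - c ^ 2) * √(1 - c ^ 2) ≤ (1 - c ^ 2) * s := mul_le_mul_of_nonneg_left h2 h5
  have h7 : 3 * c ^ 2 / 2 * √(1 - c ^ 2) ≤ 3 * c ^ 2 / 2 * s :=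
    mul_le_mul_of_nonneg_left h2 (by positivity)
  have h8 : 3 * c / 2 * arcsin c ≤ 3 * c / 2 * a := mul_le_mul_of_nonneg_left h3 (by positivity)
  have h9 : 3 * 3.141592 / 4 * c ≤ 3 * π / 4 * c := by
    have := pi_gt_d6
    refine mul_le_mul_of_nonneg_right ?_ hc0
    linarith
  have h10 : 3 * c * (π / 2) * p ≤ sl * p := by
    refine mul_le_mul_of_nonneg_right (le_trans ?_ hsl) hp
    have := pi_lt_d4
    refine mul_le_mul_of_nonneg_left ?_ (by positivity)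
    linarith
  calc X ≤ (1 - c ^ 2) * √(1 - c ^ 2) +
        3 * c * (π / 2 * p - (π / 2 - arcsin c - c * √(1 - c ^ 2)) / 2) := h1
    _ = 3 * c * (π / 2) * p + ((1 - c ^ 2) * √(1 - c ^ 2) - 3 * π / 4 * c +
        3 * c / 2 * arcsin c + 3 * c ^ 2 / 2 * √(1 - c ^ 2)) := by ring
    _ ≤ sl * p + ic := by linarith

end CapNum4

/-- [L4N] numeric tangent lines of the cap bound in dimension four -/
theorem cap4_lines {X p : ℝ} (hp : 0 ≤ p)
    (hline : ∀ c : ℝ, 0 ≤ c → c ≤ 1 →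
      X ≤ (1 - c ^ 2) * √(1 - c ^ 2) + 3 * c * (π / 2 * p - J 4 c)) :
    X ≤ 94248 / 100000 * p + 58859 / 100000 ∧ X ≤ 141372 / 100000 * p + 42714 / 100000 ∧
    X ≤ 164934 / 100000 * p + 35721 / 100000 ∧ X ≤ 188496 / 100000 * p + 29429 / 100000 ∧
    X ≤ 212058 / 100000 * p + 23825 / 100000 ∧ X ≤ 235620 / 100000 * p + 18891 / 100000 ∧
    X ≤ 376992 / 100000 * p + 1982 / 100000 := by
  refine ⟨?_, ?_, ?_, ?_, ?_, ?_, ?_⟩
  · refine CapNum4.line (c := 2 / 10) (a := 201359 / 1000000) (s := 979796 / 1000000) hp hline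
      ?_ ?_ ?_ ?_ ?_ ?_ ?_ ?_ ?_ <;> norm_num
  · refine CapNum4.line (c := 3 / 10) (a := 304694 / 1000000) (s := 953940 / 1000000) hp hline
      ?_ ?_ ?_ ?_ ?_ ?_ ?_ ?_ ?_ <;> norm_num
  · refine CapNum4.line (c := 35 / 100) (a := 357573 / 1000000) (s := 936750 / 1000000) hp hline
      ?_ ?_ ?_ ?_ ?_ ?_ ?_ ?_ ?_ <;> norm_num
  · refine CapNum4.line (c := 4 / 10) (a := 411518 / 1000000) (s := 916516 / 1000000) hp hline
      ?_ ?_ ?_ ?_ ?_ ?_ ?_ ?_ ?_ <;> norm_num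
  · refine CapNum4.line (c := 45 / 100) (a := 466767 / 1000000) (s := 893029 / 1000000) hp hline
      ?_ ?_ ?_ ?_ ?_ ?_ ?_ ?_ ?_ <;> norm_num
  · refine CapNum4.line (c := 5 / 10) (a := 523600 / 1000000) (s := 866026 / 1000000) hp hline
      ?_ ?_ ?_ ?_ ?_ ?_ ?_ ?_ ?_ <;> norm_num
  · refine CapNum4.line (c := 8 / 10) (a := 927300 / 1000000) (s := 6 / 10) hp hline
      ?_ ?_ ?_ ?_ ?_ ?_ ?_ ?_ ?_ <;> norm_num

end Vale.Agent.P226
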