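import Mathlib

/-!
# P226: the numeric closing for four cells (piece C4)

Scaled notation: `x i = √(2π) |z i|`, `p i` = Gaussian measure of the `i`-th cell.
-/

open Real

namespace Vale.Agent.P226
namespace Clos4

/-- tangent line of `(1-s^2)^2` at `w` -/
lemma tangent (s w : ℝ) (h : s ^ 2 + 2 * w * s + 3 * w ^ 2 ≤ 2) :
    (1 - s ^ 2) ^ 2 ≤ (1 - w ^ 2) ^ 2 - 4 * w * (1 - w ^ 2) * (s - w) := by
  have e : (1 - w ^ 2) ^ 2 - 4 * w * (1 - w ^ 2) * (s - w) - (1 - s ^ 2) ^ 2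
      = (s - w) ^ 2 * (2 - (s ^ 2 + 2 * w * s + 3 * w ^ 2)) := by ring
  have : 0 ≤ (s - w) ^ 2 * (2 - (s ^ 2 + 2 * w * s + 3 * w ^ 2)) :=
    mul_nonneg (sq_nonneg _) (by linarith)
  linarith

/-- four numbers `≤ U` with sum `≥ 2` -/
lemma four_sum (a b c U : ℝ) (ha : 0 ≤ a) (hb : 0 ≤ b) (hc : 0 ≤ c) (haU : a ≤ U) (hbU : b ≤ U)
    (hcU : c ≤ U) (_hU0 : 0 ≤ U) (hU : U ^ 2 ≤ 6667 / 10000) (hsum : 2 ≤ a + b + c + U) :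
    (1 - a ^ 2) ^ 2 + (1 - b ^ 2) ^ 2 + (1 - c ^ 2) ^ 2 + (1 - U ^ 2) ^ 2 ≤ 9 / 4 := by
  have hU1 : U ≤ 81653 / 100000 := by nlinarith
  set w : ℝ := (2 - U) / 3 with hw
  have hw0 : 0 ≤ w := by rw [hw]; linarith
  have hw1 : w ≤ 2 / 3 := by rw [hw]; linarith
  have key : ∀ s : ℝ, 0 ≤ s → s ≤ U → s ^ 2 + 2 * w * s + 3 * w ^ 2 ≤ 2 := by
    intro s hs hsU
    have h1 : s ^ 2 ≤ U ^ 2 := by nlinarith
    have h2 : w * s ≤ w * U := mul_le_mul_of_nonneg_left hsU hw0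
    have h3 : U ^ 2 + 2 * w * U + 3 * w ^ 2 = 2 / 3 * U ^ 2 + 4 / 3 := by rw [hw]; ring
    nlinarith
  have ta := tangent a w (key a ha haU)
  have tb := tangent b w (key b hb hbU)
  have tc := tangent c w (key c hc hcU)
  have hW : 0 ≤ 4 * w * (1 - w ^ 2) := by
    have : w ^ 2 ≤ 1 := by nlinarith
    have : 0 ≤ 1 - w ^ 2 := by linarith
    positivity
  have hs3 : 0 ≤ 4 * w * (1 - w ^ 2) * (a + b + c - 3 * w) :=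
    mul_nonneg hW (by rw [hw]; linarith)
  have hg : 3 * (1 - w ^ 2) ^ 2 + (1 - U ^ 2) ^ 2 ≤ 9 / 4 := by
    have e : 3 * (1 - w ^ 2) ^ 2 + (1 - U ^ 2) ^ 2 - 9 / 4
        = (2 * U - 1) ^ 2 * (28 * U ^ 2 + 20 * U - 35) / 108 := by rw [hw]; ring
    have h1 : 28 * U ^ 2 + 20 * U - 35 ≤ 0 := by nlinarith
    have h2 : (2 * U - 1) ^ 2 * (28 * U ^ 2 + 20 * U - 35) ≤ 0 :=
      mul_nonpos_of_nonneg_of_nonpos (sq_nonneg _) h1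
    linarith
  linarith

/-- lower bound for the quadratic form, `t` the smallest -/
lemma quad (b1 b2 t η t0 m : ℝ) (h1 : b1 ≤ 1) (h2 : b2 ≤ 1) (t1 : t ≤ b1) (t2 : t ≤ b2)
    (hη1 : η ≤ 1 / 4) (ht0 : t0 ≤ t) (ht00 : 0 ≤ t0) (ht1 : t0 ≤ (2 + η) / 3)
    (hS : 2 + η ≤ b1 + b2 + t)
    (hm : ∀ τ, t0 ≤ τ → τ ≤ (2 + η) / 3 → m ≤ 4 * τ - (2 * τ - η) ^ 2) :
    m ≤ 2 * (b1 * b2 + b1 * t + b2 * t) - b1 ^ 2 - b2 ^ 2 - t ^ 2 := by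
  set δ : ℝ := 2 - b1 - b2 with hδ
  have hδ0 : 0 ≤ δ := by rw [hδ]; linarith
  have hQ : 4 * t - (t + δ) ^ 2 ≤ 2 * (b1 * b2 + b1 * t + b2 * t) - b1 ^ 2 - b2 ^ 2 - t ^ 2 := by
    have e : 2 * (b1 * b2 + b1 * t + b2 * t) - b1 ^ 2 - b2 ^ 2 - t ^ 2 - (4 * t - (t + δ) ^ 2)
        = 4 * ((1 - b1) * (1 - b2)) := by rw [hδ]; ring
    have : 0 ≤ (1 - b1) * (1 - b2) := mul_nonneg (by linarith) (by linarith)
    linarith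
  refine le_trans ?_ hQ
  rcases le_total t ((2 + η) / 3) with hc | hc
  · have h3 : t + δ ≤ 2 * t - η := by rw [hδ]; linarith
    have h4 : 0 ≤ t + δ := by linarith
    have h5 := hm t ht0 hc
    nlinarith
  · have h3 : t + δ ≤ 2 - t := by rw [hδ]; linarith
    have h4 : 0 ≤ t + δ := by linarith
    have h5 := hm ((2 + η) / 3) ht1 le_rfl
    have h8 : 2 * ((2 + η) / 3) - η = 2 - (2 + η) / 3 := by ring
    rw [h8] at h5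
    have h6 : (t + δ) ^ 2 ≤ (2 - t) ^ 2 := by nlinarith
    have h7 : (2 - t) ^ 2 ≤ (2 - (2 + η) / 3) ^ 2 := by nlinarith
    linarith

/-- symmetric version -/
lemma quad_sym (b1 b2 b3 η t0 m : ℝ) (h1 : b1 ≤ 1) (h2 : b2 ≤ 1) (h3 : b3 ≤ 1)
    (hη1 : η ≤ 1 / 4) (l1 : t0 ≤ b1) (l2 : t0 ≤ b2) (l3 : t0 ≤ b3)
    (ht00 : 0 ≤ t0) (ht1 : t0 ≤ (2 + η) / 3)
    (hS : 2 + η ≤ b1 + b2 + b3)
    (hm : ∀ τ, t0 ≤ τ → τ ≤ (2 + η) / 3 → m ≤ 4 * τ - (2 * τ - η) ^ 2) :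
    m ≤ 2 * (b1 * b2 + b1 * b3 + b2 * b3) - b1 ^ 2 - b2 ^ 2 - b3 ^ 2 := by
  rcases le_total b1 b2 with h12 | h12 <;> rcases le_total b1 b3 with h13 | h13 <;>
    rcases le_total b2 b3 with h23 | h23
  · have := quad b2 b3 b1 η t0 m h2 h3 h12 h13 hη1 l1 ht00 ht1 (by linarith) hm
    linarith
  · have := quad b2 b3 b1 η t0 m h2 h3 h12 h13 hη1 l1 ht00 ht1 (by linarith) hm
    linarith
  · have := quad b1 b2 b3 η t0 m h1 h2 h13 (by linarith) hη1 l3 ht00 ht1 (by linarith) hm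
    linarith
  · have := quad b1 b2 b3 η t0 m h1 h2 h13 h23 hη1 l3 ht00 ht1 (by linarith) hm
    linarith
  · have := quad b1 b3 b2 η t0 m h1 h3 h12 h23 hη1 l2 ht00 ht1 (by linarith) hm
    linarith
  · have := quad b1 b3 b2 η t0 m h1 h3 h12 (by linarith) hη1 l2 ht00 ht1 (by linarith) hm
    linarith
  · have := quad b1 b3 b2 η t0 m h1 h3 h12 h23 hη1 l2 ht00 ht1 (by linarith) hm
    linarith
  · have := quad b1 b2 b3 η t0 m h1 h2 h13 h23 hη1 l3 ht00 ht1 (by linarith) hm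
    linarith

lemma sq_aux (s a b : ℝ) (h0 : 0 ≤ s) (h1 : s ≤ 1) (ha : 0 ≤ a) (hab : 1 + a + b ≤ 2) :
    s ^ 2 + a * s + b ≤ 2 := by
  have e1 : s ^ 2 ≤ 1 := by nlinarith
  have e2 : a * s ≤ a * 1 := mul_le_mul_of_nonneg_left h1 ha
  linarith

lemma pi_sq_lb : 9869 / 1000 ≤ π ^ 2 := by
  have h := Real.pi_gt_d4
  have : (3.1415 : ℝ) ^ 2 ≤ π ^ 2 := pow_le_pow_left₀ (by norm_num) h.le 2
  norm_num at this ⊢
  linarith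

/-- chord bound for `(1-s^2)^2` on `[a,b]` -/
lemma chord (s a b A B : ℝ) (ha : a ≤ s) (hb : s ≤ b) (ha0 : 0 ≤ a)
    (hq : 0 ≤ a ^ 2 + (a + b) * a + (a ^ 2 + a * b + b ^ 2 - 2))
    (h1 : (1 - a ^ 2) ^ 2 ≤ A - B * a) (h2 : (1 - b ^ 2) ^ 2 ≤ A - B * b) :
    (1 - s ^ 2) ^ 2 ≤ A - B * s := by
  rcases eq_or_lt_of_le (ha.trans hb) with hab | hab
  · have : s = a := le_antisymm (by linarith) ha
    rw [this]; exact h1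
  have hq' : 0 ≤ s ^ 2 + (a + b) * s + (a ^ 2 + a * b + b ^ 2 - 2) := by
    have e1 : a ^ 2 ≤ s ^ 2 := by nlinarith
    have e2 : (a + b) * a ≤ (a + b) * s := mul_le_mul_of_nonneg_left ha (by linarith)
    linarith
  have h3 : 0 ≤ (s - a) * (b - s) * (s ^ 2 + (a + b) * s + (a ^ 2 + a * b + b ^ 2 - 2)) :=
    mul_nonneg (mul_nonneg (by linarith) (by linarith)) hq'
  have h4 : (b - a) * (1 - s ^ 2) ^ 2 = (b - s) * (1 - a ^ 2) ^ 2 + (s - a) * (1 - b ^ 2) ^ 2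
      - (b - a) * ((s - a) * (b - s) * (s ^ 2 + (a + b) * s + (a ^ 2 + a * b + b ^ 2 - 2))) := by
    ring
  have h5 : 0 ≤ (b - a) * ((s - a) * (b - s)
      * (s ^ 2 + (a + b) * s + (a ^ 2 + a * b + b ^ 2 - 2))) := mul_nonneg (by linarith) h3
  have h6 : (b - s) * (1 - a ^ 2) ^ 2 ≤ (b - s) * (A - B * a) :=
    mul_le_mul_of_nonneg_left h1 (by linarith)
  have h7 : (s - a) * (1 - b ^ 2) ^ 2 ≤ (s - a) * (A - B * b) :=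
    mul_le_mul_of_nonneg_left h2 (by linarith)
  have h8 : (b - a) * (1 - s ^ 2) ^ 2 ≤ (b - a) * (A - B * s) := by
    have e : (b - s) * (A - B * a) + (s - a) * (A - B * b) = (b - a) * (A - B * s) := by ring
    linarith
  exact le_of_mul_le_mul_left h8 (by linarith)

/-- the cap bound in the parameter `s = (1 - 2p)_+` -/
lemma cell (x p : ℝ) (hp0 : 0 ≤ p)
    (hline : ∀ c : ℝ, 0 ≤ c → c ≤ 1 → x ≤ (1 - c ^ 2) + 2 * c * (2 * p - (1 - c))) :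
    ∃ s, 0 ≤ s ∧ s ≤ 1 ∧ 1 - 2 * p ≤ s ∧ x ≤ 1 - s ^ 2 := by
  rcases le_total 0 (1 - 2 * p) with h | h
  · refine ⟨1 - 2 * p, h, by linarith, le_rfl, ?_⟩
    have := hline (1 - 2 * p) h (by linarith)
    nlinarith
  · refine ⟨0, le_rfl, by norm_num, h, ?_⟩
    have := hline 0 le_rfl (by norm_num)
    nlinarith

lemma step1 (x1 x2 x3 x4 s1 s2 s3 s4 : ℝ) (s10 : 0 ≤ s1) (s20 : 0 ≤ s2) (s30 : 0 ≤ s3)
    (s40 : 0 ≤ s4) (hs : 2 ≤ s1 + s2 + s3 + s4)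
    (h1 : x1 ≤ 1 - s1 ^ 2) (h2 : x2 ≤ 1 - s2 ^ 2) (h3 : x3 ≤ 1 - s3 ^ 2) (h4 : x4 ≤ 1 - s4 ^ 2)
    (q1 : x1 ^ 2 ≤ (1 - s1 ^ 2) ^ 2) (q2 : x2 ^ 2 ≤ (1 - s2 ^ 2) ^ 2)
    (q3 : x3 ^ 2 ≤ (1 - s3 ^ 2) ^ 2) (q4 : x4 ^ 2 ≤ (1 - s4 ^ 2) ^ 2)
    (o43 : x4 ≤ x3) (o32 : x3 ≤ x2) (o21 : x2 ≤ x1) (hc : 3335 / 10000 ≤ x4) :
    x1 ^ 2 + x2 ^ 2 + x3 ^ 2 + x4 ^ 2 ≤ 9 / 4 := by
  have u1 : s1 ^ 2 ≤ 6667 / 10000 := by linarith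
  have u2 : s2 ^ 2 ≤ 6667 / 10000 := by linarith
  have u3 : s3 ^ 2 ≤ 6667 / 10000 := by linarith
  have u4 : s4 ^ 2 ≤ 6667 / 10000 := by linarith
  have hsuf : (1 - s1 ^ 2) ^ 2 + (1 - s2 ^ 2) ^ 2 + (1 - s3 ^ 2) ^ 2 + (1 - s4 ^ 2) ^ 2
      ≤ 9 / 4 := by
    clear q1 q2 q3 q4 h1 h2 h3 h4 o43 o32 o21 hc
    rcases le_total s1 s2 with h12 | h12 <;> rcases le_total s3 s4 with h34 | h34
    · rcases le_total s2 s4 with h24 | h24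
      · exact four_sum s1 s2 s3 s4 s10 s20 s30 (by linarith) h24 h34 s40 u4 (by linarith)
      · have := four_sum s1 s3 s4 s2 s10 s30 s40 h12 (by linarith) h24 s20 u2 (by linarith)
        linarith
    · rcases le_total s2 s3 with h23 | h23
      · have := four_sum s1 s2 s4 s3 s10 s20 s40 (by linarith) h23 h34 s30 u3 (by linarith)
        linarith
      · have := four_sum s1 s3 s4 s2 s10 s30 s40 h12 h23 (by linarith) s20 u2 (by linarith)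
        linarith
    · rcases le_total s1 s4 with h14 | h14
      · exact four_sum s1 s2 s3 s4 s10 s20 s30 h14 (by linarith) h34 s40 u4 (by linarith)
      · have := four_sum s2 s3 s4 s1 s20 s30 s40 h12 (by linarith) h14 s10 u1 (by linarith)
        linarith
    · rcases le_total s1 s3 with h13 | h13
      · have := four_sum s1 s2 s4 s3 s10 s20 s40 h13 (by linarith) h34 s30 u3 (by linarith)
        linarith
      · have := four_sum s2 s3 s4 s1 s20 s30 s40 h12 h13 (by linarith) s10 u1 (by linarith)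
        linarith
  linarith

lemma step2a (x1 x2 x3 x4 s1 s2 s3 s4 : ℝ) (s10 : 0 ≤ s1) (s20 : 0 ≤ s2)
    (s11 : s1 ≤ 1) (s21 : s2 ≤ 1) (s31 : s3 ≤ 1) (s40 : 0 ≤ s4) (s41 : s4 ≤ 1)
    (hs : 2 ≤ s1 + s2 + s3 + s4)
    (q1 : x1 ^ 2 ≤ (1 - s1 ^ 2) ^ 2) (q2 : x2 ^ 2 ≤ (1 - s2 ^ 2) ^ 2)
    (q3 : x3 ^ 2 ≤ (1 - s3 ^ 2) ^ 2) (q4 : x4 ^ 2 ≤ (1 - s4 ^ 2) ^ 2)
    (x4sq : x4 ^ 2 ≤ 11123 / 100000) (hc : x3 ^ 2 ≤ 36 / 100) :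
    x1 ^ 2 + x2 ^ 2 + x3 ^ 2 + x4 ^ 2 ≤ 9 / 4 := by
  have e1 := tangent s1 (1 / 5) (sq_aux s1 _ _ s10 s11 (by norm_num) (by norm_num))
  have e2 := tangent s2 (1 / 5) (sq_aux s2 _ _ s20 s21 (by norm_num) (by norm_num))
  norm_num at e1 e2
  have e3 : x3 ^ 2 ≤ 846 / 1000 - 768 / 1000 * s3 := by
    rcases le_total s3 (6325 / 10000) with h | h
    · linarith
    · exact q3.trans (chord s3 (6325 / 10000) 1 _ _ h s31 (by norm_num) (by norm_num)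
        (by norm_num) (by norm_num))
  have e4 : x4 ^ 2 ≤ 768 / 1000 - 768 / 1000 * s4 := by
    rcases le_total s4 (855 / 1000) with h | h
    · linarith
    · have g1 : (1 - s4 ^ 2) ^ 2 = (1 - s4) * ((1 - s4) * (1 + s4) ^ 2) := by ring
      have g4 : (1 + s4) ^ 2 ≤ 4 := by
        have : (1 + s4) ^ 2 ≤ 2 ^ 2 := pow_le_pow_left₀ (by linarith) (by linarith) 2
        linarith
      have g5 : (1 - s4) * (1 + s4) ^ 2 ≤ (1 - s4) * 4 :=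
        mul_le_mul_of_nonneg_left g4 (by linarith)
      have g3 : (1 - s4) * ((1 - s4) * (1 + s4) ^ 2) ≤ (1 - s4) * (768 / 1000) :=
        mul_le_mul_of_nonneg_left (by linarith) (by linarith)
      linarith
  linarith

lemma step2b (x1 x2 x3 x4 s1 s2 s3 s4 : ℝ) (s10 : 0 ≤ s1) (s20 : 0 ≤ s2)
    (s11 : s1 ≤ 1) (s21 : s2 ≤ 1)
    (hs : 2 ≤ s1 + s2 + s3 + s4) (h3 : x3 ≤ 1 - s3 ^ 2) (h4 : x4 ≤ 1 - s4 ^ 2)
    (q1 : x1 ^ 2 ≤ (1 - s1 ^ 2) ^ 2) (q2 : x2 ^ 2 ≤ (1 - s2 ^ 2) ^ 2)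
    (q3 : x3 ^ 2 ≤ (1 - s3 ^ 2) ^ 2) (q4 : x4 ^ 2 ≤ (1 - s4 ^ 2) ^ 2) (o43 : x4 ≤ x3)
    (x4sq : x4 ^ 2 ≤ 11123 / 100000) (hx4 : 259 / 1000 ≤ x4) (hc : x3 ^ 2 ≤ 1 / 2) :
    x1 ^ 2 + x2 ^ 2 + x3 ^ 2 + x4 ^ 2 ≤ 9 / 4 := by
  have e1 := tangent s1 (3 / 10) (sq_aux s1 _ _ s10 s11 (by norm_num) (by norm_num))
  have e2 := tangent s2 (3 / 10) (sq_aux s2 _ _ s20 s21 (by norm_num) (by norm_num))
  norm_num at e1 e2
  have s3le : s3 ≤ 861 / 1000 := by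
    apply le_of_sq_le_sq _ (by norm_num)
    norm_num
    linarith
  have s4le : s4 ≤ 861 / 1000 := by
    apply le_of_sq_le_sq _ (by norm_num)
    norm_num
    linarith
  have e3 : x3 ^ 2 ≤ 10915 / 10000 - 1092 / 1000 * s3 := by
    rcases le_total s3 (5412 / 10000) with h | h
    · linarith
    · exact q3.trans (chord s3 (5412 / 10000) (861 / 1000) _ _ h s3le (by norm_num)
        (by norm_num) (by norm_num) (by norm_num))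
  have e4 : x4 ^ 2 ≤ 1008 / 1000 - 1092 / 1000 * s4 := by
    rcases le_total s4 (82 / 100) with h | h
    · linarith
    · exact q4.trans (chord s4 (82 / 100) (861 / 1000) _ _ h s4le (by norm_num)
        (by norm_num) (by norm_num) (by norm_num))
  linarith

lemma concl_small (τ : ℝ) (h1 : 2929 / 10000 ≤ τ) (h2 : τ ≤ (2 + 1158 / 10000) / 3) :
    (9 / 10 : ℝ) ≤ 4 * τ - (2 * τ - 1158 / 10000) ^ 2 := by
  have := mul_nonneg (sub_nonneg.mpr h1) (sub_nonneg.mpr h2)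
  nlinarith

lemma concl_large (τ : ℝ) (h1 : 3887 / 10000 ≤ τ) (h2 : τ ≤ (2 + 275 / 10000) / 3) :
    (93 / 100 : ℝ) ≤ 4 * τ - (2 * τ - 275 / 10000) ^ 2 := by
  have := mul_nonneg (sub_nonneg.mpr h1) (sub_nonneg.mpr h2)
  nlinarith

/-- from N3 to a contradiction -/
lemma final (a1 a2 a3 e r1 r2 r3 b1 b2 b3 η t0 m : ℝ) (he : 0 ≤ e)
    (hr1 : 0 ≤ r1) (hr2 : 0 ≤ r2) (hr3 : 0 ≤ r3) (hr : r1 + r2 + r3 = 1)
    (hb1 : b1 = a1 - r1 ^ 2 * e) (hb2 : b2 = a2 - r2 ^ 2 * e) (hb3 : b3 = a3 - r3 ^ 2 * e)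
    (a1le : a1 ≤ 1) (a21 : a2 ≤ a1) (a32 : a3 ≤ a2) (hF : 9 / 4 < a1 + a2 + a3 + e)
    (hη : η ≤ 1 / 4 - 2 * e) (hη0 : η ≤ 1 / 4) (ht0 : t0 + e ≤ a3) (ht00 : 0 ≤ t0)
    (ht1 : t0 ≤ (2 + η) / 3) (hm0 : 0 ≤ m) (hme : 81000 / 9869 * e < m)
    (hm : ∀ τ, t0 ≤ τ → τ ≤ (2 + η) / 3 → m ≤ 4 * τ - (2 * τ - η) ^ 2)
    (hN : π ^ 2 / 81 * (2 * (b1 * b2 + b1 * b3 + b2 * b3) - b1 ^ 2 - b2 ^ 2 - b3 ^ 2) ≤ e) :
    False := by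
  have sq_le : ∀ r : ℝ, 0 ≤ r → r ≤ 1 → r ^ 2 ≤ r := by
    intro r h h'
    nlinarith
  have m1 : r1 ^ 2 * e ≤ r1 * e := mul_le_mul_of_nonneg_right (sq_le r1 hr1 (by linarith)) he
  have m2 : r2 ^ 2 * e ≤ r2 * e := mul_le_mul_of_nonneg_right (sq_le r2 hr2 (by linarith)) he
  have m3 : r3 ^ 2 * e ≤ r3 * e := mul_le_mul_of_nonneg_right (sq_le r3 hr3 (by linarith)) he
  have n1 : 0 ≤ r1 ^ 2 * e := by positivity
  have n2 : 0 ≤ r2 ^ 2 * e := by positivity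
  have n3 : 0 ≤ r3 ^ 2 * e := by positivity
  have k1 : r1 * e ≤ e := mul_le_of_le_one_left he (by linarith)
  have k2 : r2 * e ≤ e := mul_le_of_le_one_left he (by linarith)
  have k3 : r3 * e ≤ e := mul_le_of_le_one_left he (by linarith)
  have ksum : r1 * e + r2 * e + r3 * e = e := by
    rw [← add_mul, ← add_mul, hr, one_mul]
  have hq := quad_sym b1 b2 b3 η t0 m (by linarith) (by linarith) (by linarith) hη0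
    (by linarith) (by linarith) (by linarith) ht00 ht1 (by linarith) hm
  have hpi := pi_sq_lb
  have h1 : 9869 / 81000 * m
      ≤ π ^ 2 / 81 * (2 * (b1 * b2 + b1 * b3 + b2 * b3) - b1 ^ 2 - b2 ^ 2 - b3 ^ 2) := by
    apply mul_le_mul (by linarith) hq hm0 (by positivity)
  linarith

end Clos4

open Clos4 in
/-- **Closing for four cells.** -/
theorem closing4 (x1 x2 x3 x4 p1 p2 p3 p4 r1 r2 r3 : ℝ)
    (hx1 : 0 < x1) (hx2 : 0 < x2) (hx3 : 0 < x3) (hx4 : 0 < x4)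
    (hp1 : 0 ≤ p1) (hp2 : 0 ≤ p2) (hp3 : 0 ≤ p3) (hp4 : 0 ≤ p4)
    (hp : p1 + p2 + p3 + p4 = 1)
    (o43 : x4 ≤ x3) (o32 : x3 ≤ x2) (o21 : x2 ≤ x1)
    (hl1 : ∀ c : ℝ, 0 ≤ c → c ≤ 1 → x1 ≤ (1 - c ^ 2) + 2 * c * (2 * p1 - (1 - c)))
    (hl2 : ∀ c : ℝ, 0 ≤ c → c ≤ 1 → x2 ≤ (1 - c ^ 2) + 2 * c * (2 * p2 - (1 - c)))
    (hl3 : ∀ c : ℝ, 0 ≤ c → c ≤ 1 → x3 ≤ (1 - c ^ 2) + 2 * c * (2 * p3 - (1 - c)))
    (hl4 : ∀ c : ℝ, 0 ≤ c → c ≤ 1 → x4 ≤ (1 - c ^ 2) + 2 * c * (2 * p4 - (1 - c)))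
    (hr1 : 0 ≤ r1) (hr2 : 0 ≤ r2) (hr3 : 0 ≤ r3) (hr : r1 + r2 + r3 = 1)
    (hN : π ^ 2 / 81 * (2 * ((x1 ^ 2 - r1 ^ 2 * x4 ^ 2) * (x2 ^ 2 - r2 ^ 2 * x4 ^ 2)
        + (x1 ^ 2 - r1 ^ 2 * x4 ^ 2) * (x3 ^ 2 - r3 ^ 2 * x4 ^ 2)
        + (x2 ^ 2 - r2 ^ 2 * x4 ^ 2) * (x3 ^ 2 - r3 ^ 2 * x4 ^ 2))
        - (x1 ^ 2 - r1 ^ 2 * x4 ^ 2) ^ 2 - (x2 ^ 2 - r2 ^ 2 * x4 ^ 2) ^ 2
        - (x3 ^ 2 - r3 ^ 2 * x4 ^ 2) ^ 2) ≤ x4 ^ 2) :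
    x1 ^ 2 + x2 ^ 2 + x3 ^ 2 + x4 ^ 2 ≤ 9 / 4 := by
  obtain ⟨s1, s10, s11, s1p, h1⟩ := cell x1 p1 hp1 hl1
  obtain ⟨s2, s20, s21, s2p, h2⟩ := cell x2 p2 hp2 hl2
  obtain ⟨s3, s30, s31, s3p, h3⟩ := cell x3 p3 hp3 hl3
  obtain ⟨s4, s40, s41, s4p, h4⟩ := cell x4 p4 hp4 hl4
  clear hl1 hl2 hl3 hl4
  have hs : 2 ≤ s1 + s2 + s3 + s4 := by linarith
  have q1 : x1 ^ 2 ≤ (1 - s1 ^ 2) ^ 2 := pow_le_pow_left₀ hx1.le h1 2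
  have q2 : x2 ^ 2 ≤ (1 - s2 ^ 2) ^ 2 := pow_le_pow_left₀ hx2.le h2 2
  have q3 : x3 ^ 2 ≤ (1 - s3 ^ 2) ^ 2 := pow_le_pow_left₀ hx3.le h3 2
  have q4 : x4 ^ 2 ≤ (1 - s4 ^ 2) ^ 2 := pow_le_pow_left₀ hx4.le h4 2
  rcases le_or_gt (3335 / 10000) x4 with hc | hc
  · exact step1 x1 x2 x3 x4 s1 s2 s3 s4 s10 s20 s30 s40 hs h1 h2 h3 h4 q1 q2 q3 q4 o43 o32 o21 hc
  have x4sq : x4 ^ 2 ≤ 11123 / 100000 := by
    have : x4 ^ 2 ≤ (3335 / 10000) ^ 2 := pow_le_pow_left₀ hx4.le hc.le 2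
    norm_num at this ⊢
    exact this.trans (by norm_num)
  rcases le_or_gt (x3 ^ 2) (36 / 100) with h3s | h3s
  · exact step2a x1 x2 x3 x4 s1 s2 s3 s4 s10 s20 s11 s21 s31 s40 s41 hs q1 q2 q3 q4 x4sq h3s
  by_contra hF
  have hF' : 9 / 4 < x1 ^ 2 + x2 ^ 2 + x3 ^ 2 + x4 ^ 2 := not_le.mp hF
  have x3le : x3 ^ 2 ≤ x2 ^ 2 := pow_le_pow_left₀ hx3.le o32 2
  have x2le : x2 ^ 2 ≤ x1 ^ 2 := pow_le_pow_left₀ hx2.le o21 2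
  have x1le : x1 ^ 2 ≤ 1 := by
    have h0 : x1 ≤ 1 := by
      have := sq_nonneg s1
      exact h1.trans (by linarith)
    have : x1 ^ 2 ≤ 1 ^ 2 := pow_le_pow_left₀ hx1.le h0 2
    exact this.trans (by norm_num)
  rcases lt_or_ge x4 (259 / 1000) with hsmall | hlarge
  · have x4sq' : x4 ^ 2 ≤ 67081 / 1000000 := by
      have : x4 ^ 2 ≤ (259 / 1000) ^ 2 := pow_le_pow_left₀ hx4.le hsmall.le 2
      norm_num at this ⊢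
      exact this
    clear h1 h2 h3 h4 q1 q2 q3 q4 hs hF
    exact final (x1 ^ 2) (x2 ^ 2) (x3 ^ 2) (x4 ^ 2) r1 r2 r3 _ _ _ (1158 / 10000) (2929 / 10000)
      (9 / 10) (sq_nonneg _) hr1 hr2 hr3 hr rfl rfl rfl x1le x2le x3le hF' (by linarith)
      (by norm_num) (by linarith) (by norm_num) (by norm_num) (by norm_num) (by linarith)
      concl_small hN
  · have h3s' : 1 / 2 < x3 ^ 2 := by
      by_contra hcon
      exact hF (step2b x1 x2 x3 x4 s1 s2 s3 s4 s10 s20 s11 s21 hs h3 h4 q1 q2 q3 q4 o43 x4sq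
        hlarge (not_lt.mp hcon))
    have x4sq' : x4 ^ 2 ≤ 1112223 / 10000000 := by
      have : x4 ^ 2 ≤ (3335 / 10000) ^ 2 := pow_le_pow_left₀ hx4.le hc.le 2
      norm_num at this ⊢
      exact this.trans (by norm_num)
    clear h1 h2 h3 h4 q1 q2 q3 q4 hs hF
    exact final (x1 ^ 2) (x2 ^ 2) (x3 ^ 2) (x4 ^ 2) r1 r2 r3 _ _ _ (275 / 10000) (3887 / 10000)
      (93 / 100) (sq_nonneg _) hr1 hr2 hr3 hr rfl rfl rfl x1le x2le x3le hF' (by linarith)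
      (by norm_num) (by linarith) (by norm_num) (by norm_num) (by norm_num) (by linarith)
      concl_large hN

end Vale.Agent.P226
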