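import Vale.Agent.P226.ClosBase

/-!
# P226: closing for `k = 5` cells (cones in `R^4`)
Generated numeric certificates (exact rational arithmetic, checked by `norm_num`).
-/

set_option linter.unusedVariables false

namespace Vale.Agent.P226

/-- the line bounds used for this closing -/
def Ln5 (x p : ℝ) : Prop :=
  x ≤ (11781 / 12500) * p + (58859 / 100000) ∧
  x ≤ (35343 / 25000) * p + (21357 / 50000) ∧
  x ≤ (82467 / 50000) * p + (35721 / 100000) ∧
  x ≤ (11781 / 6250) * p + (29429 / 100000) ∧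
  x ≤ (106029 / 50000) * p + (953 / 4000) ∧
  x ≤ (11781 / 5000) * p + (18891 / 100000) ∧
  x ≤ (11781 / 3125) * p + (991 / 50000)

theorem k5_0U (x p : ℝ) (hp : 0 ≤ p) (h0 : 0 ≤ x) (h1 : x ≤ 1) (L : Ln5 x p) :
    x ^ 2 - (9 / 5) * p ≤ (21427 / 100000) := by
  obtain ⟨L0, L1, L2, L3, L4, L5, L6⟩ := L
  rcases le_total x (431 / 500) with g0 | g0
  · exact seg h0 g0 L4 (by norm_num) (by norm_num) (by norm_num) (by norm_num)
  rcases le_total x (911 / 1000) with g1 | g1
  · exact seg g0 g1 L1 (by norm_num) (by norm_num) (by norm_num) (by norm_num)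
  exact seg g1 h1 L0 (by norm_num) (by norm_num) (by norm_num) (by norm_num)

theorem k5_0V3 (x p : ℝ) (hp : 0 ≤ p) (h0 : 0 ≤ x) (h1 : x ≤ (5249 / 10000)) (L : Ln5 x p) :
    x ^ 2 - (9 / 5) * p ≤ (1889 / 100000) := by
  obtain ⟨L0, L1, L2, L3, L4, L5, L6⟩ := L
  rcases le_total x (62 / 125) with g0 | g0
  · exact seg h0 g0 L6 (by norm_num) (by norm_num) (by norm_num) (by norm_num)
  exact seg g0 h1 L5 (by norm_num) (by norm_num) (by norm_num) (by norm_num)

theorem k5_0V4 (x p : ℝ) (hp : 0 ≤ p) (h0 : 0 ≤ x) (h1 : x ≤ (288 / 625)) (L : Ln5 x p) :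
    x ^ 2 - (9 / 5) * p ≤ (39 / 20000) := by
  obtain ⟨L0, L1, L2, L3, L4, L5, L6⟩ := L
  rcases le_total x (11 / 250) with g0 | g0
  · exact seg0 (le_trans (by norm_num) h0) g0 hp (by norm_num) (by norm_num)
  exact seg g0 h1 L6 (by norm_num) (by norm_num) (by norm_num) (by norm_num)

theorem k5_0V5 (x p : ℝ) (hp : 0 ≤ p) (h0 : 0 ≤ x) (h1 : x ≤ (543 / 5000)) (L : Ln5 x p) :
    x ^ 2 - (9 / 5) * p ≤ (1 / 2500) := by
  obtain ⟨L0, L1, L2, L3, L4, L5, L6⟩ := L
  rcases le_total x (1 / 50) with g0 | g0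
  · exact seg0 (le_trans (by norm_num) h0) g0 hp (by norm_num) (by norm_num)
  exact seg g0 h1 L6 (by norm_num) (by norm_num) (by norm_num) (by norm_num)

theorem k5_1U (x p : ℝ) (hp : 0 ≤ p) (h0 : (543 / 5000) ≤ x) (h1 : x ≤ 1) (L : Ln5 x p) :
    x ^ 2 - (221 / 100) * p ≤ (7381 / 100000) := by
  obtain ⟨L0, L1, L2, L3, L4, L5, L6⟩ := L
  rcases le_total x (677 / 1000) with g0 | g0
  · exact seg h0 g0 L6 (by norm_num) (by norm_num) (by norm_num) (by norm_num)
  rcases le_total x (114 / 125) with g1 | g1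
  · exact seg g0 g1 L1 (by norm_num) (by norm_num) (by norm_num) (by norm_num)
  exact seg g1 h1 L0 (by norm_num) (by norm_num) (by norm_num) (by norm_num)

theorem k5_1V3 (x p : ℝ) (hp : 0 ≤ p) (h0 : (543 / 5000) ≤ x) (h1 : x ≤ (741 / 1250)) (L : Ln5 x p) :
    x ^ 2 - (221 / 100) * p ≤ (-(2733 / 100000)) := by
  obtain ⟨L0, L1, L2, L3, L4, L5, L6⟩ := L
  rcases le_total x (509 / 1000) with g0 | g0
  · exact seg h0 g0 L6 (by norm_num) (by norm_num) (by norm_num) (by norm_num)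
  exact seg g0 h1 L5 (by norm_num) (by norm_num) (by norm_num) (by norm_num)

theorem k5_1V4 (x p : ℝ) (hp : 0 ≤ p) (h0 : (543 / 5000) ≤ x) (h1 : x ≤ (5209 / 10000)) (L : Ln5 x p) :
    x ^ 2 - (221 / 100) * p ≤ (-(1001 / 25000)) := by
  obtain ⟨L0, L1, L2, L3, L4, L5, L6⟩ := L
  rcases le_total x (239 / 500) with g0 | g0
  · exact seg h0 g0 L6 (by norm_num) (by norm_num) (by norm_num) (by norm_num)
  exact seg g0 h1 L5 (by norm_num) (by norm_num) (by norm_num) (by norm_num)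

theorem k5_1V5 (x p : ℝ) (hp : 0 ≤ p) (h0 : (543 / 5000) ≤ x) (h1 : x ≤ (1377 / 10000)) (L : Ln5 x p) :
    x ^ 2 - (221 / 100) * p ≤ (-(161 / 4000)) := by
  obtain ⟨L0, L1, L2, L3, L4, L5, L6⟩ := L
  exact seg h0 h1 L6 (by norm_num) (by norm_num) (by norm_num) (by norm_num)

theorem k5_2U (x p : ℝ) (hp : 0 ≤ p) (h0 : (1377 / 10000) ≤ x) (h1 : x ≤ 1) (L : Ln5 x p) :
    x ^ 2 - (233 / 100) * p ≤ (819 / 25000) := by
  obtain ⟨L0, L1, L2, L3, L4, L5, L6⟩ := L
  rcases le_total x (649 / 1000) with g0 | g0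
  · exact seg h0 g0 L6 (by norm_num) (by norm_num) (by norm_num) (by norm_num)
  rcases le_total x (87 / 100) with g1 | g1
  · exact seg g0 g1 L2 (by norm_num) (by norm_num) (by norm_num) (by norm_num)
  rcases le_total x (114 / 125) with g2 | g2
  · exact seg g1 g2 L1 (by norm_num) (by norm_num) (by norm_num) (by norm_num)
  exact seg g2 h1 L0 (by norm_num) (by norm_num) (by norm_num) (by norm_num)

theorem k5_2V3 (x p : ℝ) (hp : 0 ≤ p) (h0 : (1377 / 10000) ≤ x) (h1 : x ≤ (317 / 500)) (L : Ln5 x p) :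
    x ^ 2 - (233 / 100) * p ≤ (-(1909 / 50000)) := by
  obtain ⟨L0, L1, L2, L3, L4, L5, L6⟩ := L
  rcases le_total x (521 / 1000) with g0 | g0
  · exact seg h0 g0 L6 (by norm_num) (by norm_num) (by norm_num) (by norm_num)
  exact seg g0 h1 L5 (by norm_num) (by norm_num) (by norm_num) (by norm_num)

theorem k5_2V4 (x p : ℝ) (hp : 0 ≤ p) (h0 : (1377 / 10000) ≤ x) (h1 : x ≤ (2787 / 5000)) (L : Ln5 x p) :
    x ^ 2 - (233 / 100) * p ≤ (-(5361 / 100000)) := by
  obtain ⟨L0, L1, L2, L3, L4, L5, L6⟩ := L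
  rcases le_total x (481 / 1000) with g0 | g0
  · exact seg h0 g0 L6 (by norm_num) (by norm_num) (by norm_num) (by norm_num)
  exact seg g0 h1 L5 (by norm_num) (by norm_num) (by norm_num) (by norm_num)

theorem k5_2V5 (x p : ℝ) (hp : 0 ≤ p) (h0 : (1377 / 10000) ≤ x) (h1 : x ≤ (1569 / 10000)) (L : Ln5 x p) :
    x ^ 2 - (233 / 100) * p ≤ (-(5389 / 100000)) := by
  obtain ⟨L0, L1, L2, L3, L4, L5, L6⟩ := L
  exact seg h0 h1 L6 (by norm_num) (by norm_num) (by norm_num) (by norm_num)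

theorem k5_3U (x p : ℝ) (hp : 0 ≤ p) (h0 : (1569 / 10000) ≤ x) (h1 : x ≤ 1) (L : Ln5 x p) :
    x ^ 2 - (241 / 100) * p ≤ (529 / 100000) := by
  obtain ⟨L0, L1, L2, L3, L4, L5, L6⟩ := L
  rcases le_total x (627 / 1000) with g0 | g0
  · exact seg h0 g0 L6 (by norm_num) (by norm_num) (by norm_num) (by norm_num)
  rcases le_total x (861 / 1000) with g1 | g1
  · exact seg g0 g1 L2 (by norm_num) (by norm_num) (by norm_num) (by norm_num)
  rcases le_total x (114 / 125) with g2 | g2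
  · exact seg g1 g2 L1 (by norm_num) (by norm_num) (by norm_num) (by norm_num)
  exact seg g2 h1 L0 (by norm_num) (by norm_num) (by norm_num) (by norm_num)

theorem k5_3V3 (x p : ℝ) (hp : 0 ≤ p) (h0 : (1569 / 10000) ≤ x) (h1 : x ≤ (83 / 125)) (L : Ln5 x p) :
    x ^ 2 - (241 / 100) * p ≤ (-(563 / 12500)) := by
  obtain ⟨L0, L1, L2, L3, L4, L5, L6⟩ := L
  rcases le_total x (53 / 100) with g0 | g0
  · exact seg h0 g0 L6 (by norm_num) (by norm_num) (by norm_num) (by norm_num)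
  exact seg g0 h1 L5 (by norm_num) (by norm_num) (by norm_num) (by norm_num)

theorem k5_3V4 (x p : ℝ) (hp : 0 ≤ p) (h0 : (1569 / 10000) ≤ x) (h1 : x ≤ (73 / 125)) (L : Ln5 x p) :
    x ^ 2 - (241 / 100) * p ≤ (-(6301 / 100000)) := by
  obtain ⟨L0, L1, L2, L3, L4, L5, L6⟩ := L
  rcases le_total x (241 / 500) with g0 | g0
  · exact seg h0 g0 L6 (by norm_num) (by norm_num) (by norm_num) (by norm_num)
  exact seg g0 h1 L5 (by norm_num) (by norm_num) (by norm_num) (by norm_num)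

theorem k5_3V5 (x p : ℝ) (hp : 0 ≤ p) (h0 : (1569 / 10000) ≤ x) (h1 : x ≤ (429 / 2500)) (L : Ln5 x p) :
    x ^ 2 - (241 / 100) * p ≤ (-(6301 / 100000)) := by
  obtain ⟨L0, L1, L2, L3, L4, L5, L6⟩ := L
  exact seg h0 h1 L6 (by norm_num) (by norm_num) (by norm_num) (by norm_num)

theorem k5_4U (x p : ℝ) (hp : 0 ≤ p) (h0 : (429 / 2500) ≤ x) (h1 : x ≤ 1) (L : Ln5 x p) :
    x ^ 2 - (62 / 25) * p ≤ (-(47 / 2500)) := by
  obtain ⟨L0, L1, L2, L3, L4, L5, L6⟩ := L
  rcases le_total x (121 / 200) with g0 | g0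
  · exact seg h0 g0 L6 (by norm_num) (by norm_num) (by norm_num) (by norm_num)
  rcases le_total x (821 / 1000) with g1 | g1
  · exact seg g0 g1 L3 (by norm_num) (by norm_num) (by norm_num) (by norm_num)
  rcases le_total x (106 / 125) with g2 | g2
  · exact seg g1 g2 L2 (by norm_num) (by norm_num) (by norm_num) (by norm_num)
  rcases le_total x (114 / 125) with g3 | g3
  · exact seg g2 g3 L1 (by norm_num) (by norm_num) (by norm_num) (by norm_num)
  exact seg g3 h1 L0 (by norm_num) (by norm_num) (by norm_num) (by norm_num)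

theorem k5_4V3 (x p : ℝ) (hp : 0 ≤ p) (h0 : (429 / 2500) ≤ x) (h1 : x ≤ (6919 / 10000)) (L : Ln5 x p) :
    x ^ 2 - (62 / 25) * p ≤ (-(5179 / 100000)) := by
  obtain ⟨L0, L1, L2, L3, L4, L5, L6⟩ := L
  rcases le_total x (537 / 1000) with g0 | g0
  · exact seg h0 g0 L6 (by norm_num) (by norm_num) (by norm_num) (by norm_num)
  exact seg g0 h1 L4 (by norm_num) (by norm_num) (by norm_num) (by norm_num)

theorem k5_4V4 (x p : ℝ) (hp : 0 ≤ p) (h0 : (429 / 2500) ≤ x) (h1 : x ≤ (6089 / 10000)) (L : Ln5 x p) :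
    x ^ 2 - (62 / 25) * p ≤ (-(44 / 625)) := by
  obtain ⟨L0, L1, L2, L3, L4, L5, L6⟩ := L
  rcases le_total x (243 / 500) with g0 | g0
  · exact seg h0 g0 L6 (by norm_num) (by norm_num) (by norm_num) (by norm_num)
  exact seg g0 h1 L5 (by norm_num) (by norm_num) (by norm_num) (by norm_num)

theorem k5_4V5 (x p : ℝ) (hp : 0 ≤ p) (h0 : (429 / 2500) ≤ x) (h1 : x ≤ (929 / 5000)) (L : Ln5 x p) :
    x ^ 2 - (62 / 25) * p ≤ (-(44 / 625)) := by
  obtain ⟨L0, L1, L2, L3, L4, L5, L6⟩ := L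
  exact seg h0 h1 L6 (by norm_num) (by norm_num) (by norm_num) (by norm_num)

theorem k5_5U (x p : ℝ) (hp : 0 ≤ p) (h0 : (929 / 5000) ≤ x) (h1 : x ≤ 1) (L : Ln5 x p) :
    x ^ 2 - (63 / 25) * p ≤ (-(3093 / 100000)) := by
  obtain ⟨L0, L1, L2, L3, L4, L5, L6⟩ := L
  rcases le_total x (297 / 500) with g0 | g0
  · exact seg h0 g0 L6 (by norm_num) (by norm_num) (by norm_num) (by norm_num)
  rcases le_total x (409 / 500) with g1 | g1
  · exact seg g0 g1 L3 (by norm_num) (by norm_num) (by norm_num) (by norm_num)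
  rcases le_total x (847 / 1000) with g2 | g2
  · exact seg g1 g2 L2 (by norm_num) (by norm_num) (by norm_num) (by norm_num)
  rcases le_total x (117 / 125) with g3 | g3
  · exact seg g2 g3 L1 (by norm_num) (by norm_num) (by norm_num) (by norm_num)
  exact seg g3 h1 L0 (by norm_num) (by norm_num) (by norm_num) (by norm_num)

theorem k5_5V3 (x p : ℝ) (hp : 0 ≤ p) (h0 : (929 / 5000) ≤ x) (h1 : x ≤ (71 / 100)) (L : Ln5 x p) :
    x ^ 2 - (63 / 25) * p ≤ (-(113 / 2000)) := by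
  obtain ⟨L0, L1, L2, L3, L4, L5, L6⟩ := L
  rcases le_total x (539 / 1000) with g0 | g0
  · exact seg h0 g0 L6 (by norm_num) (by norm_num) (by norm_num) (by norm_num)
  exact seg g0 h1 L4 (by norm_num) (by norm_num) (by norm_num) (by norm_num)

theorem k5_5V4 (x p : ℝ) (hp : 0 ≤ p) (h0 : (929 / 5000) ≤ x) (h1 : x ≤ (5 / 8)) (L : Ln5 x p) :
    x ^ 2 - (63 / 25) * p ≤ (-(3789 / 50000)) := by
  obtain ⟨L0, L1, L2, L3, L4, L5, L6⟩ := L
  rcases le_total x (121 / 250) with g0 | g0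
  · exact seg h0 g0 L6 (by norm_num) (by norm_num) (by norm_num) (by norm_num)
  exact seg g0 h1 L5 (by norm_num) (by norm_num) (by norm_num) (by norm_num)

theorem k5_5V5 (x p : ℝ) (hp : 0 ≤ p) (h0 : (929 / 5000) ≤ x) (h1 : x ≤ (1953 / 10000)) (L : Ln5 x p) :
    x ^ 2 - (63 / 25) * p ≤ (-(3821 / 50000)) := by
  obtain ⟨L0, L1, L2, L3, L4, L5, L6⟩ := L
  exact seg h0 h1 L6 (by norm_num) (by norm_num) (by norm_num) (by norm_num)

theorem k5_6U (x p : ℝ) (hp : 0 ≤ p) (h0 : (1953 / 10000) ≤ x) (h1 : x ≤ 1) (L : Ln5 x p) :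
    x ^ 2 - (64 / 25) * p ≤ (-(4281 / 100000)) := by
  obtain ⟨L0, L1, L2, L3, L4, L5, L6⟩ := L
  rcases le_total x (291 / 500) with g0 | g0
  · exact seg h0 g0 L6 (by norm_num) (by norm_num) (by norm_num) (by norm_num)
  rcases le_total x (163 / 200) with g1 | g1
  · exact seg g0 g1 L3 (by norm_num) (by norm_num) (by norm_num) (by norm_num)
  rcases le_total x (847 / 1000) with g2 | g2
  · exact seg g1 g2 L2 (by norm_num) (by norm_num) (by norm_num) (by norm_num)
  rcases le_total x (241 / 250) with g3 | g3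
  · exact seg g2 g3 L1 (by norm_num) (by norm_num) (by norm_num) (by norm_num)
  exact seg g3 h1 L0 (by norm_num) (by norm_num) (by norm_num) (by norm_num)

theorem k5_6V3 (x p : ℝ) (hp : 0 ≤ p) (h0 : (1953 / 10000) ≤ x) (h1 : x ≤ (723 / 1000)) (L : Ln5 x p) :
    x ^ 2 - (64 / 25) * p ≤ (-(3123 / 50000)) := by
  obtain ⟨L0, L1, L2, L3, L4, L5, L6⟩ := L
  rcases le_total x (537 / 1000) with g0 | g0
  · exact seg h0 g0 L6 (by norm_num) (by norm_num) (by norm_num) (by norm_num)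
  exact seg g0 h1 L4 (by norm_num) (by norm_num) (by norm_num) (by norm_num)

theorem k5_6V4 (x p : ℝ) (hp : 0 ≤ p) (h0 : (1953 / 10000) ≤ x) (h1 : x ≤ (1273 / 2000)) (L : Ln5 x p) :
    x ^ 2 - (64 / 25) * p ≤ (-(8101 / 100000)) := by
  obtain ⟨L0, L1, L2, L3, L4, L5, L6⟩ := L
  rcases le_total x (483 / 1000) with g0 | g0
  · exact seg h0 g0 L6 (by norm_num) (by norm_num) (by norm_num) (by norm_num)
  exact seg g0 h1 L5 (by norm_num) (by norm_num) (by norm_num) (by norm_num)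

theorem k5_6V5 (x p : ℝ) (hp : 0 ≤ p) (h0 : (1953 / 10000) ≤ x) (h1 : x ≤ (1011 / 5000)) (L : Ln5 x p) :
    x ^ 2 - (64 / 25) * p ≤ (-(8101 / 100000)) := by
  obtain ⟨L0, L1, L2, L3, L4, L5, L6⟩ := L
  exact seg h0 h1 L6 (by norm_num) (by norm_num) (by norm_num) (by norm_num)

theorem k5_7U (x p : ℝ) (hp : 0 ≤ p) (h0 : (1011 / 5000) ≤ x) (h1 : x ≤ 1) (L : Ln5 x p) :
    x ^ 2 - (129 / 50) * p ≤ (-(39 / 800)) := by
  obtain ⟨L0, L1, L2, L3, L4, L5, L6⟩ := L
  rcases le_total x (72 / 125) with g0 | g0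
  · exact seg h0 g0 L6 (by norm_num) (by norm_num) (by norm_num) (by norm_num)
  rcases le_total x (813 / 1000) with g1 | g1
  · exact seg g0 g1 L3 (by norm_num) (by norm_num) (by norm_num) (by norm_num)
  rcases le_total x (847 / 1000) with g2 | g2
  · exact seg g1 g2 L2 (by norm_num) (by norm_num) (by norm_num) (by norm_num)
  rcases le_total x (489 / 500) with g3 | g3
  · exact seg g2 g3 L1 (by norm_num) (by norm_num) (by norm_num) (by norm_num)
  exact seg g3 h1 L0 (by norm_num) (by norm_num) (by norm_num) (by norm_num)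

theorem k5_7V3 (x p : ℝ) (hp : 0 ≤ p) (h0 : (1011 / 5000) ≤ x) (h1 : x ≤ (7309 / 10000)) (L : Ln5 x p) :
    x ^ 2 - (129 / 50) * p ≤ (-(3257 / 50000)) := by
  obtain ⟨L0, L1, L2, L3, L4, L5, L6⟩ := L
  rcases le_total x (269 / 500) with g0 | g0
  · exact seg h0 g0 L6 (by norm_num) (by norm_num) (by norm_num) (by norm_num)
  exact seg g0 h1 L4 (by norm_num) (by norm_num) (by norm_num) (by norm_num)

theorem k5_7V4 (x p : ℝ) (hp : 0 ≤ p) (h0 : (1011 / 5000) ≤ x) (h1 : x ≤ (1609 / 2500)) (L : Ln5 x p) :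
    x ^ 2 - (129 / 50) * p ≤ (-(8357 / 100000)) := by
  obtain ⟨L0, L1, L2, L3, L4, L5, L6⟩ := L
  rcases le_total x (483 / 1000) with g0 | g0
  · exact seg h0 g0 L6 (by norm_num) (by norm_num) (by norm_num) (by norm_num)
  exact seg g0 h1 L5 (by norm_num) (by norm_num) (by norm_num) (by norm_num)

theorem k5_7V5 (x p : ℝ) (hp : 0 ≤ p) (h0 : (1011 / 5000) ≤ x) (h1 : x ≤ (413 / 2000)) (L : Ln5 x p) :
    x ^ 2 - (129 / 50) * p ≤ (-(1049 / 12500)) := by
  obtain ⟨L0, L1, L2, L3, L4, L5, L6⟩ := L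
  exact seg h0 h1 L6 (by norm_num) (by norm_num) (by norm_num) (by norm_num)

theorem k5_8U (x p : ℝ) (hp : 0 ≤ p) (h0 : (413 / 2000) ≤ x) (h1 : x ≤ 1) (L : Ln5 x p) :
    x ^ 2 - (13 / 5) * p ≤ (-(5469 / 100000)) := by
  obtain ⟨L0, L1, L2, L3, L4, L5, L6⟩ := L
  rcases le_total x (569 / 1000) with g0 | g0
  · exact seg h0 g0 L6 (by norm_num) (by norm_num) (by norm_num) (by norm_num)
  rcases le_total x (203 / 250) with g1 | g1
  · exact seg g0 g1 L3 (by norm_num) (by norm_num) (by norm_num) (by norm_num)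
  rcases le_total x (847 / 1000) with g2 | g2
  · exact seg g1 g2 L2 (by norm_num) (by norm_num) (by norm_num) (by norm_num)
  rcases le_total x (124 / 125) with g3 | g3
  · exact seg g2 g3 L1 (by norm_num) (by norm_num) (by norm_num) (by norm_num)
  exact seg g3 h1 L0 (by norm_num) (by norm_num) (by norm_num) (by norm_num)

theorem k5_8V3 (x p : ℝ) (hp : 0 ≤ p) (h0 : (413 / 2000) ≤ x) (h1 : x ≤ (7359 / 10000)) (L : Ln5 x p) :
    x ^ 2 - (13 / 5) * p ≤ (-(3429 / 50000)) := by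
  obtain ⟨L0, L1, L2, L3, L4, L5, L6⟩ := L
  rcases le_total x (67 / 125) with g0 | g0
  · exact seg h0 g0 L6 (by norm_num) (by norm_num) (by norm_num) (by norm_num)
  exact seg g0 h1 L4 (by norm_num) (by norm_num) (by norm_num) (by norm_num)

theorem k5_8V4 (x p : ℝ) (hp : 0 ≤ p) (h0 : (413 / 2000) ≤ x) (h1 : x ≤ (81 / 125)) (L : Ln5 x p) :
    x ^ 2 - (13 / 5) * p ≤ (-(861 / 10000)) := by
  obtain ⟨L0, L1, L2, L3, L4, L5, L6⟩ := L
  rcases le_total x (483 / 1000) with g0 | g0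
  · exact seg h0 g0 L6 (by norm_num) (by norm_num) (by norm_num) (by norm_num)
  exact seg g0 h1 L5 (by norm_num) (by norm_num) (by norm_num) (by norm_num)

theorem k5_8V5 (x p : ℝ) (hp : 0 ≤ p) (h0 : (413 / 2000) ≤ x) (h1 : x ≤ (523 / 2500)) (L : Ln5 x p) :
    x ^ 2 - (13 / 5) * p ≤ (-(861 / 10000)) := by
  obtain ⟨L0, L1, L2, L3, L4, L5, L6⟩ := L
  exact seg h0 h1 L6 (by norm_num) (by norm_num) (by norm_num) (by norm_num)

theorem k5_9U (x p : ℝ) (hp : 0 ≤ p) (h0 : (523 / 2500) ≤ x) (h1 : x ≤ 1) (L : Ln5 x p) :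
    x ^ 2 - (13 / 5) * p ≤ (-(5469 / 100000)) := by
  obtain ⟨L0, L1, L2, L3, L4, L5, L6⟩ := L
  rcases le_total x (569 / 1000) with g0 | g0
  · exact seg h0 g0 L6 (by norm_num) (by norm_num) (by norm_num) (by norm_num)
  rcases le_total x (203 / 250) with g1 | g1
  · exact seg g0 g1 L3 (by norm_num) (by norm_num) (by norm_num) (by norm_num)
  rcases le_total x (847 / 1000) with g2 | g2
  · exact seg g1 g2 L2 (by norm_num) (by norm_num) (by norm_num) (by norm_num)
  rcases le_total x (124 / 125) with g3 | g3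
  · exact seg g2 g3 L1 (by norm_num) (by norm_num) (by norm_num) (by norm_num)
  exact seg g3 h1 L0 (by norm_num) (by norm_num) (by norm_num) (by norm_num)

theorem k5_9V3 (x p : ℝ) (hp : 0 ≤ p) (h0 : (523 / 2500) ≤ x) (h1 : x ≤ (739 / 1000)) (L : Ln5 x p) :
    x ^ 2 - (13 / 5) * p ≤ (-(6783 / 100000)) := by
  obtain ⟨L0, L1, L2, L3, L4, L5, L6⟩ := L
  rcases le_total x (269 / 500) with g0 | g0
  · exact seg h0 g0 L6 (by norm_num) (by norm_num) (by norm_num) (by norm_num)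
  exact seg g0 h1 L4 (by norm_num) (by norm_num) (by norm_num) (by norm_num)

theorem k5_9V4 (x p : ℝ) (hp : 0 ≤ p) (h0 : (523 / 2500) ≤ x) (h1 : x ≤ (1627 / 2500)) (L : Ln5 x p) :
    x ^ 2 - (13 / 5) * p ≤ (-(861 / 10000)) := by
  obtain ⟨L0, L1, L2, L3, L4, L5, L6⟩ := L
  rcases le_total x (483 / 1000) with g0 | g0
  · exact seg h0 g0 L6 (by norm_num) (by norm_num) (by norm_num) (by norm_num)
  exact seg g0 h1 L5 (by norm_num) (by norm_num) (by norm_num) (by norm_num)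

theorem k5_9V5 (x p : ℝ) (hp : 0 ≤ p) (h0 : (523 / 2500) ≤ x) (h1 : x ≤ (2109 / 10000)) (L : Ln5 x p) :
    x ^ 2 - (13 / 5) * p ≤ (-(2171 / 25000)) := by
  obtain ⟨L0, L1, L2, L3, L4, L5, L6⟩ := L
  exact seg h0 h1 L6 (by norm_num) (by norm_num) (by norm_num) (by norm_num)

theorem k5_10U (x p : ℝ) (hp : 0 ≤ p) (h0 : (2109 / 10000) ≤ x) (h1 : x ≤ 1) (L : Ln5 x p) :
    x ^ 2 - (261 / 100) * p ≤ (-(1441 / 25000)) := by
  obtain ⟨L0, L1, L2, L3, L4, L5, L6⟩ := L
  rcases le_total x (283 / 500) with g0 | g0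
  · exact seg h0 g0 L6 (by norm_num) (by norm_num) (by norm_num) (by norm_num)
  rcases le_total x (391 / 500) with g1 | g1
  · exact seg g0 g1 L4 (by norm_num) (by norm_num) (by norm_num) (by norm_num)
  rcases le_total x (847 / 1000) with g2 | g2
  · exact seg g1 g2 L2 (by norm_num) (by norm_num) (by norm_num) (by norm_num)
  rcases le_total x (999 / 1000) with g3 | g3
  · exact seg g2 g3 L1 (by norm_num) (by norm_num) (by norm_num) (by norm_num)
  exact seg g3 h1 L0 (by norm_num) (by norm_num) (by norm_num) (by norm_num)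

theorem k5_10V3 (x p : ℝ) (hp : 0 ≤ p) (h0 : (2109 / 10000) ≤ x) (h1 : x ≤ (3707 / 5000)) (L : Ln5 x p) :
    x ^ 2 - (261 / 100) * p ≤ (-(217 / 3125)) := by
  obtain ⟨L0, L1, L2, L3, L4, L5, L6⟩ := L
  rcases le_total x (537 / 1000) with g0 | g0
  · exact seg h0 g0 L6 (by norm_num) (by norm_num) (by norm_num) (by norm_num)
  exact seg g0 h1 L4 (by norm_num) (by norm_num) (by norm_num) (by norm_num)

theorem k5_10V4 (x p : ℝ) (hp : 0 ≤ p) (h0 : (2109 / 10000) ≤ x) (h1 : x ≤ (6529 / 10000)) (L : Ln5 x p) :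
    x ^ 2 - (261 / 100) * p ≤ (-(8767 / 100000)) := by
  obtain ⟨L0, L1, L2, L3, L4, L5, L6⟩ := L
  rcases le_total x (481 / 1000) with g0 | g0
  · exact seg h0 g0 L6 (by norm_num) (by norm_num) (by norm_num) (by norm_num)
  exact seg g0 h1 L5 (by norm_num) (by norm_num) (by norm_num) (by norm_num)

theorem k5_10V5 (x p : ℝ) (hp : 0 ≤ p) (h0 : (2109 / 10000) ≤ x) (h1 : x ≤ (1061 / 5000)) (L : Ln5 x p) :
    x ^ 2 - (261 / 100) * p ≤ (-(8781 / 100000)) := by
  obtain ⟨L0, L1, L2, L3, L4, L5, L6⟩ := L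
  exact seg h0 h1 L6 (by norm_num) (by norm_num) (by norm_num) (by norm_num)

theorem k5_11U (x p : ℝ) (hp : 0 ≤ p) (h0 : (1061 / 5000) ≤ x) (h1 : x ≤ 1) (L : Ln5 x p) :
    x ^ 2 - (261 / 100) * p ≤ (-(5751 / 100000)) := by
  obtain ⟨L0, L1, L2, L3, L4, L5, L6⟩ := L
  rcases le_total x (283 / 500) with g0 | g0
  · exact seg h0 g0 L6 (by norm_num) (by norm_num) (by norm_num) (by norm_num)
  rcases le_total x (391 / 500) with g1 | g1
  · exact seg g0 g1 L4 (by norm_num) (by norm_num) (by norm_num) (by norm_num)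
  rcases le_total x (106 / 125) with g2 | g2
  · exact seg g1 g2 L2 (by norm_num) (by norm_num) (by norm_num) (by norm_num)
  exact seg g2 h1 L1 (by norm_num) (by norm_num) (by norm_num) (by norm_num)

theorem k5_11V3 (x p : ℝ) (hp : 0 ≤ p) (h0 : (1061 / 5000) ≤ x) (h1 : x ≤ (7419 / 10000)) (L : Ln5 x p) :
    x ^ 2 - (261 / 100) * p ≤ (-(6943 / 100000)) := by
  obtain ⟨L0, L1, L2, L3, L4, L5, L6⟩ := L
  rcases le_total x (537 / 1000) with g0 | g0
  · exact seg h0 g0 L6 (by norm_num) (by norm_num) (by norm_num) (by norm_num)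
  exact seg g0 h1 L4 (by norm_num) (by norm_num) (by norm_num) (by norm_num)

theorem k5_11V4 (x p : ℝ) (hp : 0 ≤ p) (h0 : (1061 / 5000) ≤ x) (h1 : x ≤ (3267 / 5000)) (L : Ln5 x p) :
    x ^ 2 - (261 / 100) * p ≤ (-(8743 / 100000)) := by
  obtain ⟨L0, L1, L2, L3, L4, L5, L6⟩ := L
  rcases le_total x (241 / 500) with g0 | g0
  · exact seg h0 g0 L6 (by norm_num) (by norm_num) (by norm_num) (by norm_num)
  exact seg g0 h1 L5 (by norm_num) (by norm_num) (by norm_num) (by norm_num)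

theorem k5_11V5 (x p : ℝ) (hp : 0 ≤ p) (h0 : (1061 / 5000) ≤ x) (h1 : x ≤ (17 / 80)) (L : Ln5 x p) :
    x ^ 2 - (261 / 100) * p ≤ (-(551 / 6250)) := by
  obtain ⟨L0, L1, L2, L3, L4, L5, L6⟩ := L
  exact seg h0 h1 L6 (by norm_num) (by norm_num) (by norm_num) (by norm_num)

theorem k5_12U (x p : ℝ) (hp : 0 ≤ p) (h0 : (17 / 80) ≤ x) (h1 : x ≤ 1) (L : Ln5 x p) :
    x ^ 2 - (131 / 50) * p ≤ (-(121 / 2000)) := by
  obtain ⟨L0, L1, L2, L3, L4, L5, L6⟩ := L
  rcases le_total x (563 / 1000) with g0 | g0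
  · exact seg h0 g0 L6 (by norm_num) (by norm_num) (by norm_num) (by norm_num)
  rcases le_total x (781 / 1000) with g1 | g1
  · exact seg g0 g1 L4 (by norm_num) (by norm_num) (by norm_num) (by norm_num)
  rcases le_total x (106 / 125) with g2 | g2
  · exact seg g1 g2 L2 (by norm_num) (by norm_num) (by norm_num) (by norm_num)
  exact seg g2 h1 L1 (by norm_num) (by norm_num) (by norm_num) (by norm_num)

theorem k5_12V3 (x p : ℝ) (hp : 0 ≤ p) (h0 : (17 / 80) ≤ x) (h1 : x ≤ (7439 / 10000)) (L : Ln5 x p) :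
    x ^ 2 - (131 / 50) * p ≤ (-(7153 / 100000)) := by
  obtain ⟨L0, L1, L2, L3, L4, L5, L6⟩ := L
  rcases le_total x (107 / 200) with g0 | g0
  · exact seg h0 g0 L6 (by norm_num) (by norm_num) (by norm_num) (by norm_num)
  rcases le_total x (743 / 1000) with g1 | g1
  · exact seg g0 g1 L4 (by norm_num) (by norm_num) (by norm_num) (by norm_num)
  exact seg g1 h1 L3 (by norm_num) (by norm_num) (by norm_num) (by norm_num)

theorem k5_12V4 (x p : ℝ) (hp : 0 ≤ p) (h0 : (17 / 80) ≤ x) (h1 : x ≤ (819 / 1250)) (L : Ln5 x p) :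
    x ^ 2 - (131 / 50) * p ≤ (-(71 / 800)) := by
  obtain ⟨L0, L1, L2, L3, L4, L5, L6⟩ := L
  rcases le_total x (241 / 500) with g0 | g0
  · exact seg h0 g0 L6 (by norm_num) (by norm_num) (by norm_num) (by norm_num)
  exact seg g0 h1 L5 (by norm_num) (by norm_num) (by norm_num) (by norm_num)

theorem k5_12V5 (x p : ℝ) (hp : 0 ≤ p) (h0 : (17 / 80) ≤ x) (h1 : x ≤ (267 / 1250)) (L : Ln5 x p) :
    x ^ 2 - (131 / 50) * p ≤ (-(71 / 800)) := by
  obtain ⟨L0, L1, L2, L3, L4, L5, L6⟩ := L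
  exact seg h0 h1 L6 (by norm_num) (by norm_num) (by norm_num) (by norm_num)

theorem k5_13U (x p : ℝ) (hp : 0 ≤ p) (h0 : (267 / 1250) ≤ x) (h1 : x ≤ 1) (L : Ln5 x p) :
    x ^ 2 - (131 / 50) * p ≤ (-(189 / 3125)) := by
  obtain ⟨L0, L1, L2, L3, L4, L5, L6⟩ := L
  rcases le_total x (563 / 1000) with g0 | g0
  · exact seg h0 g0 L6 (by norm_num) (by norm_num) (by norm_num) (by norm_num)
  rcases le_total x (781 / 1000) with g1 | g1
  · exact seg g0 g1 L4 (by norm_num) (by norm_num) (by norm_num) (by norm_num)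
  rcases le_total x (106 / 125) with g2 | g2
  · exact seg g1 g2 L2 (by norm_num) (by norm_num) (by norm_num) (by norm_num)
  exact seg g2 h1 L1 (by norm_num) (by norm_num) (by norm_num) (by norm_num)

theorem k5_13V3 (x p : ℝ) (hp : 0 ≤ p) (h0 : (267 / 1250) ≤ x) (h1 : x ≤ (7459 / 10000)) (L : Ln5 x p) :
    x ^ 2 - (131 / 50) * p ≤ (-(7133 / 100000)) := by
  obtain ⟨L0, L1, L2, L3, L4, L5, L6⟩ := L
  rcases le_total x (67 / 125) with g0 | g0
  · exact seg h0 g0 L6 (by norm_num) (by norm_num) (by norm_num) (by norm_num)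
  rcases le_total x (743 / 1000) with g1 | g1
  · exact seg g0 g1 L4 (by norm_num) (by norm_num) (by norm_num) (by norm_num)
  exact seg g1 h1 L3 (by norm_num) (by norm_num) (by norm_num) (by norm_num)

theorem k5_13V4 (x p : ℝ) (hp : 0 ≤ p) (h0 : (267 / 1250) ≤ x) (h1 : x ≤ (657 / 1000)) (L : Ln5 x p) :
    x ^ 2 - (131 / 50) * p ≤ (-(2221 / 25000)) := by
  obtain ⟨L0, L1, L2, L3, L4, L5, L6⟩ := L
  rcases le_total x (241 / 500) with g0 | g0
  · exact seg h0 g0 L6 (by norm_num) (by norm_num) (by norm_num) (by norm_num)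
  exact seg g0 h1 L5 (by norm_num) (by norm_num) (by norm_num) (by norm_num)

theorem k5_13V5 (x p : ℝ) (hp : 0 ≤ p) (h0 : (267 / 1250) ≤ x) (h1 : x ≤ (2147 / 10000)) (L : Ln5 x p) :
    x ^ 2 - (131 / 50) * p ≤ (-(1113 / 12500)) := by
  obtain ⟨L0, L1, L2, L3, L4, L5, L6⟩ := L
  exact seg h0 h1 L6 (by norm_num) (by norm_num) (by norm_num) (by norm_num)

theorem k5_14U (x p : ℝ) (hp : 0 ≤ p) (h0 : (2147 / 10000) ≤ x) (h1 : x ≤ 1) (L : Ln5 x p) :
    x ^ 2 - (263 / 100) * p ≤ (-(3179 / 50000)) := by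
  obtain ⟨L0, L1, L2, L3, L4, L5, L6⟩ := L
  rcases le_total x (559 / 1000) with g0 | g0
  · exact seg h0 g0 L6 (by norm_num) (by norm_num) (by norm_num) (by norm_num)
  rcases le_total x (779 / 1000) with g1 | g1
  · exact seg g0 g1 L4 (by norm_num) (by norm_num) (by norm_num) (by norm_num)
  rcases le_total x (847 / 1000) with g2 | g2
  · exact seg g1 g2 L2 (by norm_num) (by norm_num) (by norm_num) (by norm_num)
  exact seg g2 h1 L1 (by norm_num) (by norm_num) (by norm_num) (by norm_num)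

theorem k5_14V3 (x p : ℝ) (hp : 0 ≤ p) (h0 : (2147 / 10000) ≤ x) (h1 : x ≤ (751 / 1000)) (L : Ln5 x p) :
    x ^ 2 - (263 / 100) * p ≤ (-(3661 / 50000)) := by
  obtain ⟨L0, L1, L2, L3, L4, L5, L6⟩ := L
  rcases le_total x (267 / 500) with g0 | g0
  · exact seg h0 g0 L6 (by norm_num) (by norm_num) (by norm_num) (by norm_num)
  rcases le_total x (149 / 200) with g1 | g1
  · exact seg g0 g1 L4 (by norm_num) (by norm_num) (by norm_num) (by norm_num)
  exact seg g1 h1 L3 (by norm_num) (by norm_num) (by norm_num) (by norm_num)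

theorem k5_14V4 (x p : ℝ) (hp : 0 ≤ p) (h0 : (2147 / 10000) ≤ x) (h1 : x ≤ (1323 / 2000)) (L : Ln5 x p) :
    x ^ 2 - (263 / 100) * p ≤ (-(8981 / 100000)) := by
  obtain ⟨L0, L1, L2, L3, L4, L5, L6⟩ := L
  rcases le_total x (483 / 1000) with g0 | g0
  · exact seg h0 g0 L6 (by norm_num) (by norm_num) (by norm_num) (by norm_num)
  exact seg g0 h1 L5 (by norm_num) (by norm_num) (by norm_num) (by norm_num)

theorem k5_14V5 (x p : ℝ) (hp : 0 ≤ p) (h0 : (2147 / 10000) ≤ x) (h1 : x ≤ (87 / 400)) (L : Ln5 x p) :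
    x ^ 2 - (263 / 100) * p ≤ (-(1797 / 20000)) := by
  obtain ⟨L0, L1, L2, L3, L4, L5, L6⟩ := L
  exact seg h0 h1 L6 (by norm_num) (by norm_num) (by norm_num) (by norm_num)

theorem k5_15U (x p : ℝ) (hp : 0 ≤ p) (h0 : (87 / 400) ≤ x) (h1 : x ≤ 1) (L : Ln5 x p) :
    x ^ 2 - (66 / 25) * p ≤ (-(6649 / 100000)) := by
  obtain ⟨L0, L1, L2, L3, L4, L5, L6⟩ := L
  rcases le_total x (111 / 200) with g0 | g0
  · exact seg h0 g0 L6 (by norm_num) (by norm_num) (by norm_num) (by norm_num)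
  rcases le_total x (389 / 500) with g1 | g1
  · exact seg g0 g1 L4 (by norm_num) (by norm_num) (by norm_num) (by norm_num)
  rcases le_total x (847 / 1000) with g2 | g2
  · exact seg g1 g2 L2 (by norm_num) (by norm_num) (by norm_num) (by norm_num)
  exact seg g2 h1 L1 (by norm_num) (by norm_num) (by norm_num) (by norm_num)

theorem k5_15V3 (x p : ℝ) (hp : 0 ≤ p) (h0 : (87 / 400) ≤ x) (h1 : x ≤ (189 / 250)) (L : Ln5 x p) :
    x ^ 2 - (66 / 25) * p ≤ (-(7511 / 100000)) := by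
  obtain ⟨L0, L1, L2, L3, L4, L5, L6⟩ := L
  rcases le_total x (533 / 1000) with g0 | g0
  · exact seg h0 g0 L6 (by norm_num) (by norm_num) (by norm_num) (by norm_num)
  rcases le_total x (747 / 1000) with g1 | g1
  · exact seg g0 g1 L4 (by norm_num) (by norm_num) (by norm_num) (by norm_num)
  exact seg g1 h1 L3 (by norm_num) (by norm_num) (by norm_num) (by norm_num)

theorem k5_15V4 (x p : ℝ) (hp : 0 ≤ p) (h0 : (87 / 400) ≤ x) (h1 : x ≤ (333 / 500)) (L : Ln5 x p) :
    x ^ 2 - (66 / 25) * p ≤ (-(9099 / 100000)) := by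
  obtain ⟨L0, L1, L2, L3, L4, L5, L6⟩ := L
  rcases le_total x (483 / 1000) with g0 | g0
  · exact seg h0 g0 L6 (by norm_num) (by norm_num) (by norm_num) (by norm_num)
  exact seg g0 h1 L5 (by norm_num) (by norm_num) (by norm_num) (by norm_num)

theorem k5_15V5 (x p : ℝ) (hp : 0 ≤ p) (h0 : (87 / 400) ≤ x) (h1 : x ≤ (2203 / 10000)) (L : Ln5 x p) :
    x ^ 2 - (66 / 25) * p ≤ (-(1139 / 12500)) := by
  obtain ⟨L0, L1, L2, L3, L4, L5, L6⟩ := L
  exact seg h0 h1 L6 (by norm_num) (by norm_num) (by norm_num) (by norm_num)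

theorem k5_16U (x p : ℝ) (hp : 0 ≤ p) (h0 : (2203 / 10000) ≤ x) (h1 : x ≤ 1) (L : Ln5 x p) :
    x ^ 2 - (133 / 50) * p ≤ (-(7249 / 100000)) := by
  obtain ⟨L0, L1, L2, L3, L4, L5, L6⟩ := L
  rcases le_total x (547 / 1000) with g0 | g0
  · exact seg h0 g0 L6 (by norm_num) (by norm_num) (by norm_num) (by norm_num)
  rcases le_total x (31 / 40) with g1 | g1
  · exact seg g0 g1 L4 (by norm_num) (by norm_num) (by norm_num) (by norm_num)
  rcases le_total x (847 / 1000) with g2 | g2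
  · exact seg g1 g2 L2 (by norm_num) (by norm_num) (by norm_num) (by norm_num)
  exact seg g2 h1 L1 (by norm_num) (by norm_num) (by norm_num) (by norm_num)

theorem k5_16V3 (x p : ℝ) (hp : 0 ≤ p) (h0 : (2203 / 10000) ≤ x) (h1 : x ≤ (763 / 1000)) (L : Ln5 x p) :
    x ^ 2 - (133 / 50) * p ≤ (-(3963 / 50000)) := by
  obtain ⟨L0, L1, L2, L3, L4, L5, L6⟩ := L
  rcases le_total x (529 / 1000) with g0 | g0
  · exact seg h0 g0 L6 (by norm_num) (by norm_num) (by norm_num) (by norm_num)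
  rcases le_total x (3 / 4) with g1 | g1
  · exact seg g0 g1 L4 (by norm_num) (by norm_num) (by norm_num) (by norm_num)
  exact seg g1 h1 L3 (by norm_num) (by norm_num) (by norm_num) (by norm_num)

theorem k5_16V4 (x p : ℝ) (hp : 0 ≤ p) (h0 : (2203 / 10000) ≤ x) (h1 : x ≤ (3361 / 5000)) (L : Ln5 x p) :
    x ^ 2 - (133 / 50) * p ≤ (-(2323 / 25000)) := by
  obtain ⟨L0, L1, L2, L3, L4, L5, L6⟩ := L
  rcases le_total x (97 / 200) with g0 | g0
  · exact seg h0 g0 L6 (by norm_num) (by norm_num) (by norm_num) (by norm_num)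
  exact seg g0 h1 L5 (by norm_num) (by norm_num) (by norm_num) (by norm_num)

theorem k5_16V5 (x p : ℝ) (hp : 0 ≤ p) (h0 : (2203 / 10000) ≤ x) (h1 : x ≤ (1121 / 5000)) (L : Ln5 x p) :
    x ^ 2 - (133 / 50) * p ≤ (-(2323 / 25000)) := by
  obtain ⟨L0, L1, L2, L3, L4, L5, L6⟩ := L
  exact seg h0 h1 L6 (by norm_num) (by norm_num) (by norm_num) (by norm_num)

theorem k5_17U (x p : ℝ) (hp : 0 ≤ p) (h0 : (1121 / 5000) ≤ x) (h1 : x ≤ 1) (L : Ln5 x p) :
    x ^ 2 - (67 / 25) * p ≤ (-(7843 / 100000)) := by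
  obtain ⟨L0, L1, L2, L3, L4, L5, L6⟩ := L
  rcases le_total x (539 / 1000) with g0 | g0
  · exact seg h0 g0 L6 (by norm_num) (by norm_num) (by norm_num) (by norm_num)
  rcases le_total x (193 / 250) with g1 | g1
  · exact seg g0 g1 L4 (by norm_num) (by norm_num) (by norm_num) (by norm_num)
  rcases le_total x (803 / 1000) with g2 | g2
  · exact seg g1 g2 L3 (by norm_num) (by norm_num) (by norm_num) (by norm_num)
  rcases le_total x (847 / 1000) with g3 | g3
  · exact seg g2 g3 L2 (by norm_num) (by norm_num) (by norm_num) (by norm_num)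
  exact seg g3 h1 L1 (by norm_num) (by norm_num) (by norm_num) (by norm_num)

theorem k5_17V3 (x p : ℝ) (hp : 0 ≤ p) (h0 : (1121 / 5000) ≤ x) (h1 : x ≤ (193 / 250)) (L : Ln5 x p) :
    x ^ 2 - (67 / 25) * p ≤ (-(8321 / 100000)) := by
  obtain ⟨L0, L1, L2, L3, L4, L5, L6⟩ := L
  rcases le_total x (21 / 40) with g0 | g0
  · exact seg h0 g0 L6 (by norm_num) (by norm_num) (by norm_num) (by norm_num)
  rcases le_total x (377 / 500) with g1 | g1
  · exact seg g0 g1 L4 (by norm_num) (by norm_num) (by norm_num) (by norm_num)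
  exact seg g1 h1 L3 (by norm_num) (by norm_num) (by norm_num) (by norm_num)

theorem k5_17V4 (x p : ℝ) (hp : 0 ≤ p) (h0 : (1121 / 5000) ≤ x) (h1 : x ≤ (6803 / 10000)) (L : Ln5 x p) :
    x ^ 2 - (67 / 25) * p ≤ (-(4751 / 50000)) := by
  obtain ⟨L0, L1, L2, L3, L4, L5, L6⟩ := L
  rcases le_total x (243 / 500) with g0 | g0
  · exact seg h0 g0 L6 (by norm_num) (by norm_num) (by norm_num) (by norm_num)
  exact seg g0 h1 L5 (by norm_num) (by norm_num) (by norm_num) (by norm_num)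

theorem k5_17V5 (x p : ℝ) (hp : 0 ≤ p) (h0 : (1121 / 5000) ≤ x) (h1 : x ≤ (2293 / 10000)) (L : Ln5 x p) :
    x ^ 2 - (67 / 25) * p ≤ (-(4751 / 50000)) := by
  obtain ⟨L0, L1, L2, L3, L4, L5, L6⟩ := L
  exact seg h0 h1 L6 (by norm_num) (by norm_num) (by norm_num) (by norm_num)

theorem k5_18U (x p : ℝ) (hp : 0 ≤ p) (h0 : (2293 / 10000) ≤ x) (h1 : x ≤ 1) (L : Ln5 x p) :
    x ^ 2 - (269 / 100) * p ≤ (-(407 / 5000)) := by
  obtain ⟨L0, L1, L2, L3, L4, L5, L6⟩ := L
  rcases le_total x (267 / 500) with g0 | g0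
  · exact seg h0 g0 L6 (by norm_num) (by norm_num) (by norm_num) (by norm_num)
  rcases le_total x (77 / 100) with g1 | g1
  · exact seg g0 g1 L4 (by norm_num) (by norm_num) (by norm_num) (by norm_num)
  rcases le_total x (801 / 1000) with g2 | g2
  · exact seg g1 g2 L3 (by norm_num) (by norm_num) (by norm_num) (by norm_num)
  rcases le_total x (847 / 1000) with g3 | g3
  · exact seg g2 g3 L2 (by norm_num) (by norm_num) (by norm_num) (by norm_num)
  exact seg g3 h1 L1 (by norm_num) (by norm_num) (by norm_num) (by norm_num)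

theorem k5_18V3 (x p : ℝ) (hp : 0 ≤ p) (h0 : (2293 / 10000) ≤ x) (h1 : x ≤ (7861 / 10000)) (L : Ln5 x p) :
    x ^ 2 - (269 / 100) * p ≤ (-(4187 / 50000)) := by
  obtain ⟨L0, L1, L2, L3, L4, L5, L6⟩ := L
  rcases le_total x (66 / 125) with g0 | g0
  · exact seg h0 g0 L6 (by norm_num) (by norm_num) (by norm_num) (by norm_num)
  rcases le_total x (381 / 500) with g1 | g1
  · exact seg g0 g1 L4 (by norm_num) (by norm_num) (by norm_num) (by norm_num)
  exact seg g1 h1 L3 (by norm_num) (by norm_num) (by norm_num) (by norm_num)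

theorem k5_18V4 (x p : ℝ) (hp : 0 ≤ p) (h0 : (2293 / 10000) ≤ x) (h1 : x ≤ (6929 / 10000)) (L : Ln5 x p) :
    x ^ 2 - (269 / 100) * p ≤ (-(9661 / 100000)) := by
  obtain ⟨L0, L1, L2, L3, L4, L5, L6⟩ := L
  rcases le_total x (97 / 200) with g0 | g0
  · exact seg h0 g0 L6 (by norm_num) (by norm_num) (by norm_num) (by norm_num)
  rcases le_total x (687 / 1000) with g1 | g1
  · exact seg g0 g1 L5 (by norm_num) (by norm_num) (by norm_num) (by norm_num)
  exact seg g1 h1 L4 (by norm_num) (by norm_num) (by norm_num) (by norm_num)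

theorem k5_18V5 (x p : ℝ) (hp : 0 ≤ p) (h0 : (2293 / 10000) ≤ x) (h1 : x ≤ (1187 / 5000)) (L : Ln5 x p) :
    x ^ 2 - (269 / 100) * p ≤ (-(9689 / 100000)) := by
  obtain ⟨L0, L1, L2, L3, L4, L5, L6⟩ := L
  exact seg h0 h1 L6 (by norm_num) (by norm_num) (by norm_num) (by norm_num)

theorem k5_19U (x p : ℝ) (hp : 0 ≤ p) (h0 : (1187 / 5000) ≤ x) (h1 : x ≤ 1) (L : Ln5 x p) :
    x ^ 2 - (273 / 100) * p ≤ (-(927 / 10000)) := by
  obtain ⟨L0, L1, L2, L3, L4, L5, L6⟩ := L
  rcases le_total x (517 / 1000) with g0 | g0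
  · exact seg h0 g0 L6 (by norm_num) (by norm_num) (by norm_num) (by norm_num)
  rcases le_total x (367 / 500) with g1 | g1
  · exact seg g0 g1 L5 (by norm_num) (by norm_num) (by norm_num) (by norm_num)
  rcases le_total x (399 / 500) with g2 | g2
  · exact seg g1 g2 L3 (by norm_num) (by norm_num) (by norm_num) (by norm_num)
  rcases le_total x (429 / 500) with g3 | g3
  · exact seg g2 g3 L2 (by norm_num) (by norm_num) (by norm_num) (by norm_num)
  exact seg g3 h1 L1 (by norm_num) (by norm_num) (by norm_num) (by norm_num)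

theorem k5_19V3 (x p : ℝ) (hp : 0 ≤ p) (h0 : (1187 / 5000) ≤ x) (h1 : x ≤ (8231 / 10000)) (L : Ln5 x p) :
    x ^ 2 - (273 / 100) * p ≤ (-(9273 / 100000)) := by
  obtain ⟨L0, L1, L2, L3, L4, L5, L6⟩ := L
  rcases le_total x (517 / 1000) with g0 | g0
  · exact seg h0 g0 L6 (by norm_num) (by norm_num) (by norm_num) (by norm_num)
  rcases le_total x (367 / 500) with g1 | g1
  · exact seg g0 g1 L5 (by norm_num) (by norm_num) (by norm_num) (by norm_num)
  rcases le_total x (797 / 1000) with g2 | g2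
  · exact seg g1 g2 L3 (by norm_num) (by norm_num) (by norm_num) (by norm_num)
  exact seg g2 h1 L2 (by norm_num) (by norm_num) (by norm_num) (by norm_num)

theorem k5_19V4 (x p : ℝ) (hp : 0 ≤ p) (h0 : (1187 / 5000) ≤ x) (h1 : x ≤ (7259 / 10000)) (L : Ln5 x p) :
    x ^ 2 - (273 / 100) * p ≤ (-(2521 / 25000)) := by
  obtain ⟨L0, L1, L2, L3, L4, L5, L6⟩ := L
  rcases le_total x (61 / 125) with g0 | g0
  · exact seg h0 g0 L6 (by norm_num) (by norm_num) (by norm_num) (by norm_num)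
  rcases le_total x (141 / 200) with g1 | g1
  · exact seg g0 g1 L5 (by norm_num) (by norm_num) (by norm_num) (by norm_num)
  exact seg g1 h1 L4 (by norm_num) (by norm_num) (by norm_num) (by norm_num)

theorem k5_19V5 (x p : ℝ) (hp : 0 ≤ p) (h0 : (1187 / 5000) ≤ x) (h1 : x ≤ (2591 / 10000)) (L : Ln5 x p) :
    x ^ 2 - (273 / 100) * p ≤ (-(253 / 2500)) := by
  obtain ⟨L0, L1, L2, L3, L4, L5, L6⟩ := L
  exact seg h0 h1 L6 (by norm_num) (by norm_num) (by norm_num) (by norm_num)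

theorem k5_20U (x p : ℝ) (hp : 0 ≤ p) (h0 : (2591 / 10000) ≤ x) (h1 : x ≤ 1) (L : Ln5 x p) :
    x ^ 2 - (279 / 100) * p ≤ (-(10873 / 100000)) := by
  obtain ⟨L0, L1, L2, L3, L4, L5, L6⟩ := L
  rcases le_total x (243 / 500) with g0 | g0
  · exact seg h0 g0 L6 (by norm_num) (by norm_num) (by norm_num) (by norm_num)
  rcases le_total x (363 / 500) with g1 | g1
  · exact seg g0 g1 L5 (by norm_num) (by norm_num) (by norm_num) (by norm_num)
  rcases le_total x (399 / 500) with g2 | g2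
  · exact seg g1 g2 L3 (by norm_num) (by norm_num) (by norm_num) (by norm_num)
  rcases le_total x (447 / 500) with g3 | g3
  · exact seg g2 g3 L2 (by norm_num) (by norm_num) (by norm_num) (by norm_num)
  exact seg g3 h1 L1 (by norm_num) (by norm_num) (by norm_num) (by norm_num)

theorem closing5 (X p : Fin 5 → ℝ) (hX : ∀ i, 0 < X i) (hp : ∀ i, 0 ≤ p i)
    (hsum : ∑ i, p i = 1) (hL : ∀ i, Ln5 (X i) (p i)) (hX1 : ∀ i, X i ≤ 1)
    (hN1 : ∀ a i j l, a ≠ i → a ≠ j → a ≠ l → i ≠ j → i ≠ l → j ≠ l → ∀ m : ℝ, 0 ≤ m →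
      m ≤ X i ^ 2 → m ≤ X j ^ 2 → m ≤ X l ^ 2 → 1624 / 10000 * m * (m - X a ^ 2) ≤ X a ^ 2)
    (hN4 : ∀ a : Fin 5, ∀ m : ℝ, 0 ≤ m → (∀ i, i ≠ a → m ≤ X i ^ 2) →
      2771 / 10000 * m * (m - X a ^ 2) ≤ X a ^ 2) :
    ∑ i, X i ^ 2 ≤ 9 / 4 := by
  obtain ⟨a, -, ha⟩ := Finset.exists_min_image Finset.univ X ⟨0, Finset.mem_univ 0⟩
  have hmin : ∀ i, X a ≤ X i := fun i => ha i (Finset.mem_univ i)
  rcases le_total (X a) (543 / 5000) with g0 | g0
  · exact close_int5 X p a hX hsum hN1 hN4 (h1 := (543 / 5000)) (s := (5249 / 10000)) (t := (288 / 625))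
      (τ := (9 / 5)) (B0 := (21427 / 100000)) (B3 := (1889 / 100000)) (B4 := (39 / 20000)) (B5 := (1 / 2500))
      g0 (by norm_num) (by norm_num) (by norm_num) (by norm_num) (by norm_num)
      (by norm_num) (by norm_num) (by norm_num)
      (fun i => k5_0U _ _ (hp i) (hX i).le (hX1 i) (hL i))
      (fun i hi => k5_0V3 _ _ (hp i) (hX i).le hi (hL i))
      (fun i hi => k5_0V4 _ _ (hp i) (hX i).le hi (hL i))
      (fun i hi => k5_0V5 _ _ (hp i) (hX i).le hi (hL i))
      (by norm_num)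
  rcases le_total (X a) (1377 / 10000) with g1 | g1
  · exact close_int5 X p a hX hsum hN1 hN4 (h1 := (1377 / 10000)) (s := (741 / 1250)) (t := (5209 / 10000))
      (τ := (221 / 100)) (B0 := (7381 / 100000)) (B3 := (-(2733 / 100000))) (B4 := (-(1001 / 25000))) (B5 := (-(161 / 4000)))
      g1 (by norm_num) (by norm_num) (by norm_num) (by norm_num) (by norm_num)
      (by norm_num) (by norm_num) (by norm_num)
      (fun i => k5_1U _ _ (hp i) (le_trans g0 (hmin i)) (hX1 i) (hL i))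
      (fun i hi => k5_1V3 _ _ (hp i) (le_trans g0 (hmin i)) hi (hL i))
      (fun i hi => k5_1V4 _ _ (hp i) (le_trans g0 (hmin i)) hi (hL i))
      (fun i hi => k5_1V5 _ _ (hp i) (le_trans g0 (hmin i)) hi (hL i))
      (by norm_num)
  rcases le_total (X a) (1569 / 10000) with g2 | g2
  · exact close_int5 X p a hX hsum hN1 hN4 (h1 := (1569 / 10000)) (s := (317 / 500)) (t := (2787 / 5000))
      (τ := (233 / 100)) (B0 := (819 / 25000)) (B3 := (-(1909 / 50000))) (B4 := (-(5361 / 100000))) (B5 := (-(5389 / 100000)))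
      g2 (by norm_num) (by norm_num) (by norm_num) (by norm_num) (by norm_num)
      (by norm_num) (by norm_num) (by norm_num)
      (fun i => k5_2U _ _ (hp i) (le_trans g1 (hmin i)) (hX1 i) (hL i))
      (fun i hi => k5_2V3 _ _ (hp i) (le_trans g1 (hmin i)) hi (hL i))
      (fun i hi => k5_2V4 _ _ (hp i) (le_trans g1 (hmin i)) hi (hL i))
      (fun i hi => k5_2V5 _ _ (hp i) (le_trans g1 (hmin i)) hi (hL i))
      (by norm_num)
  rcases le_total (X a) (429 / 2500) with g3 | g3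
  · exact close_int5 X p a hX hsum hN1 hN4 (h1 := (429 / 2500)) (s := (83 / 125)) (t := (73 / 125))
      (τ := (241 / 100)) (B0 := (529 / 100000)) (B3 := (-(563 / 12500))) (B4 := (-(6301 / 100000))) (B5 := (-(6301 / 100000)))
      g3 (by norm_num) (by norm_num) (by norm_num) (by norm_num) (by norm_num)
      (by norm_num) (by norm_num) (by norm_num)
      (fun i => k5_3U _ _ (hp i) (le_trans g2 (hmin i)) (hX1 i) (hL i))
      (fun i hi => k5_3V3 _ _ (hp i) (le_trans g2 (hmin i)) hi (hL i))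
      (fun i hi => k5_3V4 _ _ (hp i) (le_trans g2 (hmin i)) hi (hL i))
      (fun i hi => k5_3V5 _ _ (hp i) (le_trans g2 (hmin i)) hi (hL i))
      (by norm_num)
  rcases le_total (X a) (929 / 5000) with g4 | g4
  · exact close_int5 X p a hX hsum hN1 hN4 (h1 := (929 / 5000)) (s := (6919 / 10000)) (t := (6089 / 10000))
      (τ := (62 / 25)) (B0 := (-(47 / 2500))) (B3 := (-(5179 / 100000))) (B4 := (-(44 / 625))) (B5 := (-(44 / 625)))
      g4 (by norm_num) (by norm_num) (by norm_num) (by norm_num) (by norm_num)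
      (by norm_num) (by norm_num) (by norm_num)
      (fun i => k5_4U _ _ (hp i) (le_trans g3 (hmin i)) (hX1 i) (hL i))
      (fun i hi => k5_4V3 _ _ (hp i) (le_trans g3 (hmin i)) hi (hL i))
      (fun i hi => k5_4V4 _ _ (hp i) (le_trans g3 (hmin i)) hi (hL i))
      (fun i hi => k5_4V5 _ _ (hp i) (le_trans g3 (hmin i)) hi (hL i))
      (by norm_num)
  rcases le_total (X a) (1953 / 10000) with g5 | g5
  · exact close_int5 X p a hX hsum hN1 hN4 (h1 := (1953 / 10000)) (s := (71 / 100)) (t := (5 / 8))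
      (τ := (63 / 25)) (B0 := (-(3093 / 100000))) (B3 := (-(113 / 2000))) (B4 := (-(3789 / 50000))) (B5 := (-(3821 / 50000)))
      g5 (by norm_num) (by norm_num) (by norm_num) (by norm_num) (by norm_num)
      (by norm_num) (by norm_num) (by norm_num)
      (fun i => k5_5U _ _ (hp i) (le_trans g4 (hmin i)) (hX1 i) (hL i))
      (fun i hi => k5_5V3 _ _ (hp i) (le_trans g4 (hmin i)) hi (hL i))
      (fun i hi => k5_5V4 _ _ (hp i) (le_trans g4 (hmin i)) hi (hL i))
      (fun i hi => k5_5V5 _ _ (hp i) (le_trans g4 (hmin i)) hi (hL i))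
      (by norm_num)
  rcases le_total (X a) (1011 / 5000) with g6 | g6
  · exact close_int5 X p a hX hsum hN1 hN4 (h1 := (1011 / 5000)) (s := (723 / 1000)) (t := (1273 / 2000))
      (τ := (64 / 25)) (B0 := (-(4281 / 100000))) (B3 := (-(3123 / 50000))) (B4 := (-(8101 / 100000))) (B5 := (-(8101 / 100000)))
      g6 (by norm_num) (by norm_num) (by norm_num) (by norm_num) (by norm_num)
      (by norm_num) (by norm_num) (by norm_num)
      (fun i => k5_6U _ _ (hp i) (le_trans g5 (hmin i)) (hX1 i) (hL i))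
      (fun i hi => k5_6V3 _ _ (hp i) (le_trans g5 (hmin i)) hi (hL i))
      (fun i hi => k5_6V4 _ _ (hp i) (le_trans g5 (hmin i)) hi (hL i))
      (fun i hi => k5_6V5 _ _ (hp i) (le_trans g5 (hmin i)) hi (hL i))
      (by norm_num)
  rcases le_total (X a) (413 / 2000) with g7 | g7
  · exact close_int5 X p a hX hsum hN1 hN4 (h1 := (413 / 2000)) (s := (7309 / 10000)) (t := (1609 / 2500))
      (τ := (129 / 50)) (B0 := (-(39 / 800))) (B3 := (-(3257 / 50000))) (B4 := (-(8357 / 100000))) (B5 := (-(1049 / 12500)))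
      g7 (by norm_num) (by norm_num) (by norm_num) (by norm_num) (by norm_num)
      (by norm_num) (by norm_num) (by norm_num)
      (fun i => k5_7U _ _ (hp i) (le_trans g6 (hmin i)) (hX1 i) (hL i))
      (fun i hi => k5_7V3 _ _ (hp i) (le_trans g6 (hmin i)) hi (hL i))
      (fun i hi => k5_7V4 _ _ (hp i) (le_trans g6 (hmin i)) hi (hL i))
      (fun i hi => k5_7V5 _ _ (hp i) (le_trans g6 (hmin i)) hi (hL i))
      (by norm_num)
  rcases le_total (X a) (523 / 2500) with g8 | g8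
  · exact close_int5 X p a hX hsum hN1 hN4 (h1 := (523 / 2500)) (s := (7359 / 10000)) (t := (81 / 125))
      (τ := (13 / 5)) (B0 := (-(5469 / 100000))) (B3 := (-(3429 / 50000))) (B4 := (-(861 / 10000))) (B5 := (-(861 / 10000)))
      g8 (by norm_num) (by norm_num) (by norm_num) (by norm_num) (by norm_num)
      (by norm_num) (by norm_num) (by norm_num)
      (fun i => k5_8U _ _ (hp i) (le_trans g7 (hmin i)) (hX1 i) (hL i))
      (fun i hi => k5_8V3 _ _ (hp i) (le_trans g7 (hmin i)) hi (hL i))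
      (fun i hi => k5_8V4 _ _ (hp i) (le_trans g7 (hmin i)) hi (hL i))
      (fun i hi => k5_8V5 _ _ (hp i) (le_trans g7 (hmin i)) hi (hL i))
      (by norm_num)
  rcases le_total (X a) (2109 / 10000) with g9 | g9
  · exact close_int5 X p a hX hsum hN1 hN4 (h1 := (2109 / 10000)) (s := (739 / 1000)) (t := (1627 / 2500))
      (τ := (13 / 5)) (B0 := (-(5469 / 100000))) (B3 := (-(6783 / 100000))) (B4 := (-(861 / 10000))) (B5 := (-(2171 / 25000)))
      g9 (by norm_num) (by norm_num) (by norm_num) (by norm_num) (by norm_num)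
      (by norm_num) (by norm_num) (by norm_num)
      (fun i => k5_9U _ _ (hp i) (le_trans g8 (hmin i)) (hX1 i) (hL i))
      (fun i hi => k5_9V3 _ _ (hp i) (le_trans g8 (hmin i)) hi (hL i))
      (fun i hi => k5_9V4 _ _ (hp i) (le_trans g8 (hmin i)) hi (hL i))
      (fun i hi => k5_9V5 _ _ (hp i) (le_trans g8 (hmin i)) hi (hL i))
      (by norm_num)
  rcases le_total (X a) (1061 / 5000) with g10 | g10
  · exact close_int5 X p a hX hsum hN1 hN4 (h1 := (1061 / 5000)) (s := (3707 / 5000)) (t := (6529 / 10000))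
      (τ := (261 / 100)) (B0 := (-(1441 / 25000))) (B3 := (-(217 / 3125))) (B4 := (-(8767 / 100000))) (B5 := (-(8781 / 100000)))
      g10 (by norm_num) (by norm_num) (by norm_num) (by norm_num) (by norm_num)
      (by norm_num) (by norm_num) (by norm_num)
      (fun i => k5_10U _ _ (hp i) (le_trans g9 (hmin i)) (hX1 i) (hL i))
      (fun i hi => k5_10V3 _ _ (hp i) (le_trans g9 (hmin i)) hi (hL i))
      (fun i hi => k5_10V4 _ _ (hp i) (le_trans g9 (hmin i)) hi (hL i))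
      (fun i hi => k5_10V5 _ _ (hp i) (le_trans g9 (hmin i)) hi (hL i))
      (by norm_num)
  rcases le_total (X a) (17 / 80) with g11 | g11
  · exact close_int5 X p a hX hsum hN1 hN4 (h1 := (17 / 80)) (s := (7419 / 10000)) (t := (3267 / 5000))
      (τ := (261 / 100)) (B0 := (-(5751 / 100000))) (B3 := (-(6943 / 100000))) (B4 := (-(8743 / 100000))) (B5 := (-(551 / 6250)))
      g11 (by norm_num) (by norm_num) (by norm_num) (by norm_num) (by norm_num)
      (by norm_num) (by norm_num) (by norm_num)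
      (fun i => k5_11U _ _ (hp i) (le_trans g10 (hmin i)) (hX1 i) (hL i))
      (fun i hi => k5_11V3 _ _ (hp i) (le_trans g10 (hmin i)) hi (hL i))
      (fun i hi => k5_11V4 _ _ (hp i) (le_trans g10 (hmin i)) hi (hL i))
      (fun i hi => k5_11V5 _ _ (hp i) (le_trans g10 (hmin i)) hi (hL i))
      (by norm_num)
  rcases le_total (X a) (267 / 1250) with g12 | g12
  · exact close_int5 X p a hX hsum hN1 hN4 (h1 := (267 / 1250)) (s := (7439 / 10000)) (t := (819 / 1250))
      (τ := (131 / 50)) (B0 := (-(121 / 2000))) (B3 := (-(7153 / 100000))) (B4 := (-(71 / 800))) (B5 := (-(71 / 800)))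
      g12 (by norm_num) (by norm_num) (by norm_num) (by norm_num) (by norm_num)
      (by norm_num) (by norm_num) (by norm_num)
      (fun i => k5_12U _ _ (hp i) (le_trans g11 (hmin i)) (hX1 i) (hL i))
      (fun i hi => k5_12V3 _ _ (hp i) (le_trans g11 (hmin i)) hi (hL i))
      (fun i hi => k5_12V4 _ _ (hp i) (le_trans g11 (hmin i)) hi (hL i))
      (fun i hi => k5_12V5 _ _ (hp i) (le_trans g11 (hmin i)) hi (hL i))
      (by norm_num)
  rcases le_total (X a) (2147 / 10000) with g13 | g13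
  · exact close_int5 X p a hX hsum hN1 hN4 (h1 := (2147 / 10000)) (s := (7459 / 10000)) (t := (657 / 1000))
      (τ := (131 / 50)) (B0 := (-(189 / 3125))) (B3 := (-(7133 / 100000))) (B4 := (-(2221 / 25000))) (B5 := (-(1113 / 12500)))
      g13 (by norm_num) (by norm_num) (by norm_num) (by norm_num) (by norm_num)
      (by norm_num) (by norm_num) (by norm_num)
      (fun i => k5_13U _ _ (hp i) (le_trans g12 (hmin i)) (hX1 i) (hL i))
      (fun i hi => k5_13V3 _ _ (hp i) (le_trans g12 (hmin i)) hi (hL i))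
      (fun i hi => k5_13V4 _ _ (hp i) (le_trans g12 (hmin i)) hi (hL i))
      (fun i hi => k5_13V5 _ _ (hp i) (le_trans g12 (hmin i)) hi (hL i))
      (by norm_num)
  rcases le_total (X a) (87 / 400) with g14 | g14
  · exact close_int5 X p a hX hsum hN1 hN4 (h1 := (87 / 400)) (s := (751 / 1000)) (t := (1323 / 2000))
      (τ := (263 / 100)) (B0 := (-(3179 / 50000))) (B3 := (-(3661 / 50000))) (B4 := (-(8981 / 100000))) (B5 := (-(1797 / 20000)))
      g14 (by norm_num) (by norm_num) (by norm_num) (by norm_num) (by norm_num)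
      (by norm_num) (by norm_num) (by norm_num)
      (fun i => k5_14U _ _ (hp i) (le_trans g13 (hmin i)) (hX1 i) (hL i))
      (fun i hi => k5_14V3 _ _ (hp i) (le_trans g13 (hmin i)) hi (hL i))
      (fun i hi => k5_14V4 _ _ (hp i) (le_trans g13 (hmin i)) hi (hL i))
      (fun i hi => k5_14V5 _ _ (hp i) (le_trans g13 (hmin i)) hi (hL i))
      (by norm_num)
  rcases le_total (X a) (2203 / 10000) with g15 | g15
  · exact close_int5 X p a hX hsum hN1 hN4 (h1 := (2203 / 10000)) (s := (189 / 250)) (t := (333 / 500))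
      (τ := (66 / 25)) (B0 := (-(6649 / 100000))) (B3 := (-(7511 / 100000))) (B4 := (-(9099 / 100000))) (B5 := (-(1139 / 12500)))
      g15 (by norm_num) (by norm_num) (by norm_num) (by norm_num) (by norm_num)
      (by norm_num) (by norm_num) (by norm_num)
      (fun i => k5_15U _ _ (hp i) (le_trans g14 (hmin i)) (hX1 i) (hL i))
      (fun i hi => k5_15V3 _ _ (hp i) (le_trans g14 (hmin i)) hi (hL i))
      (fun i hi => k5_15V4 _ _ (hp i) (le_trans g14 (hmin i)) hi (hL i))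
      (fun i hi => k5_15V5 _ _ (hp i) (le_trans g14 (hmin i)) hi (hL i))
      (by norm_num)
  rcases le_total (X a) (1121 / 5000) with g16 | g16
  · exact close_int5 X p a hX hsum hN1 hN4 (h1 := (1121 / 5000)) (s := (763 / 1000)) (t := (3361 / 5000))
      (τ := (133 / 50)) (B0 := (-(7249 / 100000))) (B3 := (-(3963 / 50000))) (B4 := (-(2323 / 25000))) (B5 := (-(2323 / 25000)))
      g16 (by norm_num) (by norm_num) (by norm_num) (by norm_num) (by norm_num)
      (by norm_num) (by norm_num) (by norm_num)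
      (fun i => k5_16U _ _ (hp i) (le_trans g15 (hmin i)) (hX1 i) (hL i))
      (fun i hi => k5_16V3 _ _ (hp i) (le_trans g15 (hmin i)) hi (hL i))
      (fun i hi => k5_16V4 _ _ (hp i) (le_trans g15 (hmin i)) hi (hL i))
      (fun i hi => k5_16V5 _ _ (hp i) (le_trans g15 (hmin i)) hi (hL i))
      (by norm_num)
  rcases le_total (X a) (2293 / 10000) with g17 | g17
  · exact close_int5 X p a hX hsum hN1 hN4 (h1 := (2293 / 10000)) (s := (193 / 250)) (t := (6803 / 10000))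
      (τ := (67 / 25)) (B0 := (-(7843 / 100000))) (B3 := (-(8321 / 100000))) (B4 := (-(4751 / 50000))) (B5 := (-(4751 / 50000)))
      g17 (by norm_num) (by norm_num) (by norm_num) (by norm_num) (by norm_num)
      (by norm_num) (by norm_num) (by norm_num)
      (fun i => k5_17U _ _ (hp i) (le_trans g16 (hmin i)) (hX1 i) (hL i))
      (fun i hi => k5_17V3 _ _ (hp i) (le_trans g16 (hmin i)) hi (hL i))
      (fun i hi => k5_17V4 _ _ (hp i) (le_trans g16 (hmin i)) hi (hL i))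
      (fun i hi => k5_17V5 _ _ (hp i) (le_trans g16 (hmin i)) hi (hL i))
      (by norm_num)
  rcases le_total (X a) (1187 / 5000) with g18 | g18
  · exact close_int5 X p a hX hsum hN1 hN4 (h1 := (1187 / 5000)) (s := (7861 / 10000)) (t := (6929 / 10000))
      (τ := (269 / 100)) (B0 := (-(407 / 5000))) (B3 := (-(4187 / 50000))) (B4 := (-(9661 / 100000))) (B5 := (-(9689 / 100000)))
      g18 (by norm_num) (by norm_num) (by norm_num) (by norm_num) (by norm_num)
      (by norm_num) (by norm_num) (by norm_num)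
      (fun i => k5_18U _ _ (hp i) (le_trans g17 (hmin i)) (hX1 i) (hL i))
      (fun i hi => k5_18V3 _ _ (hp i) (le_trans g17 (hmin i)) hi (hL i))
      (fun i hi => k5_18V4 _ _ (hp i) (le_trans g17 (hmin i)) hi (hL i))
      (fun i hi => k5_18V5 _ _ (hp i) (le_trans g17 (hmin i)) hi (hL i))
      (by norm_num)
  rcases le_total (X a) (2591 / 10000) with g19 | g19
  · exact close_int5 X p a hX hsum hN1 hN4 (h1 := (2591 / 10000)) (s := (8231 / 10000)) (t := (7259 / 10000))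
      (τ := (273 / 100)) (B0 := (-(927 / 10000))) (B3 := (-(9273 / 100000))) (B4 := (-(2521 / 25000))) (B5 := (-(253 / 2500)))
      g19 (by norm_num) (by norm_num) (by norm_num) (by norm_num) (by norm_num)
      (by norm_num) (by norm_num) (by norm_num)
      (fun i => k5_19U _ _ (hp i) (le_trans g18 (hmin i)) (hX1 i) (hL i))
      (fun i hi => k5_19V3 _ _ (hp i) (le_trans g18 (hmin i)) hi (hL i))
      (fun i hi => k5_19V4 _ _ (hp i) (le_trans g18 (hmin i)) hi (hL i))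
      (fun i hi => k5_19V5 _ _ (hp i) (le_trans g18 (hmin i)) hi (hL i))
      (by norm_num)
  exact close_all X p hsum (τ := (279 / 100)) (B := (-(10873 / 100000)))
    (fun i => k5_20U _ _ (hp i) (le_trans g19 (hmin i)) (hX1 i) (hL i)) (by norm_num)

end Vale.Agent.P226
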