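import Vale.Agent.P226.ClosBase

/-!
# P226: closing for `k = 6` cells (cones in `R^5`)
Generated numeric certificates (exact rational arithmetic, checked by `norm_num`).
-/

set_option linter.unusedVariables false

namespace Vale.Agent.P226

/-- the line bounds used for this closing -/
def Ln6 (x p : ℝ) : Prop :=
  x ≤ (106667 / 100000) * p + (27307 / 50000) ∧
  x ≤ (66667 / 50000) * p + (5713 / 12500) ∧
  x ≤ (8 / 5) * p + (3773 / 10000) ∧
  x ≤ (106667 / 50000) * p + (153 / 625) ∧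
  x ≤ (12 / 5) * p + (9567 / 50000) ∧
  x ≤ (146667 / 50000) * p + (337 / 3125) ∧
  x ≤ 4 * p + (977 / 50000) ∧
  x ≤ (226667 / 50000) * p + (217 / 50000)

theorem ln6_of (x p : ℝ) (hp : 0 ≤ p) (h : ∀ c : ℝ, 0 ≤ c → c ≤ 1 →
    x ≤ (1 - c ^ 2) ^ 2 + 4 * c * (4 / 3 * p - (2 / 3 - c + c ^ 3 / 3))) : Ln6 x p := by
  refine ⟨?_, ?_, ?_, ?_, ?_, ?_, ?_, ?_⟩
  · have := h (1 / 5) (by norm_num) (by norm_num)
    norm_num at this
    linarith
  · have := h (1 / 4) (by norm_num) (by norm_num)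
    norm_num at this
    linarith
  · have := h (3 / 10) (by norm_num) (by norm_num)
    norm_num at this
    linarith
  · have := h (2 / 5) (by norm_num) (by norm_num)
    norm_num at this
    linarith
  · have := h (9 / 20) (by norm_num) (by norm_num)
    norm_num at this
    linarith
  · have := h (11 / 20) (by norm_num) (by norm_num)
    norm_num at this
    linarith
  · have := h (3 / 4) (by norm_num) (by norm_num)
    norm_num at this
    linarith
  · have := h (17 / 20) (by norm_num) (by norm_num)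
    norm_num at this
    linarith

theorem k6_0U (x p : ℝ) (hp : 0 ≤ p) (h0 : 0 ≤ x) (h1 : x ≤ 1) (L : Ln6 x p) :
    x ^ 2 - (83 / 50) * p ≤ (29369 / 100000) := by
  obtain ⟨L0, L1, L2, L3, L4, L5, L6, L7⟩ := L
  rcases le_total x (893 / 1000) with g0 | g0
  · exact seg h0 g0 L3 (by norm_num) (by norm_num) (by norm_num) (by norm_num)
  exact seg g0 h1 L0 (by norm_num) (by norm_num) (by norm_num) (by norm_num)

theorem k6_0V (x p : ℝ) (hp : 0 ≤ p) (h0 : 0 ≤ x) (h1 : x ≤ (423 / 1000)) (L : Ln6 x p) :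
    x ^ 2 - (83 / 50) * p ≤ (29 / 50000) := by
  obtain ⟨L0, L1, L2, L3, L4, L5, L6, L7⟩ := L
  rcases le_total x (3 / 125) with g0 | g0
  · exact seg0 (le_trans (by norm_num) h0) g0 hp (by norm_num) (by norm_num)
  rcases le_total x (79 / 200) with g1 | g1
  · exact seg g0 g1 L6 (by norm_num) (by norm_num) (by norm_num) (by norm_num)
  exact seg g1 h1 L5 (by norm_num) (by norm_num) (by norm_num) (by norm_num)

theorem k6_1U (x p : ℝ) (hp : 0 ≤ p) (h0 : (71 / 1000) ≤ x) (h1 : x ≤ 1) (L : Ln6 x p) :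
    x ^ 2 - (11 / 5) * p ≤ (3979 / 50000) := by
  obtain ⟨L0, L1, L2, L3, L4, L5, L6, L7⟩ := L
  rcases le_total x (187 / 250) with g0 | g0
  · exact seg h0 g0 L5 (by norm_num) (by norm_num) (by norm_num) (by norm_num)
  rcases le_total x (903 / 1000) with g1 | g1
  · exact seg g0 g1 L1 (by norm_num) (by norm_num) (by norm_num) (by norm_num)
  exact seg g1 h1 L0 (by norm_num) (by norm_num) (by norm_num) (by norm_num)

theorem k6_1V (x p : ℝ) (hp : 0 ≤ p) (h0 : (71 / 1000) ≤ x) (h1 : x ≤ (111 / 200)) (L : Ln6 x p) :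
    x ^ 2 - (11 / 5) * p ≤ (-(273 / 10000)) := by
  obtain ⟨L0, L1, L2, L3, L4, L5, L6, L7⟩ := L
  rcases le_total x (207 / 500) with g0 | g0
  · exact seg h0 g0 L7 (by norm_num) (by norm_num) (by norm_num) (by norm_num)
  exact seg g0 h1 L5 (by norm_num) (by norm_num) (by norm_num) (by norm_num)

theorem k6_2U (x p : ℝ) (hp : 0 ≤ p) (h0 : (121 / 1000) ≤ x) (h1 : x ≤ 1) (L : Ln6 x p) :
    x ^ 2 - (121 / 50) * p ≤ (7 / 800) := by
  obtain ⟨L0, L1, L2, L3, L4, L5, L6, L7⟩ := L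
  rcases le_total x (89 / 125) with g0 | g0
  · exact seg h0 g0 L5 (by norm_num) (by norm_num) (by norm_num) (by norm_num)
  rcases le_total x (107 / 125) with g1 | g1
  · exact seg g0 g1 L2 (by norm_num) (by norm_num) (by norm_num) (by norm_num)
  rcases le_total x (24 / 25) with g2 | g2
  · exact seg g1 g2 L1 (by norm_num) (by norm_num) (by norm_num) (by norm_num)
  exact seg g2 h1 L0 (by norm_num) (by norm_num) (by norm_num) (by norm_num)

theorem k6_2V (x p : ℝ) (hp : 0 ≤ p) (h0 : (121 / 1000) ≤ x) (h1 : x ≤ (78 / 125)) (L : Ln6 x p) :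
    x ^ 2 - (121 / 50) * p ≤ (-(293 / 6250)) := by
  obtain ⟨L0, L1, L2, L3, L4, L5, L6, L7⟩ := L
  rcases le_total x (83 / 200) with g0 | g0
  · exact seg h0 g0 L7 (by norm_num) (by norm_num) (by norm_num) (by norm_num)
  exact seg g0 h1 L4 (by norm_num) (by norm_num) (by norm_num) (by norm_num)

theorem k6_3U (x p : ℝ) (hp : 0 ≤ p) (h0 : (19 / 125) ≤ x) (h1 : x ≤ 1) (L : Ln6 x p) :
    x ^ 2 - (64 / 25) * p ≤ (-(663 / 20000)) := by
  obtain ⟨L0, L1, L2, L3, L4, L5, L6, L7⟩ := L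
  rcases le_total x (279 / 500) with g0 | g0
  · exact seg h0 g0 L6 (by norm_num) (by norm_num) (by norm_num) (by norm_num)
  rcases le_total x (781 / 1000) with g1 | g1
  · exact seg g0 g1 L3 (by norm_num) (by norm_num) (by norm_num) (by norm_num)
  rcases le_total x (107 / 125) with g2 | g2
  · exact seg g1 g2 L2 (by norm_num) (by norm_num) (by norm_num) (by norm_num)
  exact seg g2 h1 L1 (by norm_num) (by norm_num) (by norm_num) (by norm_num)

theorem k6_3V (x p : ℝ) (hp : 0 ≤ p) (h0 : (19 / 125) ≤ x) (h1 : x ≤ (671 / 1000)) (L : Ln6 x p) :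
    x ^ 2 - (64 / 25) * p ≤ (-(6139 / 100000)) := by
  obtain ⟨L0, L1, L2, L3, L4, L5, L6, L7⟩ := L
  rcases le_total x (61 / 125) with g0 | g0
  · exact seg h0 g0 L6 (by norm_num) (by norm_num) (by norm_num) (by norm_num)
  exact seg g0 h1 L4 (by norm_num) (by norm_num) (by norm_num) (by norm_num)

theorem k6_4U (x p : ℝ) (hp : 0 ≤ p) (h0 : (7 / 40) ≤ x) (h1 : x ≤ 1) (L : Ln6 x p) :
    x ^ 2 - (133 / 50) * p ≤ (-(1209 / 20000)) := by
  obtain ⟨L0, L1, L2, L3, L4, L5, L6, L7⟩ := L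
  rcases le_total x (21 / 40) with g0 | g0
  · exact seg h0 g0 L6 (by norm_num) (by norm_num) (by norm_num) (by norm_num)
  rcases le_total x (31 / 40) with g1 | g1
  · exact seg g0 g1 L3 (by norm_num) (by norm_num) (by norm_num) (by norm_num)
  rcases le_total x (111 / 125) with g2 | g2
  · exact seg g1 g2 L2 (by norm_num) (by norm_num) (by norm_num) (by norm_num)
  exact seg g2 h1 L0 (by norm_num) (by norm_num) (by norm_num) (by norm_num)

theorem k6_4V (x p : ℝ) (hp : 0 ≤ p) (h0 : (7 / 40) ≤ x) (h1 : x ≤ (729 / 1000)) (L : Ln6 x p) :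
    x ^ 2 - (133 / 50) * p ≤ (-(7229 / 100000)) := by
  obtain ⟨L0, L1, L2, L3, L4, L5, L6, L7⟩ := L
  rcases le_total x (491 / 1000) with g0 | g0
  · exact seg h0 g0 L6 (by norm_num) (by norm_num) (by norm_num) (by norm_num)
  rcases le_total x (88 / 125) with g1 | g1
  · exact seg g0 g1 L4 (by norm_num) (by norm_num) (by norm_num) (by norm_num)
  exact seg g1 h1 L3 (by norm_num) (by norm_num) (by norm_num) (by norm_num)

theorem k6_5U (x p : ℝ) (hp : 0 ≤ p) (h0 : (41 / 200) ≤ x) (h1 : x ≤ 1) (L : Ln6 x p) :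
    x ^ 2 - (69 / 25) * p ≤ (-(853 / 10000)) := by
  obtain ⟨L0, L1, L2, L3, L4, L5, L6, L7⟩ := L
  rcases le_total x (487 / 1000) with g0 | g0
  · exact seg h0 g0 L6 (by norm_num) (by norm_num) (by norm_num) (by norm_num)
  rcases le_total x (367 / 500) with g1 | g1
  · exact seg g0 g1 L4 (by norm_num) (by norm_num) (by norm_num) (by norm_num)
  rcases le_total x (31 / 40) with g2 | g2
  · exact seg g1 g2 L3 (by norm_num) (by norm_num) (by norm_num) (by norm_num)
  rcases le_total x (19 / 20) with g3 | g3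
  · exact seg g2 g3 L2 (by norm_num) (by norm_num) (by norm_num) (by norm_num)
  exact seg g3 h1 L0 (by norm_num) (by norm_num) (by norm_num) (by norm_num)

theorem closing6 (X p : Fin 6 → ℝ) (hX : ∀ i, 0 < X i) (hp : ∀ i, 0 ≤ p i)
    (hsum : ∑ i, p i = 1) (hL : ∀ i, Ln6 (X i) (p i)) (hX1 : ∀ i, X i ≤ 1)
    (hN1 : ∀ a i j l, a ≠ i → a ≠ j → a ≠ l → i ≠ j → i ≠ l → j ≠ l → ∀ m : ℝ, 0 ≤ m →
      m ≤ X i ^ 2 → m ≤ X j ^ 2 → m ≤ X l ^ 2 → 1624 / 10000 * m * (m - X a ^ 2) ≤ X a ^ 2) :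
    ∑ i, X i ^ 2 ≤ 9 / 4 := by
  obtain ⟨a, -, ha⟩ := Finset.exists_min_image Finset.univ X ⟨0, Finset.mem_univ 0⟩
  have hmin : ∀ i, X a ≤ X i := fun i => ha i (Finset.mem_univ i)
  rcases le_total (X a) (71 / 1000) with g0 | g0
  · exact close_int X p a hX hsum hN1 (h1 := (71 / 1000)) (s := (423 / 1000)) (τ := (83 / 50))
      (B0 := (29369 / 100000)) (B1 := (29 / 50000)) g0 (by norm_num) (by norm_num) (by norm_num)
      (by norm_num) (fun i => k6_0U _ _ (hp i) (hX i).le (hX1 i) (hL i))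
      (fun i hi => k6_0V _ _ (hp i) (hX i).le hi (hL i)) (by norm_num)
  rcases le_total (X a) (121 / 1000) with g1 | g1
  · exact close_int X p a hX hsum hN1 (h1 := (121 / 1000)) (s := (111 / 200)) (τ := (11 / 5))
      (B0 := (3979 / 50000)) (B1 := (-(273 / 10000))) g1 (by norm_num) (by norm_num) (by norm_num)
      (by norm_num) (fun i => k6_1U _ _ (hp i) (le_trans g0 (hmin i)) (hX1 i) (hL i))
      (fun i hi => k6_1V _ _ (hp i) (le_trans g0 (hmin i)) hi (hL i)) (by norm_num)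
  rcases le_total (X a) (19 / 125) with g2 | g2
  · exact close_int X p a hX hsum hN1 (h1 := (19 / 125)) (s := (78 / 125)) (τ := (121 / 50))
      (B0 := (7 / 800)) (B1 := (-(293 / 6250))) g2 (by norm_num) (by norm_num) (by norm_num)
      (by norm_num) (fun i => k6_2U _ _ (hp i) (le_trans g1 (hmin i)) (hX1 i) (hL i))
      (fun i hi => k6_2V _ _ (hp i) (le_trans g1 (hmin i)) hi (hL i)) (by norm_num)
  rcases le_total (X a) (7 / 40) with g3 | g3
  · exact close_int X p a hX hsum hN1 (h1 := (7 / 40)) (s := (671 / 1000)) (τ := (64 / 25))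
      (B0 := (-(663 / 20000))) (B1 := (-(6139 / 100000))) g3 (by norm_num) (by norm_num) (by norm_num)
      (by norm_num) (fun i => k6_3U _ _ (hp i) (le_trans g2 (hmin i)) (hX1 i) (hL i))
      (fun i hi => k6_3V _ _ (hp i) (le_trans g2 (hmin i)) hi (hL i)) (by norm_num)
  rcases le_total (X a) (41 / 200) with g4 | g4
  · exact close_int X p a hX hsum hN1 (h1 := (41 / 200)) (s := (729 / 1000)) (τ := (133 / 50))
      (B0 := (-(1209 / 20000))) (B1 := (-(7229 / 100000))) g4 (by norm_num) (by norm_num) (by norm_num)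
      (by norm_num) (fun i => k6_4U _ _ (hp i) (le_trans g3 (hmin i)) (hX1 i) (hL i))
      (fun i hi => k6_4V _ _ (hp i) (le_trans g3 (hmin i)) hi (hL i)) (by norm_num)
  exact close_all X p hsum (τ := (69 / 25)) (B := (-(853 / 10000)))
    (fun i => k6_5U _ _ (hp i) (le_trans g4 (hmin i)) (hX1 i) (hL i)) (by norm_num)

end Vale.Agent.P226
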