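import Vale.Agent.P226.ClosBase

/-!
# P226: closing for `k = 7` cells (cones in `R^7`)
Generated numeric certificates (exact rational arithmetic, checked by `norm_num`).
-/

set_option linter.unusedVariables false

namespace Vale.Agent.P226

/-- the line bounds used for this closing -/
def Ln7 (x p : ℝ) : Prop :=
  x ≤ (16 / 25) * p + (70991 / 100000) ∧
  x ≤ (24 / 25) * p + (587 / 1000) ∧
  x ≤ (32 / 25) * p + (23921 / 50000) ∧
  x ≤ (8 / 5) * p + (7673 / 20000) ∧
  x ≤ (48 / 25) * p + (6041 / 20000) ∧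
  x ≤ (64 / 25) * p + (8761 / 50000) ∧
  x ≤ (16 / 5) * p + (9063 / 100000) ∧
  x ≤ (112 / 25) * p + (1343 / 100000)

theorem ln7_of (x p : ℝ) (hp : 0 ≤ p) (h : ∀ c : ℝ, 0 ≤ c → c ≤ 1 →
    x ≤ (1 - c ^ 2) ^ 3 + 6 * c * (16 / 15 * p - (8 / 15 - c + 2 * c ^ 3 / 3 - c ^ 5 / 5))) : Ln7 x p := by
  refine ⟨?_, ?_, ?_, ?_, ?_, ?_, ?_, ?_⟩
  · have := h (1 / 10) (by norm_num) (by norm_num)
    norm_num at this
    linarith
  · have := h (3 / 20) (by norm_num) (by norm_num)
    norm_num at this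
    linarith
  · have := h (1 / 5) (by norm_num) (by norm_num)
    norm_num at this
    linarith
  · have := h (1 / 4) (by norm_num) (by norm_num)
    norm_num at this
    linarith
  · have := h (3 / 10) (by norm_num) (by norm_num)
    norm_num at this
    linarith
  · have := h (2 / 5) (by norm_num) (by norm_num)
    norm_num at this
    linarith
  · have := h (1 / 2) (by norm_num) (by norm_num)
    norm_num at this
    linarith
  · have := h (7 / 10) (by norm_num) (by norm_num)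
    norm_num at this
    linarith

theorem k7_0U (x p : ℝ) (hp : 0 ≤ p) (h0 : 0 ≤ x) (h1 : x ≤ 1) (L : Ln7 x p) :
    x ^ 2 - (9 / 5) * p ≤ (22239 / 100000) := by
  obtain ⟨L0, L1, L2, L3, L4, L5, L6, L7⟩ := L
  rcases le_total x (823 / 1000) with g0 | g0
  · exact seg h0 g0 L5 (by norm_num) (by norm_num) (by norm_num) (by norm_num)
  rcases le_total x (114 / 125) with g1 | g1
  · exact seg g0 g1 L2 (by norm_num) (by norm_num) (by norm_num) (by norm_num)
  rcases le_total x (963 / 1000) with g2 | g2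
  · exact seg g1 g2 L1 (by norm_num) (by norm_num) (by norm_num) (by norm_num)
  exact seg g2 h1 L0 (by norm_num) (by norm_num) (by norm_num) (by norm_num)

theorem k7_0V (x p : ℝ) (hp : 0 ≤ p) (h0 : 0 ≤ x) (h1 : x ≤ (9 / 20)) (L : Ln7 x p) :
    x ^ 2 - (9 / 5) * p ≤ (9 / 25000) := by
  obtain ⟨L0, L1, L2, L3, L4, L5, L6, L7⟩ := L
  rcases le_total x (9 / 500) with g0 | g0
  · exact seg0 (le_trans (by norm_num) h0) g0 hp (by norm_num) (by norm_num)
  rcases le_total x (97 / 250) with g1 | g1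
  · exact seg g0 g1 L7 (by norm_num) (by norm_num) (by norm_num) (by norm_num)
  exact seg g1 h1 L6 (by norm_num) (by norm_num) (by norm_num) (by norm_num)

theorem k7_1U (x p : ℝ) (hp : 0 ≤ p) (h0 : (2 / 25) ≤ x) (h1 : x ≤ 1) (L : Ln7 x p) :
    x ^ 2 - (111 / 50) * p ≤ (2 / 25) := by
  obtain ⟨L0, L1, L2, L3, L4, L5, L6, L7⟩ := L
  rcases le_total x (717 / 1000) with g0 | g0
  · exact seg h0 g0 L6 (by norm_num) (by norm_num) (by norm_num) (by norm_num)
  rcases le_total x (863 / 1000) with g1 | g1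
  · exact seg g0 g1 L3 (by norm_num) (by norm_num) (by norm_num) (by norm_num)
  rcases le_total x (457 / 500) with g2 | g2
  · exact seg g1 g2 L2 (by norm_num) (by norm_num) (by norm_num) (by norm_num)
  exact seg g2 h1 L1 (by norm_num) (by norm_num) (by norm_num) (by norm_num)

theorem k7_1V (x p : ℝ) (hp : 0 ≤ p) (h0 : (2 / 25) ≤ x) (h1 : x ≤ (531 / 1000)) (L : Ln7 x p) :
    x ^ 2 - (111 / 50) * p ≤ (-(83 / 3125)) := by
  obtain ⟨L0, L1, L2, L3, L4, L5, L6, L7⟩ := L
  rcases le_total x (83 / 200) with g0 | g0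
  · exact seg h0 g0 L7 (by norm_num) (by norm_num) (by norm_num) (by norm_num)
  exact seg g0 h1 L5 (by norm_num) (by norm_num) (by norm_num) (by norm_num)

theorem k7_2U (x p : ℝ) (hp : 0 ≤ p) (h0 : (111 / 1000) ≤ x) (h1 : x ≤ 1) (L : Ln7 x p) :
    x ^ 2 - (12 / 5) * p ≤ (493 / 20000) := by
  obtain ⟨L0, L1, L2, L3, L4, L5, L6, L7⟩ := L
  rcases le_total x (343 / 500) with g0 | g0
  · exact seg h0 g0 L6 (by norm_num) (by norm_num) (by norm_num) (by norm_num)
  rcases le_total x (429 / 500) with g1 | g1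
  · exact seg g0 g1 L3 (by norm_num) (by norm_num) (by norm_num) (by norm_num)
  exact seg g1 h1 L2 (by norm_num) (by norm_num) (by norm_num) (by norm_num)

theorem k7_2V (x p : ℝ) (hp : 0 ≤ p) (h0 : (111 / 1000) ≤ x) (h1 : x ≤ (74 / 125)) (L : Ln7 x p) :
    x ^ 2 - (12 / 5) * p ≤ (-(1997 / 50000)) := by
  obtain ⟨L0, L1, L2, L3, L4, L5, L6, L7⟩ := L
  rcases le_total x (53 / 125) with g0 | g0
  · exact seg h0 g0 L7 (by norm_num) (by norm_num) (by norm_num) (by norm_num)
  exact seg g0 h1 L5 (by norm_num) (by norm_num) (by norm_num) (by norm_num)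

theorem k7_3U (x p : ℝ) (hp : 0 ≤ p) (h0 : (137 / 1000) ≤ x) (h1 : x ≤ 1) (L : Ln7 x p) :
    x ^ 2 - (63 / 25) * p ≤ (-(1087 / 100000)) := by
  obtain ⟨L0, L1, L2, L3, L4, L5, L6, L7⟩ := L
  rcases le_total x (663 / 1000) with g0 | g0
  · exact seg h0 g0 L6 (by norm_num) (by norm_num) (by norm_num) (by norm_num)
  rcases le_total x (809 / 1000) with g1 | g1
  · exact seg g0 g1 L4 (by norm_num) (by norm_num) (by norm_num) (by norm_num)
  rcases le_total x (429 / 500) with g2 | g2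
  · exact seg g1 g2 L3 (by norm_num) (by norm_num) (by norm_num) (by norm_num)
  exact seg g2 h1 L2 (by norm_num) (by norm_num) (by norm_num) (by norm_num)

theorem k7_3V (x p : ℝ) (hp : 0 ≤ p) (h0 : (137 / 1000) ≤ x) (h1 : x ≤ (633 / 1000)) (L : Ln7 x p) :
    x ^ 2 - (63 / 25) * p ≤ (-(4993 / 100000)) := by
  obtain ⟨L0, L1, L2, L3, L4, L5, L6, L7⟩ := L
  rcases le_total x (107 / 250) with g0 | g0
  · exact seg h0 g0 L7 (by norm_num) (by norm_num) (by norm_num) (by norm_num)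
  exact seg g0 h1 L5 (by norm_num) (by norm_num) (by norm_num) (by norm_num)

theorem k7_4U (x p : ℝ) (hp : 0 ≤ p) (h0 : (39 / 250) ≤ x) (h1 : x ≤ 1) (L : Ln7 x p) :
    x ^ 2 - (66 / 25) * p ≤ (-(2321 / 50000)) := by
  obtain ⟨L0, L1, L2, L3, L4, L5, L6, L7⟩ := L
  rcases le_total x (237 / 500) with g0 | g0
  · exact seg h0 g0 L7 (by norm_num) (by norm_num) (by norm_num) (by norm_num)
  rcases le_total x (89 / 125) with g1 | g1
  · exact seg g0 g1 L5 (by norm_num) (by norm_num) (by norm_num) (by norm_num)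
  rcases le_total x (791 / 1000) with g2 | g2
  · exact seg g1 g2 L4 (by norm_num) (by norm_num) (by norm_num) (by norm_num)
  rcases le_total x (859 / 1000) with g3 | g3
  · exact seg g2 g3 L3 (by norm_num) (by norm_num) (by norm_num) (by norm_num)
  exact seg g3 h1 L2 (by norm_num) (by norm_num) (by norm_num) (by norm_num)

theorem k7_4V (x p : ℝ) (hp : 0 ≤ p) (h0 : (39 / 250) ≤ x) (h1 : x ≤ (27 / 40)) (L : Ln7 x p) :
    x ^ 2 - (66 / 25) * p ≤ (-(5967 / 100000)) := by
  obtain ⟨L0, L1, L2, L3, L4, L5, L6, L7⟩ := L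
  rcases le_total x (433 / 1000) with g0 | g0
  · exact seg h0 g0 L7 (by norm_num) (by norm_num) (by norm_num) (by norm_num)
  exact seg g0 h1 L5 (by norm_num) (by norm_num) (by norm_num) (by norm_num)

theorem k7_5U (x p : ℝ) (hp : 0 ≤ p) (h0 : (177 / 1000) ≤ x) (h1 : x ≤ 1) (L : Ln7 x p) :
    x ^ 2 - (68 / 25) * p ≤ (-(6683 / 100000)) := by
  obtain ⟨L0, L1, L2, L3, L4, L5, L6, L7⟩ := L
  rcases le_total x (217 / 500) with g0 | g0
  · exact seg h0 g0 L7 (by norm_num) (by norm_num) (by norm_num) (by norm_num)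
  rcases le_total x (351 / 500) with g1 | g1
  · exact seg g0 g1 L5 (by norm_num) (by norm_num) (by norm_num) (by norm_num)
  rcases le_total x (99 / 125) with g2 | g2
  · exact seg g1 g2 L4 (by norm_num) (by norm_num) (by norm_num) (by norm_num)
  rcases le_total x (227 / 250) with g3 | g3
  · exact seg g2 g3 L3 (by norm_num) (by norm_num) (by norm_num) (by norm_num)
  exact seg g3 h1 L1 (by norm_num) (by norm_num) (by norm_num) (by norm_num)

theorem k7_5V (x p : ℝ) (hp : 0 ≤ p) (h0 : (177 / 1000) ≤ x) (h1 : x ≤ (789 / 1000)) (L : Ln7 x p) :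
    x ^ 2 - (68 / 25) * p ≤ (-(1683 / 25000)) := by
  obtain ⟨L0, L1, L2, L3, L4, L5, L6, L7⟩ := L
  rcases le_total x (54 / 125) with g0 | g0
  · exact seg h0 g0 L7 (by norm_num) (by norm_num) (by norm_num) (by norm_num)
  rcases le_total x (7 / 10) with g1 | g1
  · exact seg g0 g1 L5 (by norm_num) (by norm_num) (by norm_num) (by norm_num)
  exact seg g1 h1 L4 (by norm_num) (by norm_num) (by norm_num) (by norm_num)

theorem k7_6U (x p : ℝ) (hp : 0 ≤ p) (h0 : (239 / 1000) ≤ x) (h1 : x ≤ 1) (L : Ln7 x p) :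
    x ^ 2 - (139 / 50) * p ≤ (-(513 / 6250)) := by
  obtain ⟨L0, L1, L2, L3, L4, L5, L6, L7⟩ := L
  rcases le_total x (193 / 500) with g0 | g0
  · exact seg h0 g0 L7 (by norm_num) (by norm_num) (by norm_num) (by norm_num)
  rcases le_total x (601 / 1000) with g1 | g1
  · exact seg g0 g1 L6 (by norm_num) (by norm_num) (by norm_num) (by norm_num)
  rcases le_total x (173 / 250) with g2 | g2
  · exact seg g1 g2 L5 (by norm_num) (by norm_num) (by norm_num) (by norm_num)
  rcases le_total x (99 / 125) with g3 | g3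
  · exact seg g2 g3 L4 (by norm_num) (by norm_num) (by norm_num) (by norm_num)
  rcases le_total x (473 / 500) with g4 | g4
  · exact seg g3 g4 L3 (by norm_num) (by norm_num) (by norm_num) (by norm_num)
  exact seg g4 h1 L0 (by norm_num) (by norm_num) (by norm_num) (by norm_num)

theorem closing7 (X p : Fin 7 → ℝ) (hX : ∀ i, 0 < X i) (hp : ∀ i, 0 ≤ p i)
    (hsum : ∑ i, p i = 1) (hL : ∀ i, Ln7 (X i) (p i)) (hX1 : ∀ i, X i ≤ 1)
    (hN1 : ∀ a i j l, a ≠ i → a ≠ j → a ≠ l → i ≠ j → i ≠ l → j ≠ l → ∀ m : ℝ, 0 ≤ m →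
      m ≤ X i ^ 2 → m ≤ X j ^ 2 → m ≤ X l ^ 2 → 1624 / 10000 * m * (m - X a ^ 2) ≤ X a ^ 2) :
    ∑ i, X i ^ 2 ≤ 9 / 4 := by
  obtain ⟨a, -, ha⟩ := Finset.exists_min_image Finset.univ X ⟨0, Finset.mem_univ 0⟩
  have hmin : ∀ i, X a ≤ X i := fun i => ha i (Finset.mem_univ i)
  rcases le_total (X a) (2 / 25) with g0 | g0
  · exact close_int X p a hX hsum hN1 (h1 := (2 / 25)) (s := (9 / 20)) (τ := (9 / 5))
      (B0 := (22239 / 100000)) (B1 := (9 / 25000)) g0 (by norm_num) (by norm_num) (by norm_num)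
      (by norm_num) (fun i => k7_0U _ _ (hp i) (hX i).le (hX1 i) (hL i))
      (fun i hi => k7_0V _ _ (hp i) (hX i).le hi (hL i)) (by norm_num)
  rcases le_total (X a) (111 / 1000) with g1 | g1
  · exact close_int X p a hX hsum hN1 (h1 := (111 / 1000)) (s := (531 / 1000)) (τ := (111 / 50))
      (B0 := (2 / 25)) (B1 := (-(83 / 3125))) g1 (by norm_num) (by norm_num) (by norm_num)
      (by norm_num) (fun i => k7_1U _ _ (hp i) (le_trans g0 (hmin i)) (hX1 i) (hL i))
      (fun i hi => k7_1V _ _ (hp i) (le_trans g0 (hmin i)) hi (hL i)) (by norm_num)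
  rcases le_total (X a) (137 / 1000) with g2 | g2
  · exact close_int X p a hX hsum hN1 (h1 := (137 / 1000)) (s := (74 / 125)) (τ := (12 / 5))
      (B0 := (493 / 20000)) (B1 := (-(1997 / 50000))) g2 (by norm_num) (by norm_num) (by norm_num)
      (by norm_num) (fun i => k7_2U _ _ (hp i) (le_trans g1 (hmin i)) (hX1 i) (hL i))
      (fun i hi => k7_2V _ _ (hp i) (le_trans g1 (hmin i)) hi (hL i)) (by norm_num)
  rcases le_total (X a) (39 / 250) with g3 | g3
  · exact close_int X p a hX hsum hN1 (h1 := (39 / 250)) (s := (633 / 1000)) (τ := (63 / 25))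
      (B0 := (-(1087 / 100000))) (B1 := (-(4993 / 100000))) g3 (by norm_num) (by norm_num) (by norm_num)
      (by norm_num) (fun i => k7_3U _ _ (hp i) (le_trans g2 (hmin i)) (hX1 i) (hL i))
      (fun i hi => k7_3V _ _ (hp i) (le_trans g2 (hmin i)) hi (hL i)) (by norm_num)
  rcases le_total (X a) (177 / 1000) with g4 | g4
  · exact close_int X p a hX hsum hN1 (h1 := (177 / 1000)) (s := (27 / 40)) (τ := (66 / 25))
      (B0 := (-(2321 / 50000))) (B1 := (-(5967 / 100000))) g4 (by norm_num) (by norm_num) (by norm_num)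
      (by norm_num) (fun i => k7_4U _ _ (hp i) (le_trans g3 (hmin i)) (hX1 i) (hL i))
      (fun i hi => k7_4V _ _ (hp i) (le_trans g3 (hmin i)) hi (hL i)) (by norm_num)
  rcases le_total (X a) (239 / 1000) with g5 | g5
  · exact close_int X p a hX hsum hN1 (h1 := (239 / 1000)) (s := (789 / 1000)) (τ := (68 / 25))
      (B0 := (-(6683 / 100000))) (B1 := (-(1683 / 25000))) g5 (by norm_num) (by norm_num) (by norm_num)
      (by norm_num) (fun i => k7_5U _ _ (hp i) (le_trans g4 (hmin i)) (hX1 i) (hL i))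
      (fun i hi => k7_5V _ _ (hp i) (le_trans g4 (hmin i)) hi (hL i)) (by norm_num)
  exact close_all X p hsum (τ := (139 / 50)) (B := (-(513 / 6250)))
    (fun i => k7_6U _ _ (hp i) (le_trans g5 (hmin i)) (hX1 i) (hL i)) (by norm_num)

end Vale.Agent.P226
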