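import Vale.Agent.P226.ClosBase

/-!
# P226: closing for `k = 8` cells (cones in `R^7`)
Generated numeric certificates (exact rational arithmetic, checked by `norm_num`).
-/

set_option linter.unusedVariables false

namespace Vale.Agent.P226

/-- the line bounds used for this closing -/
def Ln8 (x p : ℝ) : Prop :=
  x ≤ (24 / 25) * p + (587 / 1000) ∧
  x ≤ (32 / 25) * p + (23921 / 50000) ∧
  x ≤ (48 / 25) * p + (6041 / 20000) ∧
  x ≤ (72 / 25) * p + (801 / 6250) ∧
  x ≤ (112 / 25) * p + (1343 / 100000)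

theorem ln8_of (x p : ℝ) (hp : 0 ≤ p) (h : ∀ c : ℝ, 0 ≤ c → c ≤ 1 →
    x ≤ (1 - c ^ 2) ^ 3 + 6 * c * (16 / 15 * p - (8 / 15 - c + 2 * c ^ 3 / 3 - c ^ 5 / 5))) : Ln8 x p := by
  refine ⟨?_, ?_, ?_, ?_, ?_⟩
  · have := h (3 / 20) (by norm_num) (by norm_num)
    norm_num at this
    linarith
  · have := h (1 / 5) (by norm_num) (by norm_num)
    norm_num at this
    linarith
  · have := h (3 / 10) (by norm_num) (by norm_num)
    norm_num at this
    linarith
  · have := h (9 / 20) (by norm_num) (by norm_num)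
    norm_num at this
    linarith
  · have := h (7 / 10) (by norm_num) (by norm_num)
    norm_num at this
    linarith

theorem k8_0U (x p : ℝ) (hp : 0 ≤ p) (h0 : 0 ≤ x) (h1 : x ≤ 1) (L : Ln8 x p) :
    x ^ 2 - (89 / 50) * p ≤ (23423 / 100000) := by
  obtain ⟨L0, L1, L2, L3, L4⟩ := L
  rcases le_total x (809 / 1000) with g0 | g0
  · exact seg h0 g0 L3 (by norm_num) (by norm_num) (by norm_num) (by norm_num)
  rcases le_total x (231 / 250) with g1 | g1
  · exact seg g0 g1 L1 (by norm_num) (by norm_num) (by norm_num) (by norm_num)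
  exact seg g1 h1 L0 (by norm_num) (by norm_num) (by norm_num) (by norm_num)

theorem k8_0V (x p : ℝ) (hp : 0 ≤ p) (h0 : 0 ≤ x) (h1 : x ≤ (87 / 200)) (L : Ln8 x p) :
    x ^ 2 - (89 / 50) * p ≤ (1 / 5000) := by
  obtain ⟨L0, L1, L2, L3, L4⟩ := L
  rcases le_total x (7 / 500) with g0 | g0
  · exact seg0 (le_trans (by norm_num) h0) g0 hp (by norm_num) (by norm_num)
  rcases le_total x (383 / 1000) with g1 | g1
  · exact seg g0 g1 L4 (by norm_num) (by norm_num) (by norm_num) (by norm_num)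
  exact seg g1 h1 L3 (by norm_num) (by norm_num) (by norm_num) (by norm_num)

theorem k8_1U (x p : ℝ) (hp : 0 ≤ p) (h0 : (3 / 40) ≤ x) (h1 : x ≤ 1) (L : Ln8 x p) :
    x ^ 2 - (113 / 50) * p ≤ (6811 / 100000) := by
  obtain ⟨L0, L1, L2, L3, L4⟩ := L
  rcases le_total x (37 / 50) with g0 | g0
  · exact seg h0 g0 L3 (by norm_num) (by norm_num) (by norm_num) (by norm_num)
  rcases le_total x (831 / 1000) with g1 | g1
  · exact seg g0 g1 L2 (by norm_num) (by norm_num) (by norm_num) (by norm_num)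
  rcases le_total x (187 / 200) with g2 | g2
  · exact seg g1 g2 L1 (by norm_num) (by norm_num) (by norm_num) (by norm_num)
  exact seg g2 h1 L0 (by norm_num) (by norm_num) (by norm_num) (by norm_num)

theorem k8_1V (x p : ℝ) (hp : 0 ≤ p) (h0 : (3 / 40) ≤ x) (h1 : x ≤ (281 / 500)) (L : Ln8 x p) :
    x ^ 2 - (113 / 50) * p ≤ (-(2459 / 100000)) := by
  obtain ⟨L0, L1, L2, L3, L4⟩ := L
  rcases le_total x (431 / 1000) with g0 | g0
  · exact seg h0 g0 L4 (by norm_num) (by norm_num) (by norm_num) (by norm_num)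
  exact seg g0 h1 L3 (by norm_num) (by norm_num) (by norm_num) (by norm_num)

theorem k8_2U (x p : ℝ) (hp : 0 ≤ p) (h0 : (31 / 250) ≤ x) (h1 : x ≤ 1) (L : Ln8 x p) :
    x ^ 2 - (64 / 25) * p ≤ (-(29 / 2000)) := by
  obtain ⟨L0, L1, L2, L3, L4⟩ := L
  rcases le_total x (529 / 1000) with g0 | g0
  · exact seg h0 g0 L4 (by norm_num) (by norm_num) (by norm_num) (by norm_num)
  rcases le_total x (831 / 1000) with g1 | g1
  · exact seg g0 g1 L2 (by norm_num) (by norm_num) (by norm_num) (by norm_num)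
  exact seg g1 h1 L1 (by norm_num) (by norm_num) (by norm_num) (by norm_num)

theorem k8_2V (x p : ℝ) (hp : 0 ≤ p) (h0 : (31 / 250) ≤ x) (h1 : x ≤ (127 / 200)) (L : Ln8 x p) :
    x ^ 2 - (64 / 25) * p ≤ (-(4729 / 100000)) := by
  obtain ⟨L0, L1, L2, L3, L4⟩ := L
  rcases le_total x (449 / 1000) with g0 | g0
  · exact seg h0 g0 L4 (by norm_num) (by norm_num) (by norm_num) (by norm_num)
  exact seg g0 h1 L3 (by norm_num) (by norm_num) (by norm_num) (by norm_num)

theorem k8_3U (x p : ℝ) (hp : 0 ≤ p) (h0 : (157 / 1000) ≤ x) (h1 : x ≤ 1) (L : Ln8 x p) :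
    x ^ 2 - (137 / 50) * p ≤ (-(1263 / 20000)) := by
  obtain ⟨L0, L1, L2, L3, L4⟩ := L
  rcases le_total x (227 / 500) with g0 | g0
  · exact seg h0 g0 L4 (by norm_num) (by norm_num) (by norm_num) (by norm_num)
  rcases le_total x (339 / 500) with g1 | g1
  · exact seg g0 g1 L3 (by norm_num) (by norm_num) (by norm_num) (by norm_num)
  rcases le_total x (167 / 200) with g2 | g2
  · exact seg g1 g2 L2 (by norm_num) (by norm_num) (by norm_num) (by norm_num)
  exact seg g2 h1 L1 (by norm_num) (by norm_num) (by norm_num) (by norm_num)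

theorem closing8 (X p : Fin 8 → ℝ) (hX : ∀ i, 0 < X i) (hp : ∀ i, 0 ≤ p i)
    (hsum : ∑ i, p i = 1) (hL : ∀ i, Ln8 (X i) (p i)) (hX1 : ∀ i, X i ≤ 1)
    (hN1 : ∀ a i j l, a ≠ i → a ≠ j → a ≠ l → i ≠ j → i ≠ l → j ≠ l → ∀ m : ℝ, 0 ≤ m →
      m ≤ X i ^ 2 → m ≤ X j ^ 2 → m ≤ X l ^ 2 → 1624 / 10000 * m * (m - X a ^ 2) ≤ X a ^ 2) :
    ∑ i, X i ^ 2 ≤ 9 / 4 := by
  obtain ⟨a, -, ha⟩ := Finset.exists_min_image Finset.univ X ⟨0, Finset.mem_univ 0⟩
  have hmin : ∀ i, X a ≤ X i := fun i => ha i (Finset.mem_univ i)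
  rcases le_total (X a) (3 / 40) with g0 | g0
  · exact close_int X p a hX hsum hN1 (h1 := (3 / 40)) (s := (87 / 200)) (τ := (89 / 50))
      (B0 := (23423 / 100000)) (B1 := (1 / 5000)) g0 (by norm_num) (by norm_num) (by norm_num)
      (by norm_num) (fun i => k8_0U _ _ (hp i) (hX i).le (hX1 i) (hL i))
      (fun i hi => k8_0V _ _ (hp i) (hX i).le hi (hL i)) (by norm_num)
  rcases le_total (X a) (31 / 250) with g1 | g1
  · exact close_int X p a hX hsum hN1 (h1 := (31 / 250)) (s := (281 / 500)) (τ := (113 / 50))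
      (B0 := (6811 / 100000)) (B1 := (-(2459 / 100000))) g1 (by norm_num) (by norm_num) (by norm_num)
      (by norm_num) (fun i => k8_1U _ _ (hp i) (le_trans g0 (hmin i)) (hX1 i) (hL i))
      (fun i hi => k8_1V _ _ (hp i) (le_trans g0 (hmin i)) hi (hL i)) (by norm_num)
  rcases le_total (X a) (157 / 1000) with g2 | g2
  · exact close_int X p a hX hsum hN1 (h1 := (157 / 1000)) (s := (127 / 200)) (τ := (64 / 25))
      (B0 := (-(29 / 2000))) (B1 := (-(4729 / 100000))) g2 (by norm_num) (by norm_num) (by norm_num)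
      (by norm_num) (fun i => k8_2U _ _ (hp i) (le_trans g1 (hmin i)) (hX1 i) (hL i))
      (fun i hi => k8_2V _ _ (hp i) (le_trans g1 (hmin i)) hi (hL i)) (by norm_num)
  exact close_all X p hsum (τ := (137 / 50)) (B := (-(1263 / 20000)))
    (fun i => k8_3U _ _ (hp i) (le_trans g2 (hmin i)) (hX1 i) (hL i)) (by norm_num)

end Vale.Agent.P226
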