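import Vale.Agent.P226.ClosBase

/-!
# P226: closing for `k = 9` cells (cones in `R^9`)
Generated numeric certificates (exact rational arithmetic, checked by `norm_num`).
-/

set_option linter.unusedVariables false

namespace Vale.Agent.P226

/-- the line bounds used for this closing -/
def Ln9 (x p : ℝ) : Prop :=
  x ≤ (21943 / 20000) * p + (54043 / 100000) ∧
  x ≤ (73143 / 50000) * p + (42543 / 100000) ∧
  x ≤ (219429 / 100000) * p + (6181 / 25000) ∧
  x ≤ (73143 / 25000) * p + (12913 / 100000) ∧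
  x ≤ (475429 / 100000) * p + (1163 / 100000)

theorem ln9_of (x p : ℝ) (hp : 0 ≤ p) (h : ∀ c : ℝ, 0 ≤ c → c ≤ 1 →
    x ≤ (1 - c ^ 2) ^ 4 + 8 * c * (32 / 35 * p - (16 / 35 - c + c ^ 3 - 3 * c ^ 5 / 5 + c ^ 7 / 7))) : Ln9 x p := by
  refine ⟨?_, ?_, ?_, ?_, ?_⟩
  · have := h (3 / 20) (by norm_num) (by norm_num)
    norm_num at this
    linarith
  · have := h (1 / 5) (by norm_num) (by norm_num)
    norm_num at this
    linarith
  · have := h (3 / 10) (by norm_num) (by norm_num)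
    norm_num at this
    linarith
  · have := h (2 / 5) (by norm_num) (by norm_num)
    norm_num at this
    linarith
  · have := h (13 / 20) (by norm_num) (by norm_num)
    norm_num at this
    linarith

theorem k9_0U (x p : ℝ) (hp : 0 ≤ p) (h0 : 0 ≤ x) (h1 : x ≤ 1) (L : Ln9 x p) :
    x ^ 2 - (38 / 25) * p ≤ (36331 / 100000) := by
  obtain ⟨L0, L1, L2, L3, L4⟩ := L
  rcases le_total x (113 / 125) with g0 | g0
  · exact seg h0 g0 L2 (by norm_num) (by norm_num) (by norm_num) (by norm_num)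
  exact seg g0 h1 L0 (by norm_num) (by norm_num) (by norm_num) (by norm_num)

theorem k9_0V (x p : ℝ) (hp : 0 ≤ p) (h0 : 0 ≤ x) (h1 : x ≤ (309 / 1000)) (L : Ln9 x p) :
    x ^ 2 - (38 / 25) * p ≤ (41 / 100000) := by
  obtain ⟨L0, L1, L2, L3, L4⟩ := L
  rcases le_total x (1 / 50) with g0 | g0
  · exact seg0 (le_trans (by norm_num) h0) g0 hp (by norm_num) (by norm_num)
  exact seg g0 h1 L4 (by norm_num) (by norm_num) (by norm_num) (by norm_num)

theorem k9_1U (x p : ℝ) (hp : 0 ≤ p) (h0 : (19 / 500) ≤ x) (h1 : x ≤ 1) (L : Ln9 x p) :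
    x ^ 2 - (97 / 50) * p ≤ (18739 / 100000) := by
  obtain ⟨L0, L1, L2, L3, L4⟩ := L
  rcases le_total x (847 / 1000) with g0 | g0
  · exact seg h0 g0 L2 (by norm_num) (by norm_num) (by norm_num) (by norm_num)
  exact seg g0 h1 L0 (by norm_num) (by norm_num) (by norm_num) (by norm_num)

theorem k9_1V (x p : ℝ) (hp : 0 ≤ p) (h0 : (19 / 500) ≤ x) (h1 : x ≤ (453 / 1000)) (L : Ln9 x p) :
    x ^ 2 - (97 / 50) * p ≤ (-(931 / 100000)) := by
  obtain ⟨L0, L1, L2, L3, L4⟩ := L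
  rcases le_total x (37 / 100) with g0 | g0
  · exact seg h0 g0 L4 (by norm_num) (by norm_num) (by norm_num) (by norm_num)
  exact seg g0 h1 L3 (by norm_num) (by norm_num) (by norm_num) (by norm_num)

theorem k9_2U (x p : ℝ) (hp : 0 ≤ p) (h0 : (81 / 1000) ≤ x) (h1 : x ≤ 1) (L : Ln9 x p) :
    x ^ 2 - (59 / 25) * p ≤ (132 / 3125) := by
  obtain ⟨L0, L1, L2, L3, L4⟩ := L
  rcases le_total x (561 / 1000) with g0 | g0
  · exact seg h0 g0 L4 (by norm_num) (by norm_num) (by norm_num) (by norm_num)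
  rcases le_total x (793 / 1000) with g1 | g1
  · exact seg g0 g1 L2 (by norm_num) (by norm_num) (by norm_num) (by norm_num)
  rcases le_total x (887 / 1000) with g2 | g2
  · exact seg g1 g2 L1 (by norm_num) (by norm_num) (by norm_num) (by norm_num)
  exact seg g2 h1 L0 (by norm_num) (by norm_num) (by norm_num) (by norm_num)

theorem k9_2V (x p : ℝ) (hp : 0 ≤ p) (h0 : (81 / 1000) ≤ x) (h1 : x ≤ (289 / 500)) (L : Ln9 x p) :
    x ^ 2 - (59 / 25) * p ≤ (-(2787 / 100000)) := by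
  obtain ⟨L0, L1, L2, L3, L4⟩ := L
  rcases le_total x (83 / 200) with g0 | g0
  · exact seg h0 g0 L4 (by norm_num) (by norm_num) (by norm_num) (by norm_num)
  exact seg g0 h1 L3 (by norm_num) (by norm_num) (by norm_num) (by norm_num)

theorem k9_3U (x p : ℝ) (hp : 0 ≤ p) (h0 : (131 / 1000) ≤ x) (h1 : x ≤ 1) (L : Ln9 x p) :
    x ^ 2 - (67 / 25) * p ≤ (-(26 / 625)) := by
  obtain ⟨L0, L1, L2, L3, L4⟩ := L
  rcases le_total x (229 / 500) with g0 | g0
  · exact seg h0 g0 L4 (by norm_num) (by norm_num) (by norm_num) (by norm_num)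
  rcases le_total x (391 / 500) with g1 | g1
  · exact seg g0 g1 L2 (by norm_num) (by norm_num) (by norm_num) (by norm_num)
  exact seg g1 h1 L1 (by norm_num) (by norm_num) (by norm_num) (by norm_num)

theorem k9_3V (x p : ℝ) (hp : 0 ≤ p) (h0 : (131 / 1000) ≤ x) (h1 : x ≤ (189 / 250)) (L : Ln9 x p) :
    x ^ 2 - (67 / 25) * p ≤ (-(4983 / 100000)) := by
  obtain ⟨L0, L1, L2, L3, L4⟩ := L
  rcases le_total x (433 / 1000) with g0 | g0
  · exact seg h0 g0 L4 (by norm_num) (by norm_num) (by norm_num) (by norm_num)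
  rcases le_total x (331 / 500) with g1 | g1
  · exact seg g0 g1 L3 (by norm_num) (by norm_num) (by norm_num) (by norm_num)
  exact seg g1 h1 L2 (by norm_num) (by norm_num) (by norm_num) (by norm_num)

theorem k9_4U (x p : ℝ) (hp : 0 ≤ p) (h0 : (11 / 50) ≤ x) (h1 : x ≤ 1) (L : Ln9 x p) :
    x ^ 2 - (141 / 50) * p ≤ (-(7519 / 100000)) := by
  obtain ⟨L0, L1, L2, L3, L4⟩ := L
  rcases le_total x (373 / 1000) with g0 | g0
  · exact seg h0 g0 L4 (by norm_num) (by norm_num) (by norm_num) (by norm_num)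
  rcases le_total x (331 / 500) with g1 | g1
  · exact seg g0 g1 L3 (by norm_num) (by norm_num) (by norm_num) (by norm_num)
  rcases le_total x (783 / 1000) with g2 | g2
  · exact seg g1 g2 L2 (by norm_num) (by norm_num) (by norm_num) (by norm_num)
  exact seg g2 h1 L1 (by norm_num) (by norm_num) (by norm_num) (by norm_num)

theorem closing9 (X p : Fin 9 → ℝ) (hX : ∀ i, 0 < X i) (hp : ∀ i, 0 ≤ p i)
    (hsum : ∑ i, p i = 1) (hL : ∀ i, Ln9 (X i) (p i)) (hX1 : ∀ i, X i ≤ 1)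
    (hN1 : ∀ a i j l, a ≠ i → a ≠ j → a ≠ l → i ≠ j → i ≠ l → j ≠ l → ∀ m : ℝ, 0 ≤ m →
      m ≤ X i ^ 2 → m ≤ X j ^ 2 → m ≤ X l ^ 2 → 1624 / 10000 * m * (m - X a ^ 2) ≤ X a ^ 2) :
    ∑ i, X i ^ 2 ≤ 9 / 4 := by
  obtain ⟨a, -, ha⟩ := Finset.exists_min_image Finset.univ X ⟨0, Finset.mem_univ 0⟩
  have hmin : ∀ i, X a ≤ X i := fun i => ha i (Finset.mem_univ i)
  rcases le_total (X a) (19 / 500) with g0 | g0
  · exact close_int X p a hX hsum hN1 (h1 := (19 / 500)) (s := (309 / 1000)) (τ := (38 / 25))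
      (B0 := (36331 / 100000)) (B1 := (41 / 100000)) g0 (by norm_num) (by norm_num) (by norm_num)
      (by norm_num) (fun i => k9_0U _ _ (hp i) (hX i).le (hX1 i) (hL i))
      (fun i hi => k9_0V _ _ (hp i) (hX i).le hi (hL i)) (by norm_num)
  rcases le_total (X a) (81 / 1000) with g1 | g1
  · exact close_int X p a hX hsum hN1 (h1 := (81 / 1000)) (s := (453 / 1000)) (τ := (97 / 50))
      (B0 := (18739 / 100000)) (B1 := (-(931 / 100000))) g1 (by norm_num) (by norm_num) (by norm_num)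
      (by norm_num) (fun i => k9_1U _ _ (hp i) (le_trans g0 (hmin i)) (hX1 i) (hL i))
      (fun i hi => k9_1V _ _ (hp i) (le_trans g0 (hmin i)) hi (hL i)) (by norm_num)
  rcases le_total (X a) (131 / 1000) with g2 | g2
  · exact close_int X p a hX hsum hN1 (h1 := (131 / 1000)) (s := (289 / 500)) (τ := (59 / 25))
      (B0 := (132 / 3125)) (B1 := (-(2787 / 100000))) g2 (by norm_num) (by norm_num) (by norm_num)
      (by norm_num) (fun i => k9_2U _ _ (hp i) (le_trans g1 (hmin i)) (hX1 i) (hL i))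
      (fun i hi => k9_2V _ _ (hp i) (le_trans g1 (hmin i)) hi (hL i)) (by norm_num)
  rcases le_total (X a) (11 / 50) with g3 | g3
  · exact close_int X p a hX hsum hN1 (h1 := (11 / 50)) (s := (189 / 250)) (τ := (67 / 25))
      (B0 := (-(26 / 625))) (B1 := (-(4983 / 100000))) g3 (by norm_num) (by norm_num) (by norm_num)
      (by norm_num) (fun i => k9_3U _ _ (hp i) (le_trans g2 (hmin i)) (hX1 i) (hL i))
      (fun i hi => k9_3V _ _ (hp i) (le_trans g2 (hmin i)) hi (hL i)) (by norm_num)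
  exact close_all X p hsum (τ := (141 / 50)) (B := (-(7519 / 100000)))
    (fun i => k9_4U _ _ (hp i) (le_trans g3 (hmin i)) (hX1 i) (hL i)) (by norm_num)

end Vale.Agent.P226
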