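import Mathlib

/-!
# P226: tools for the numeric closings

`seg`: on a segment `lo ≤ x ≤ hi`, a line bound `x ≤ a p + b` gives `x² - τ p ≤ B`
(the bound is convex in `x`, so only the end points matter).
`close_int`, `close_int5`: Lagrangian duality for the sum of squares.
-/

namespace Vale.Agent.P226

theorem seg {x p lo hi a b τ B : ℝ} (h1 : lo ≤ x) (h2 : x ≤ hi) (hl : x ≤ a * p + b) (ha : 0 < a)
    (hτ : 0 ≤ τ) (e1 : lo ^ 2 * a - τ * (lo - b) ≤ B * a)
    (e2 : hi ^ 2 * a - τ * (hi - b) ≤ B * a) : x ^ 2 - τ * p ≤ B := by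
  have key : x ^ 2 * a - τ * (x - b) ≤ B * a := by
    rcases eq_or_lt_of_le (le_trans h1 h2) with h | h
    · have hx : x = lo := le_antisymm (by rw [h]; exact h2) h1
      rw [hx]; exact e1
    · have h3 : 0 < hi - lo := by linarith
      have h4 : (hi - lo) * (x ^ 2 * a - τ * (x - b) - B * a) ≤ 0 := by
        have : (hi - lo) * (x ^ 2 * a - τ * (x - b) - B * a)
            = (hi - x) * (lo ^ 2 * a - τ * (lo - b) - B * a)
              + (x - lo) * (hi ^ 2 * a - τ * (hi - b) - B * a)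
              - a * ((hi - lo) * ((x - lo) * (hi - x))) := by ring
        rw [this]
        have t1 : (hi - x) * (lo ^ 2 * a - τ * (lo - b) - B * a) ≤ 0 :=
          mul_nonpos_of_nonneg_of_nonpos (by linarith) (by linarith)
        have t2 : (x - lo) * (hi ^ 2 * a - τ * (hi - b) - B * a) ≤ 0 :=
          mul_nonpos_of_nonneg_of_nonpos (by linarith) (by linarith)
        have t3 : 0 ≤ a * ((hi - lo) * ((x - lo) * (hi - x))) := by
          have : 0 ≤ (x - lo) * (hi - x) := mul_nonneg (by linarith) (by linarith)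
          positivity
        linarith
      by_contra hcon
      push Not at hcon
      have : 0 < (hi - lo) * (x ^ 2 * a - τ * (x - b) - B * a) := mul_pos h3 (by linarith)
      linarith
  have h5 : τ * (x - b) ≤ τ * (a * p) := mul_le_mul_of_nonneg_left (by linarith) hτ
  have h6 : (x ^ 2 - τ * p) * a ≤ B * a := by nlinarith
  exact le_of_mul_le_mul_right h6 ha

theorem seg0 {x p hi τ B : ℝ} (h0 : 0 ≤ x) (h2 : x ≤ hi) (hp : 0 ≤ p) (hτ : 0 ≤ τ)
    (e : hi ^ 2 ≤ B) : x ^ 2 - τ * p ≤ B := by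
  have := mul_nonneg hτ hp
  nlinarith

/-- at most two cells exceed the cap `s` -/
theorem card_big {k : ℕ} (X : Fin k → ℝ) (a : Fin k) (hX : ∀ i, 0 < X i)
    (hN1 : ∀ a i j l, a ≠ i → a ≠ j → a ≠ l → i ≠ j → i ≠ l → j ≠ l → ∀ m : ℝ, 0 ≤ m →
      m ≤ X i ^ 2 → m ≤ X j ^ 2 → m ≤ X l ^ 2 → 1624 / 10000 * m * (m - X a ^ 2) ≤ X a ^ 2)
    {h1 s : ℝ} (hh : X a ≤ h1) (hs0 : 0 ≤ s) (hs1 : h1 < s)
    (hs : h1 ^ 2 < 1624 / 10000 * s ^ 2 * (s ^ 2 - h1 ^ 2)) :
    (Finset.univ.filter (fun i => s < X i)).card ≤ 2 := by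
  by_contra hc
  push Not at hc
  obtain ⟨i, hi, j, hj, l, hl, hij, hil, hjl⟩ := Finset.two_lt_card.1 hc
  simp only [Finset.mem_filter, Finset.mem_univ, true_and] at hi hj hl
  have hsq : ∀ y : ℝ, s < y → s ^ 2 ≤ y ^ 2 := fun y hy => pow_le_pow_left₀ hs0 hy.le 2
  have hne : ∀ b, s < X b → a ≠ b := by
    intro b hb hab; rw [← hab] at hb; linarith
  have hm := hN1 a i j l (hne i hi) (hne j hj) (hne l hl) hij hil hjl (s ^ 2) (by positivity)
    (hsq _ hi) (hsq _ hj) (hsq _ hl)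
  have hXa : X a ^ 2 ≤ h1 ^ 2 := pow_le_pow_left₀ (hX a).le hh 2
  have : 1624 / 10000 * s ^ 2 * (s ^ 2 - h1 ^ 2) ≤ 1624 / 10000 * s ^ 2 * (s ^ 2 - X a ^ 2) :=
    mul_le_mul_of_nonneg_left (by linarith) (by positivity)
  linarith

theorem close_int {k : ℕ} (X p : Fin k → ℝ) (a : Fin k) (hX : ∀ i, 0 < X i)
    (hsum : ∑ i, p i = 1)
    (hN1 : ∀ a i j l, a ≠ i → a ≠ j → a ≠ l → i ≠ j → i ≠ l → j ≠ l → ∀ m : ℝ, 0 ≤ m →
      m ≤ X i ^ 2 → m ≤ X j ^ 2 → m ≤ X l ^ 2 → 1624 / 10000 * m * (m - X a ^ 2) ≤ X a ^ 2)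
    {h1 s τ B0 B1 : ℝ} (hh : X a ≤ h1) (hs0 : 0 ≤ s) (hs1 : h1 < s)
    (hs : h1 ^ 2 < 1624 / 10000 * s ^ 2 * (s ^ 2 - h1 ^ 2)) (hB : B1 ≤ B0)
    (U : ∀ i, X i ^ 2 - τ * p i ≤ B0) (V : ∀ i, X i ≤ s → X i ^ 2 - τ * p i ≤ B1)
    (hD : τ + 2 * B0 + ((k : ℝ) - 2) * B1 ≤ 9 / 4) : ∑ i, X i ^ 2 ≤ 9 / 4 := by
  have hcard := card_big X a hX hN1 hh hs0 hs1 hs
  set S := Finset.univ.filter (fun i => s < X i) with hS
  have hle : ∀ i, X i ^ 2 - τ * p i ≤ B1 + (if i ∈ S then B0 - B1 else 0) := by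
    intro i
    by_cases hi : i ∈ S
    · rw [if_pos hi]; linarith [U i]
    · rw [if_neg hi]
      have : X i ≤ s := by
        by_contra hc
        push Not at hc
        exact hi (by rw [hS]; simp [hc])
      linarith [V i this]
  have hsumle := Finset.sum_le_sum (fun i (_ : i ∈ Finset.univ) => hle i)
  rw [Finset.sum_sub_distrib, ← Finset.mul_sum, hsum, Finset.sum_add_distrib, Finset.sum_const,
    Finset.sum_ite_mem, Finset.univ_inter, Finset.sum_const] at hsumle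
  simp only [Finset.card_univ, Fintype.card_fin, nsmul_eq_mul] at hsumle
  have hc2 : (S.card : ℝ) ≤ 2 := by exact_mod_cast hcard
  have : (S.card : ℝ) * (B0 - B1) ≤ 2 * (B0 - B1) := mul_le_mul_of_nonneg_right hc2 (by linarith)
  nlinarith

theorem close_all {k : ℕ} (X p : Fin k → ℝ) (hsum : ∑ i, p i = 1) {τ B : ℝ}
    (U : ∀ i, X i ^ 2 - τ * p i ≤ B) (hD : τ + (k : ℝ) * B ≤ 9 / 4) : ∑ i, X i ^ 2 ≤ 9 / 4 := by
  have hsumle := Finset.sum_le_sum (fun i (_ : i ∈ Finset.univ) => U i)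
  rw [Finset.sum_sub_distrib, ← Finset.mul_sum, hsum, Finset.sum_const] at hsumle
  simp only [Finset.card_univ, Fintype.card_fin, nsmul_eq_mul] at hsumle
  linarith

theorem close_int5 (X p : Fin 5 → ℝ) (a : Fin 5) (hX : ∀ i, 0 < X i)
    (hsum : ∑ i, p i = 1)
    (hN1 : ∀ a i j l, a ≠ i → a ≠ j → a ≠ l → i ≠ j → i ≠ l → j ≠ l → ∀ m : ℝ, 0 ≤ m →
      m ≤ X i ^ 2 → m ≤ X j ^ 2 → m ≤ X l ^ 2 → 1624 / 10000 * m * (m - X a ^ 2) ≤ X a ^ 2)
    (hN4 : ∀ a : Fin 5, ∀ m : ℝ, 0 ≤ m → (∀ i, i ≠ a → m ≤ X i ^ 2) →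
      2771 / 10000 * m * (m - X a ^ 2) ≤ X a ^ 2)
    {h1 s t τ B0 B3 B4 B5 : ℝ} (hh : X a ≤ h1) (hs0 : 0 ≤ t) (hs1 : h1 < t) (hts : t ≤ s)
    (hs : h1 ^ 2 < 1624 / 10000 * s ^ 2 * (s ^ 2 - h1 ^ 2))
    (ht : h1 ^ 2 < 2771 / 10000 * t ^ 2 * (t ^ 2 - h1 ^ 2))
    (hB3 : B3 ≤ B0) (hB4 : B4 ≤ B3) (hB5 : B5 ≤ B4)
    (U : ∀ i, X i ^ 2 - τ * p i ≤ B0) (V3 : ∀ i, X i ≤ s → X i ^ 2 - τ * p i ≤ B3)
    (V4 : ∀ i, X i ≤ t → X i ^ 2 - τ * p i ≤ B4)
    (V5 : ∀ i, X i ≤ h1 → X i ^ 2 - τ * p i ≤ B5)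
    (hD : τ + 2 * B0 + B3 + B4 + B5 ≤ 9 / 4) : ∑ i, X i ^ 2 ≤ 9 / 4 := by
  have hcard := card_big X a hX hN1 hh (le_trans hs0 hts) (lt_of_lt_of_le hs1 hts) hs
  have hcard4 : (Finset.univ.filter (fun i => t < X i)).card ≤ 3 := by
    by_contra hc
    push Not at hc
    have hsub : Finset.univ.filter (fun i => t < X i) ⊆ Finset.univ.erase a := by
      intro i hi
      simp only [Finset.mem_filter, Finset.mem_univ, true_and] at hi
      simp only [Finset.mem_erase, Finset.mem_univ, and_true]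
      rintro rfl
      linarith
    have hE : (Finset.univ.erase a).card = 4 := by
      rw [Finset.card_erase_of_mem (Finset.mem_univ a)]; simp
    have heq : Finset.univ.filter (fun i => t < X i) = Finset.univ.erase a :=
      Finset.eq_of_subset_of_card_le hsub (by rw [hE]; omega)
    have hall : ∀ i, i ≠ a → t ^ 2 ≤ X i ^ 2 := by
      intro i hi
      have : i ∈ Finset.univ.filter (fun i => t < X i) := by
        rw [heq]; simp [hi]
      simp only [Finset.mem_filter, Finset.mem_univ, true_and] at this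
      exact pow_le_pow_left₀ hs0 this.le 2
    have hm := hN4 a (t ^ 2) (by positivity) hall
    have hXa : X a ^ 2 ≤ h1 ^ 2 := pow_le_pow_left₀ (hX a).le hh 2
    have : 2771 / 10000 * t ^ 2 * (t ^ 2 - h1 ^ 2) ≤ 2771 / 10000 * t ^ 2 * (t ^ 2 - X a ^ 2) :=
      mul_le_mul_of_nonneg_left (by linarith) (by positivity)
    linarith
  set S := Finset.univ.filter (fun i => s < X i) with hS
  set T := Finset.univ.filter (fun i => t < X i) with hT
  have hle : ∀ i, X i ^ 2 - τ * p i ≤ B5 + (if i ∈ Finset.univ.erase a then B4 - B5 else 0)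
      + (if i ∈ T then B3 - B4 else 0) + (if i ∈ S then B0 - B3 else 0) := by
    intro i
    by_cases hi : s < X i
    · have h1' : i ∈ S := by rw [hS]; simp [hi]
      have h2' : i ∈ T := by rw [hT]; simp [lt_of_le_of_lt hts hi]
      have h3' : i ∈ Finset.univ.erase a := by
        simp only [Finset.mem_erase, Finset.mem_univ, and_true]
        rintro rfl
        linarith
      rw [if_pos h1', if_pos h2', if_pos h3']; linarith [U i]
    · have h1' : i ∉ S := by rw [hS]; simpa using hi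
      rw [if_neg h1']
      push Not at hi
      by_cases hi2 : t < X i
      · have h2' : i ∈ T := by rw [hT]; simp [hi2]
        have h3' : i ∈ Finset.univ.erase a := by
          simp only [Finset.mem_erase, Finset.mem_univ, and_true]
          rintro rfl
          linarith
        rw [if_pos h2', if_pos h3']; linarith [V3 i hi]
      · have h2' : i ∉ T := by rw [hT]; simpa using hi2
        rw [if_neg h2']
        push Not at hi2
        by_cases hia : i = a
        · have h3' : i ∉ Finset.univ.erase a := by simp [hia]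
          rw [if_neg h3']
          have := V5 i (by rw [hia]; exact hh)
          linarith
        · have h3' : i ∈ Finset.univ.erase a := by simp [hia]
          rw [if_pos h3']
          linarith [V4 i hi2]
  have hsumle := Finset.sum_le_sum (fun i (_ : i ∈ Finset.univ) => hle i)
  rw [Finset.sum_sub_distrib, ← Finset.mul_sum, hsum, Finset.sum_add_distrib,
    Finset.sum_add_distrib, Finset.sum_add_distrib, Finset.sum_const,
    Finset.sum_ite_mem, Finset.univ_inter, Finset.sum_const,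
    Finset.sum_ite_mem, Finset.univ_inter, Finset.sum_const,
    Finset.sum_ite_mem, Finset.univ_inter, Finset.sum_const,
    Finset.card_erase_of_mem (Finset.mem_univ a)] at hsumle
  simp only [Finset.card_univ, Fintype.card_fin, nsmul_eq_mul] at hsumle
  have hc2 : (S.card : ℝ) ≤ 2 := by exact_mod_cast hcard
  have hc3 : (T.card : ℝ) ≤ 3 := by exact_mod_cast hcard4
  have e2 : (S.card : ℝ) * (B0 - B3) ≤ 2 * (B0 - B3) := mul_le_mul_of_nonneg_right hc2 (by linarith)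
  have e3 : (T.card : ℝ) * (B3 - B4) ≤ 3 * (B3 - B4) := mul_le_mul_of_nonneg_right hc3 (by linarith)
  norm_num at hsumle
  linarith

end Vale.Agent.P226
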