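import Vale.Agent.P226.ClosBase

/-!
# P226: closing for `k >= 10` cells (half-space bound)
Generated numeric certificates (exact rational arithmetic, checked by `norm_num`).
-/

set_option linter.unusedVariables false

namespace Vale.Agent.P226

/-- the line bounds used for this closing -/
def LnG (x p : ℝ) : Prop :=
  x ≤ (21933 / 25000) * p + (311 / 500) ∧
  x ≤ (112799 / 100000) * p + (53561 / 100000) ∧
  x ≤ (27573 / 20000) * p + (1833 / 4000) ∧
  x ≤ (162931 / 100000) * p + (38949 / 100000) ∧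
  x ≤ (225597 / 100000) * p + (25177 / 100000) ∧
  x ≤ (27573 / 10000) * p + (17203 / 100000) ∧
  x ≤ (162931 / 50000) * p + (2283 / 20000) ∧
  x ≤ (65799 / 12500) * p + (203 / 12500) ∧
  x ≤ (313329 / 50000) * p + (101 / 20000) ∧
  x ≤ (50133 / 50000) * p + (11553 / 20000)

/-- small-cell bound -/
def Sm (x p : ℝ) : Prop := x ≤ 21 / 100 → x ^ 2 ≤ 174 / 100 * p

theorem kG_0U (x p : ℝ) (hp : 0 ≤ p) (h0 : 0 ≤ x) (h1 : x ≤ 1) (L : LnG x p) :
    x ^ 2 - (87 / 50) * p ≤ (1269 / 5000) := by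
  obtain ⟨L0, L1, L2, L3, L4, L5, L6, L7, L8, L9⟩ := L
  rcases le_total x (421 / 500) with g0 | g0
  · exact seg h0 g0 L4 (by norm_num) (by norm_num) (by norm_num) (by norm_num)
  rcases le_total x (233 / 250) with g1 | g1
  · exact seg g0 g1 L9 (by norm_num) (by norm_num) (by norm_num) (by norm_num)
  exact seg g1 h1 L0 (by norm_num) (by norm_num) (by norm_num) (by norm_num)

theorem kG_0V (x p : ℝ) (hp : 0 ≤ p) (h0 : (1 / 5) ≤ x) (h1 : x ≤ (73 / 200)) (L : LnG x p) :
    x ^ 2 - (87 / 50) * p ≤ 0 := by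
  obtain ⟨L0, L1, L2, L3, L4, L5, L6, L7, L8, L9⟩ := L
  exact seg h0 h1 L6 (by norm_num) (by norm_num) (by norm_num) (by norm_num)

theorem kG_1U (x p : ℝ) (hp : 0 ≤ p) (h0 : (53 / 1000) ≤ x) (h1 : x ≤ 1) (L : LnG x p) :
    x ^ 2 - (103 / 50) * p ≤ (727 / 5000) := by
  obtain ⟨L0, L1, L2, L3, L4, L5, L6, L7, L8, L9⟩ := L
  rcases le_total x (769 / 1000) with g0 | g0
  · exact seg h0 g0 L5 (by norm_num) (by norm_num) (by norm_num) (by norm_num)
  rcases le_total x (221 / 250) with g1 | g1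
  · exact seg g0 g1 L2 (by norm_num) (by norm_num) (by norm_num) (by norm_num)
  rcases le_total x (189 / 200) with g2 | g2
  · exact seg g1 g2 L1 (by norm_num) (by norm_num) (by norm_num) (by norm_num)
  exact seg g2 h1 L0 (by norm_num) (by norm_num) (by norm_num) (by norm_num)

theorem kG_1V (x p : ℝ) (hp : 0 ≤ p) (h0 : (53 / 1000) ≤ x) (h1 : x ≤ (219 / 500)) (L : LnG x p) :
    x ^ 2 - (103 / 50) * p ≤ (-(161 / 12500)) := by
  obtain ⟨L0, L1, L2, L3, L4, L5, L6, L7, L8, L9⟩ := L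
  rcases le_total x (69 / 250) with g0 | g0
  · exact seg h0 g0 L8 (by norm_num) (by norm_num) (by norm_num) (by norm_num)
  exact seg g0 h1 L6 (by norm_num) (by norm_num) (by norm_num) (by norm_num)

theorem kG_2U (x p : ℝ) (hp : 0 ≤ p) (h0 : (19 / 250) ≤ x) (h1 : x ≤ 1) (L : LnG x p) :
    x ^ 2 - (219 / 100) * p ≤ (10529 / 100000) := by
  obtain ⟨L0, L1, L2, L3, L4, L5, L6, L7, L8, L9⟩ := L
  rcases le_total x (94 / 125) with g0 | g0
  · exact seg h0 g0 L5 (by norm_num) (by norm_num) (by norm_num) (by norm_num)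
  rcases le_total x (221 / 250) with g1 | g1
  · exact seg g0 g1 L2 (by norm_num) (by norm_num) (by norm_num) (by norm_num)
  exact seg g1 h1 L1 (by norm_num) (by norm_num) (by norm_num) (by norm_num)

theorem kG_2V (x p : ℝ) (hp : 0 ≤ p) (h0 : (19 / 250) ≤ x) (h1 : x ≤ (233 / 500)) (L : LnG x p) :
    x ^ 2 - (219 / 100) * p ≤ (-(477 / 25000)) := by
  obtain ⟨L0, L1, L2, L3, L4, L5, L6, L7, L8, L9⟩ := L
  rcases le_total x (17 / 50) with g0 | g0
  · exact seg h0 g0 L7 (by norm_num) (by norm_num) (by norm_num) (by norm_num)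
  exact seg g0 h1 L6 (by norm_num) (by norm_num) (by norm_num) (by norm_num)

theorem kG_3U (x p : ℝ) (hp : 0 ≤ p) (h0 : (43 / 500) ≤ x) (h1 : x ≤ 1) (L : LnG x p) :
    x ^ 2 - (227 / 100) * p ≤ (4023 / 50000) := by
  obtain ⟨L0, L1, L2, L3, L4, L5, L6, L7, L8, L9⟩ := L
  rcases le_total x (37 / 50) with g0 | g0
  · exact seg h0 g0 L5 (by norm_num) (by norm_num) (by norm_num) (by norm_num)
  rcases le_total x (106 / 125) with g1 | g1
  · exact seg g0 g1 L3 (by norm_num) (by norm_num) (by norm_num) (by norm_num)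
  rcases le_total x (221 / 250) with g2 | g2
  · exact seg g1 g2 L2 (by norm_num) (by norm_num) (by norm_num) (by norm_num)
  exact seg g2 h1 L1 (by norm_num) (by norm_num) (by norm_num) (by norm_num)

theorem kG_3V (x p : ℝ) (hp : 0 ≤ p) (h0 : (43 / 500) ≤ x) (h1 : x ≤ (97 / 200)) (L : LnG x p) :
    x ^ 2 - (227 / 100) * p ≤ (-(567 / 25000)) := by
  obtain ⟨L0, L1, L2, L3, L4, L5, L6, L7, L8, L9⟩ := L
  rcases le_total x (69 / 200) with g0 | g0
  · exact seg h0 g0 L7 (by norm_num) (by norm_num) (by norm_num) (by norm_num)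
  exact seg g0 h1 L6 (by norm_num) (by norm_num) (by norm_num) (by norm_num)

theorem kG_4U (x p : ℝ) (hp : 0 ≤ p) (h0 : (93 / 1000) ≤ x) (h1 : x ≤ 1) (L : LnG x p) :
    x ^ 2 - (58 / 25) * p ≤ (6501 / 100000) := by
  obtain ⟨L0, L1, L2, L3, L4, L5, L6, L7, L8, L9⟩ := L
  rcases le_total x (86 / 125) with g0 | g0
  · exact seg h0 g0 L6 (by norm_num) (by norm_num) (by norm_num) (by norm_num)
  rcases le_total x (843 / 1000) with g1 | g1
  · exact seg g0 g1 L3 (by norm_num) (by norm_num) (by norm_num) (by norm_num)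
  rcases le_total x (221 / 250) with g2 | g2
  · exact seg g1 g2 L2 (by norm_num) (by norm_num) (by norm_num) (by norm_num)
  exact seg g2 h1 L1 (by norm_num) (by norm_num) (by norm_num) (by norm_num)

theorem kG_4V (x p : ℝ) (hp : 0 ≤ p) (h0 : (93 / 1000) ≤ x) (h1 : x ≤ (63 / 125)) (L : LnG x p) :
    x ^ 2 - (58 / 25) * p ≤ (-(1259 / 50000)) := by
  obtain ⟨L0, L1, L2, L3, L4, L5, L6, L7, L8, L9⟩ := L
  rcases le_total x (347 / 1000) with g0 | g0
  · exact seg h0 g0 L7 (by norm_num) (by norm_num) (by norm_num) (by norm_num)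
  exact seg g0 h1 L5 (by norm_num) (by norm_num) (by norm_num) (by norm_num)

theorem kG_5U (x p : ℝ) (hp : 0 ≤ p) (h0 : (1 / 10) ≤ x) (h1 : x ≤ 1) (L : LnG x p) :
    x ^ 2 - (237 / 100) * p ≤ (31 / 625) := by
  obtain ⟨L0, L1, L2, L3, L4, L5, L6, L7, L8, L9⟩ := L
  rcases le_total x (339 / 500) with g0 | g0
  · exact seg h0 g0 L6 (by norm_num) (by norm_num) (by norm_num) (by norm_num)
  rcases le_total x (209 / 250) with g1 | g1
  · exact seg g0 g1 L3 (by norm_num) (by norm_num) (by norm_num) (by norm_num)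
  rcases le_total x (221 / 250) with g2 | g2
  · exact seg g1 g2 L2 (by norm_num) (by norm_num) (by norm_num) (by norm_num)
  exact seg g2 h1 L1 (by norm_num) (by norm_num) (by norm_num) (by norm_num)

theorem kG_5V (x p : ℝ) (hp : 0 ≤ p) (h0 : (1 / 10) ≤ x) (h1 : x ≤ (263 / 500)) (L : LnG x p) :
    x ^ 2 - (237 / 100) * p ≤ (-(2757 / 100000)) := by
  obtain ⟨L0, L1, L2, L3, L4, L5, L6, L7, L8, L9⟩ := L
  rcases le_total x (7 / 20) with g0 | g0
  · exact seg h0 g0 L7 (by norm_num) (by norm_num) (by norm_num) (by norm_num)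
  exact seg g0 h1 L5 (by norm_num) (by norm_num) (by norm_num) (by norm_num)

theorem kG_6U (x p : ℝ) (hp : 0 ≤ p) (h0 : (109 / 1000) ≤ x) (h1 : x ≤ 1) (L : LnG x p) :
    x ^ 2 - (243 / 100) * p ≤ (331 / 10000) := by
  obtain ⟨L0, L1, L2, L3, L4, L5, L6, L7, L8, L9⟩ := L
  rcases le_total x (667 / 1000) with g0 | g0
  · exact seg h0 g0 L6 (by norm_num) (by norm_num) (by norm_num) (by norm_num)
  rcases le_total x (209 / 250) with g1 | g1
  · exact seg g0 g1 L3 (by norm_num) (by norm_num) (by norm_num) (by norm_num)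
  rcases le_total x (463 / 500) with g2 | g2
  · exact seg g1 g2 L2 (by norm_num) (by norm_num) (by norm_num) (by norm_num)
  exact seg g2 h1 L0 (by norm_num) (by norm_num) (by norm_num) (by norm_num)

theorem kG_6V (x p : ℝ) (hp : 0 ≤ p) (h0 : (109 / 1000) ≤ x) (h1 : x ≤ (137 / 250)) (L : LnG x p) :
    x ^ 2 - (243 / 100) * p ≤ (-(1547 / 50000)) := by
  obtain ⟨L0, L1, L2, L3, L4, L5, L6, L7, L8, L9⟩ := L
  rcases le_total x (44 / 125) with g0 | g0
  · exact seg h0 g0 L7 (by norm_num) (by norm_num) (by norm_num) (by norm_num)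
  exact seg g0 h1 L5 (by norm_num) (by norm_num) (by norm_num) (by norm_num)

theorem kG_7U (x p : ℝ) (hp : 0 ≤ p) (h0 : (59 / 500) ≤ x) (h1 : x ≤ 1) (L : LnG x p) :
    x ^ 2 - (249 / 100) * p ≤ (67 / 4000) := by
  obtain ⟨L0, L1, L2, L3, L4, L5, L6, L7, L8, L9⟩ := L
  rcases le_total x (82 / 125) with g0 | g0
  · exact seg h0 g0 L6 (by norm_num) (by norm_num) (by norm_num) (by norm_num)
  rcases le_total x (19 / 25) with g1 | g1
  · exact seg g0 g1 L4 (by norm_num) (by norm_num) (by norm_num) (by norm_num)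
  rcases le_total x (837 / 1000) with g2 | g2
  · exact seg g1 g2 L3 (by norm_num) (by norm_num) (by norm_num) (by norm_num)
  rcases le_total x (97 / 100) with g3 | g3
  · exact seg g2 g3 L2 (by norm_num) (by norm_num) (by norm_num) (by norm_num)
  exact seg g3 h1 L0 (by norm_num) (by norm_num) (by norm_num) (by norm_num)

theorem kG_7V (x p : ℝ) (hp : 0 ≤ p) (h0 : (59 / 500) ≤ x) (h1 : x ≤ (571 / 1000)) (L : LnG x p) :
    x ^ 2 - (249 / 100) * p ≤ (-(3421 / 100000)) := by
  obtain ⟨L0, L1, L2, L3, L4, L5, L6, L7, L8, L9⟩ := L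
  rcases le_total x (71 / 200) with g0 | g0
  · exact seg h0 g0 L7 (by norm_num) (by norm_num) (by norm_num) (by norm_num)
  exact seg g0 h1 L5 (by norm_num) (by norm_num) (by norm_num) (by norm_num)

theorem kG_8U (x p : ℝ) (hp : 0 ≤ p) (h0 : (16 / 125) ≤ x) (h1 : x ≤ 1) (L : LnG x p) :
    x ^ 2 - (51 / 20) * p ≤ (3 / 10000) := by
  obtain ⟨L0, L1, L2, L3, L4, L5, L6, L7, L8, L9⟩ := L
  rcases le_total x (117 / 250) with g0 | g0
  · exact seg h0 g0 L7 (by norm_num) (by norm_num) (by norm_num) (by norm_num)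
  rcases le_total x (94 / 125) with g1 | g1
  · exact seg g0 g1 L4 (by norm_num) (by norm_num) (by norm_num) (by norm_num)
  rcases le_total x (419 / 500) with g2 | g2
  · exact seg g1 g2 L3 (by norm_num) (by norm_num) (by norm_num) (by norm_num)
  exact seg g2 h1 L2 (by norm_num) (by norm_num) (by norm_num) (by norm_num)

theorem kG_8V (x p : ℝ) (hp : 0 ≤ p) (h0 : (16 / 125) ≤ x) (h1 : x ≤ (74 / 125)) (L : LnG x p) :
    x ^ 2 - (51 / 20) * p ≤ (-(151 / 4000)) := by
  obtain ⟨L0, L1, L2, L3, L4, L5, L6, L7, L8, L9⟩ := L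
  rcases le_total x (89 / 250) with g0 | g0
  · exact seg h0 g0 L7 (by norm_num) (by norm_num) (by norm_num) (by norm_num)
  exact seg g0 h1 L5 (by norm_num) (by norm_num) (by norm_num) (by norm_num)

theorem kG_9U (x p : ℝ) (hp : 0 ≤ p) (h0 : (137 / 1000) ≤ x) (h1 : x ≤ 1) (L : LnG x p) :
    x ^ 2 - (13 / 5) * p ≤ (-(311 / 25000)) := by
  obtain ⟨L0, L1, L2, L3, L4, L5, L6, L7, L8, L9⟩ := L
  rcases le_total x (56 / 125) with g0 | g0
  · exact seg h0 g0 L7 (by norm_num) (by norm_num) (by norm_num) (by norm_num)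
  rcases le_total x (747 / 1000) with g1 | g1
  · exact seg g0 g1 L4 (by norm_num) (by norm_num) (by norm_num) (by norm_num)
  rcases le_total x (849 / 1000) with g2 | g2
  · exact seg g1 g2 L3 (by norm_num) (by norm_num) (by norm_num) (by norm_num)
  exact seg g2 h1 L2 (by norm_num) (by norm_num) (by norm_num) (by norm_num)

theorem kG_9V (x p : ℝ) (hp : 0 ≤ p) (h0 : (137 / 1000) ≤ x) (h1 : x ≤ (611 / 1000)) (L : LnG x p) :
    x ^ 2 - (13 / 5) * p ≤ (-(4069 / 100000)) := by
  obtain ⟨L0, L1, L2, L3, L4, L5, L6, L7, L8, L9⟩ := L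
  rcases le_total x (357 / 1000) with g0 | g0
  · exact seg h0 g0 L7 (by norm_num) (by norm_num) (by norm_num) (by norm_num)
  rcases le_total x (61 / 100) with g1 | g1
  · exact seg g0 g1 L5 (by norm_num) (by norm_num) (by norm_num) (by norm_num)
  exact seg g1 h1 L4 (by norm_num) (by norm_num) (by norm_num) (by norm_num)

theorem kG_10U (x p : ℝ) (hp : 0 ≤ p) (h0 : (73 / 500) ≤ x) (h1 : x ≤ 1) (L : LnG x p) :
    x ^ 2 - (66 / 25) * p ≤ (-(17 / 800)) := by
  obtain ⟨L0, L1, L2, L3, L4, L5, L6, L7, L8, L9⟩ := L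
  rcases le_total x (433 / 1000) with g0 | g0
  · exact seg h0 g0 L7 (by norm_num) (by norm_num) (by norm_num) (by norm_num)
  rcases le_total x (747 / 1000) with g1 | g1
  · exact seg g0 g1 L4 (by norm_num) (by norm_num) (by norm_num) (by norm_num)
  rcases le_total x (873 / 1000) with g2 | g2
  · exact seg g1 g2 L3 (by norm_num) (by norm_num) (by norm_num) (by norm_num)
  exact seg g2 h1 L1 (by norm_num) (by norm_num) (by norm_num) (by norm_num)

theorem kG_10V (x p : ℝ) (hp : 0 ≤ p) (h0 : (73 / 500) ≤ x) (h1 : x ≤ (649 / 1000)) (L : LnG x p) :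
    x ^ 2 - (66 / 25) * p ≤ (-(1091 / 25000)) := by
  obtain ⟨L0, L1, L2, L3, L4, L5, L6, L7, L8, L9⟩ := L
  rcases le_total x (89 / 250) with g0 | g0
  · exact seg h0 g0 L7 (by norm_num) (by norm_num) (by norm_num) (by norm_num)
  rcases le_total x (623 / 1000) with g1 | g1
  · exact seg g0 g1 L5 (by norm_num) (by norm_num) (by norm_num) (by norm_num)
  exact seg g1 h1 L4 (by norm_num) (by norm_num) (by norm_num) (by norm_num)

theorem kG_11U (x p : ℝ) (hp : 0 ≤ p) (h0 : (41 / 250) ≤ x) (h1 : x ≤ 1) (L : LnG x p) :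
    x ^ 2 - (68 / 25) * p ≤ (-(241 / 6250)) := by
  obtain ⟨L0, L1, L2, L3, L4, L5, L6, L7, L8, L9⟩ := L
  rcases le_total x (399 / 1000) with g0 | g0
  · exact seg h0 g0 L7 (by norm_num) (by norm_num) (by norm_num) (by norm_num)
  rcases le_total x (17 / 25) with g1 | g1
  · exact seg g0 g1 L5 (by norm_num) (by norm_num) (by norm_num) (by norm_num)
  rcases le_total x (187 / 250) with g2 | g2
  · exact seg g1 g2 L4 (by norm_num) (by norm_num) (by norm_num) (by norm_num)
  rcases le_total x (923 / 1000) with g3 | g3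
  · exact seg g2 g3 L3 (by norm_num) (by norm_num) (by norm_num) (by norm_num)
  exact seg g3 h1 L0 (by norm_num) (by norm_num) (by norm_num) (by norm_num)

theorem kG_11V (x p : ℝ) (hp : 0 ≤ p) (h0 : (41 / 250) ≤ x) (h1 : x ≤ (353 / 500)) (L : LnG x p) :
    x ^ 2 - (68 / 25) * p ≤ (-(2461 / 50000)) := by
  obtain ⟨L0, L1, L2, L3, L4, L5, L6, L7, L8, L9⟩ := L
  rcases le_total x (353 / 1000) with g0 | g0
  · exact seg h0 g0 L7 (by norm_num) (by norm_num) (by norm_num) (by norm_num)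
  rcases le_total x (649 / 1000) with g1 | g1
  · exact seg g0 g1 L5 (by norm_num) (by norm_num) (by norm_num) (by norm_num)
  exact seg g1 h1 L4 (by norm_num) (by norm_num) (by norm_num) (by norm_num)

theorem kG_12U (x p : ℝ) (hp : 0 ≤ p) (h0 : (193 / 1000) ≤ x) (h1 : x ≤ 1) (L : LnG x p) :
    x ^ 2 - (14 / 5) * p ≤ (-(5629 / 100000)) := by
  obtain ⟨L0, L1, L2, L3, L4, L5, L6, L7, L8, L9⟩ := L
  rcases le_total x (171 / 500) with g0 | g0
  · exact seg h0 g0 L7 (by norm_num) (by norm_num) (by norm_num) (by norm_num)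
  rcases le_total x (603 / 1000) with g1 | g1
  · exact seg g0 g1 L6 (by norm_num) (by norm_num) (by norm_num) (by norm_num)
  rcases le_total x (187 / 250) with g2 | g2
  · exact seg g1 g2 L4 (by norm_num) (by norm_num) (by norm_num) (by norm_num)
  rcases le_total x (971 / 1000) with g3 | g3
  · exact seg g2 g3 L3 (by norm_num) (by norm_num) (by norm_num) (by norm_num)
  exact seg g3 h1 L0 (by norm_num) (by norm_num) (by norm_num) (by norm_num)

theorem closingG {k : ℕ} (hk : 10 ≤ k) (X p : Fin k → ℝ) (hX : ∀ i, 0 < X i)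
    (hp : ∀ i, 0 ≤ p i) (hsum : ∑ i, p i = 1) (hL : ∀ i, LnG (X i) (p i))
    (hS : ∀ i, Sm (X i) (p i)) (hX1 : ∀ i, X i ≤ 1)
    (hN1 : ∀ a i j l, a ≠ i → a ≠ j → a ≠ l → i ≠ j → i ≠ l → j ≠ l → ∀ m : ℝ, 0 ≤ m →
      m ≤ X i ^ 2 → m ≤ X j ^ 2 → m ≤ X l ^ 2 → 1624 / 10000 * m * (m - X a ^ 2) ≤ X a ^ 2) :
    ∑ i, X i ^ 2 ≤ 9 / 4 := by
  have hk' : (10 : ℝ) ≤ (k : ℝ) := by exact_mod_cast hk
  obtain ⟨a, -, ha⟩ := Finset.exists_min_image Finset.univ X ⟨⟨0, by omega⟩, Finset.mem_univ _⟩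
  have hmin : ∀ i, X a ≤ X i := fun i => ha i (Finset.mem_univ i)
  rcases le_total (X a) (53 / 1000) with g0 | g0
  · refine close_int X p a hX hsum hN1 (h1 := (53 / 1000)) (s := (73 / 200)) (τ := (87 / 50))
      (B0 := (1269 / 5000)) (B1 := 0) g0 (by norm_num) (by norm_num) (by norm_num)
      (by norm_num) (fun i => kG_0U _ _ (hp i) (hX i).le (hX1 i) (hL i))
      (fun i hi => ?_) (by linarith)
    rcases le_total (X i) (1 / 5) with g | g
    · have h2 := hS i (by linarith)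
      have h3 := hp i
      linarith
    · exact kG_0V _ _ (hp i) g hi (hL i)
  rcases le_total (X a) (19 / 250) with g1 | g1
  · refine close_int X p a hX hsum hN1 (h1 := (19 / 250)) (s := (219 / 500)) (τ := (103 / 50))
      (B0 := (727 / 5000)) (B1 := (-(161 / 12500))) g1 (by norm_num) (by norm_num) (by norm_num)
      (by norm_num) (fun i => kG_1U _ _ (hp i) (le_trans g0 (hmin i)) (hX1 i) (hL i))
      (fun i hi => kG_1V _ _ (hp i) (le_trans g0 (hmin i)) hi (hL i)) (by linarith)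
  rcases le_total (X a) (43 / 500) with g2 | g2
  · refine close_int X p a hX hsum hN1 (h1 := (43 / 500)) (s := (233 / 500)) (τ := (219 / 100))
      (B0 := (10529 / 100000)) (B1 := (-(477 / 25000))) g2 (by norm_num) (by norm_num) (by norm_num)
      (by norm_num) (fun i => kG_2U _ _ (hp i) (le_trans g1 (hmin i)) (hX1 i) (hL i))
      (fun i hi => kG_2V _ _ (hp i) (le_trans g1 (hmin i)) hi (hL i)) (by linarith)
  rcases le_total (X a) (93 / 1000) with g3 | g3
  · refine close_int X p a hX hsum hN1 (h1 := (93 / 1000)) (s := (97 / 200)) (τ := (227 / 100))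
      (B0 := (4023 / 50000)) (B1 := (-(567 / 25000))) g3 (by norm_num) (by norm_num) (by norm_num)
      (by norm_num) (fun i => kG_3U _ _ (hp i) (le_trans g2 (hmin i)) (hX1 i) (hL i))
      (fun i hi => kG_3V _ _ (hp i) (le_trans g2 (hmin i)) hi (hL i)) (by linarith)
  rcases le_total (X a) (1 / 10) with g4 | g4
  · refine close_int X p a hX hsum hN1 (h1 := (1 / 10)) (s := (63 / 125)) (τ := (58 / 25))
      (B0 := (6501 / 100000)) (B1 := (-(1259 / 50000))) g4 (by norm_num) (by norm_num) (by norm_num)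
      (by norm_num) (fun i => kG_4U _ _ (hp i) (le_trans g3 (hmin i)) (hX1 i) (hL i))
      (fun i hi => kG_4V _ _ (hp i) (le_trans g3 (hmin i)) hi (hL i)) (by linarith)
  rcases le_total (X a) (109 / 1000) with g5 | g5
  · refine close_int X p a hX hsum hN1 (h1 := (109 / 1000)) (s := (263 / 500)) (τ := (237 / 100))
      (B0 := (31 / 625)) (B1 := (-(2757 / 100000))) g5 (by norm_num) (by norm_num) (by norm_num)
      (by norm_num) (fun i => kG_5U _ _ (hp i) (le_trans g4 (hmin i)) (hX1 i) (hL i))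
      (fun i hi => kG_5V _ _ (hp i) (le_trans g4 (hmin i)) hi (hL i)) (by linarith)
  rcases le_total (X a) (59 / 500) with g6 | g6
  · refine close_int X p a hX hsum hN1 (h1 := (59 / 500)) (s := (137 / 250)) (τ := (243 / 100))
      (B0 := (331 / 10000)) (B1 := (-(1547 / 50000))) g6 (by norm_num) (by norm_num) (by norm_num)
      (by norm_num) (fun i => kG_6U _ _ (hp i) (le_trans g5 (hmin i)) (hX1 i) (hL i))
      (fun i hi => kG_6V _ _ (hp i) (le_trans g5 (hmin i)) hi (hL i)) (by linarith)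
  rcases le_total (X a) (16 / 125) with g7 | g7
  · refine close_int X p a hX hsum hN1 (h1 := (16 / 125)) (s := (571 / 1000)) (τ := (249 / 100))
      (B0 := (67 / 4000)) (B1 := (-(3421 / 100000))) g7 (by norm_num) (by norm_num) (by norm_num)
      (by norm_num) (fun i => kG_7U _ _ (hp i) (le_trans g6 (hmin i)) (hX1 i) (hL i))
      (fun i hi => kG_7V _ _ (hp i) (le_trans g6 (hmin i)) hi (hL i)) (by linarith)
  rcases le_total (X a) (137 / 1000) with g8 | g8
  · refine close_int X p a hX hsum hN1 (h1 := (137 / 1000)) (s := (74 / 125)) (τ := (51 / 20))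
      (B0 := (3 / 10000)) (B1 := (-(151 / 4000))) g8 (by norm_num) (by norm_num) (by norm_num)
      (by norm_num) (fun i => kG_8U _ _ (hp i) (le_trans g7 (hmin i)) (hX1 i) (hL i))
      (fun i hi => kG_8V _ _ (hp i) (le_trans g7 (hmin i)) hi (hL i)) (by linarith)
  rcases le_total (X a) (73 / 500) with g9 | g9
  · refine close_int X p a hX hsum hN1 (h1 := (73 / 500)) (s := (611 / 1000)) (τ := (13 / 5))
      (B0 := (-(311 / 25000))) (B1 := (-(4069 / 100000))) g9 (by norm_num) (by norm_num) (by norm_num)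
      (by norm_num) (fun i => kG_9U _ _ (hp i) (le_trans g8 (hmin i)) (hX1 i) (hL i))
      (fun i hi => kG_9V _ _ (hp i) (le_trans g8 (hmin i)) hi (hL i)) (by linarith)
  rcases le_total (X a) (41 / 250) with g10 | g10
  · refine close_int X p a hX hsum hN1 (h1 := (41 / 250)) (s := (649 / 1000)) (τ := (66 / 25))
      (B0 := (-(17 / 800))) (B1 := (-(1091 / 25000))) g10 (by norm_num) (by norm_num) (by norm_num)
      (by norm_num) (fun i => kG_10U _ _ (hp i) (le_trans g9 (hmin i)) (hX1 i) (hL i))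
      (fun i hi => kG_10V _ _ (hp i) (le_trans g9 (hmin i)) hi (hL i)) (by linarith)
  rcases le_total (X a) (193 / 1000) with g11 | g11
  · refine close_int X p a hX hsum hN1 (h1 := (193 / 1000)) (s := (353 / 500)) (τ := (68 / 25))
      (B0 := (-(241 / 6250))) (B1 := (-(2461 / 50000))) g11 (by norm_num) (by norm_num) (by norm_num)
      (by norm_num) (fun i => kG_11U _ _ (hp i) (le_trans g10 (hmin i)) (hX1 i) (hL i))
      (fun i hi => kG_11V _ _ (hp i) (le_trans g10 (hmin i)) hi (hL i)) (by linarith)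
  exact close_all X p hsum (τ := (14 / 5)) (B := (-(5629 / 100000)))
    (fun i => kG_12U _ _ (hp i) (le_trans g11 (hmin i)) (hX1 i) (hL i)) (by linarith)

end Vale.Agent.P226
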