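import Mathlib

/-!
# P226: the Gaussian propeller conjecture -- basic definitions

`Ineq k n` is the inequality `(E max_i <w_i,x>)^2 <= 9/(8 pi) * sum_i |w_i|^2` for `k+1` vectors of
`R^n` (`x` standard Gaussian).  `Opt k n` packages an optimal configuration of `k+1` cells in `R^n`
violating the inequality.
-/

open MeasureTheory ProbabilityTheory Real

namespace Vale.Agent.P226

/-- the ambient Euclidean space -/
abbrev E (n : ℕ) : Type := EuclideanSpace ℝ (Fin n)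

/-- the standard Gaussian probability measure on `R^n` (Mathlib's `stdGaussian`) -/
noncomputable abbrev gam (n : ℕ) : Measure (E n) := stdGaussian (E n)

/-- `mx w x = max_i <w_i, x>` -/
noncomputable def mx {k n : ℕ} (w : Fin (k + 1) → E n) (x : E n) : ℝ :=
  Finset.univ.sup' Finset.univ_nonempty (fun i => inner ℝ (w i) x)

/-- the propeller constant -/
noncomputable def m0 : ℝ := 9 / (8 * π)

/-- The inequality for `k+1` vectors in `R^n`. -/
def Ineq (k n : ℕ) : Prop :=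
  ∀ w : Fin (k + 1) → E n, (∫ x, mx w x ∂(gam n)) ^ 2 ≤ m0 * ∑ i, ‖w i‖ ^ 2

/-- An optimal configuration of `k+1` cells in `R^n` with value larger than `m0`. -/
structure Opt (k n : ℕ) where
  z : Fin (k + 1) → E n
  A : Fin (k + 1) → Set (E n)
  meas : ∀ i, MeasurableSet (A i)
  disj : ∀ i j, i ≠ j → Disjoint (A i) (A j)
  cover : ∀ x, ∃ i, x ∈ A i
  cone : ∀ i, ∀ x ∈ A i, ∀ t : ℝ, 0 < t → t • x ∈ A i
  hz : ∀ i, z i = ∫ x in A i, x ∂(gam n)
  arg : ∀ i, ∀ x ∈ A i, ∀ j, inner ℝ (z j) x ≤ inner ℝ (z i) x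
  big : m0 < ∑ i, ‖z i‖ ^ 2
  opt : ∀ u : Fin (k + 1) → E n,
    (∫ x, mx u x ∂(gam n)) ^ 2 ≤ (∑ i, ‖z i‖ ^ 2) * ∑ i, ‖u i‖ ^ 2

/-- `J d c = int_c^1 (1-v^2)^((d-3)/2) dv` (for `d >= 3`) -/
noncomputable def J (d : ℕ) (c : ℝ) : ℝ := ∫ v in c..1, (√(1 - v ^ 2)) ^ (d - 3)

end Vale.Agent.P226
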