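import Vale.Agent.P226.Defs

/-!
# P226 [OPT]: existence of an optimal configuration
-/

open MeasureTheory ProbabilityTheory Real

namespace Vale.Agent.P226

namespace OptAux

variable {k n : ℕ}

theorem integrable_id (n : ℕ) : Integrable (fun x : E n => x) (gam n) :=
  IsGaussian.integrable_id

theorem integrable_norm (n : ℕ) : Integrable (fun x : E n => ‖x‖) (gam n) :=
  (integrable_id n).norm

theorem integrable_inner (w : E n) : Integrable (fun x => inner ℝ w x) (gam n) := by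
  have h := (innerSL ℝ w).integrable_comp (integrable_id n)
  exact h

theorem integral_inner (w : E n) : ∫ x, inner ℝ w x ∂(gam n) = 0 := by
  have h := (innerSL ℝ w).integral_comp_comm (integrable_id n)
  have h2 : ∫ x, x ∂(gam n) = 0 := integral_id_stdGaussian
  rw [h2, map_zero] at h
  exact h

theorem setIntegral_inner (w : E n) (A : Set (E n)) :
    ∫ x in A, inner ℝ w x ∂(gam n) = inner ℝ w (∫ x in A, x ∂(gam n)) := by
  have h := (innerSL ℝ w).integral_comp_comm ((integrable_id n).restrict (s := A))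
  exact h

theorem le_mx (w : Fin (k + 1) → E n) (i : Fin (k + 1)) (x : E n) : inner ℝ (w i) x ≤ mx w x :=
  Finset.le_sup' (fun i => inner ℝ (w i) x) (Finset.mem_univ i)

theorem mx_le {w : Fin (k + 1) → E n} {x : E n} {c : ℝ} (h : ∀ i, inner ℝ (w i) x ≤ c) :
    mx w x ≤ c :=
  Finset.sup'_le _ _ fun i _ => h i

theorem mx_eq {w : Fin (k + 1) → E n} {x : E n} {i : Fin (k + 1)}
    (h : ∀ j, inner ℝ (w j) x ≤ inner ℝ (w i) x) : mx w x = inner ℝ (w i) x :=
  le_antisymm (mx_le h) (le_mx w i x)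

theorem continuous_mx (w : Fin (k + 1) → E n) : Continuous (mx w) := by
  unfold mx
  exact Continuous.finset_sup'_apply _ fun i _ => by fun_prop

theorem abs_mx_le (w : Fin (k + 1) → E n) (x : E n) : |mx w x| ≤ (∑ i, ‖w i‖) * ‖x‖ := by
  have h1 : ∀ i, |inner ℝ (w i) x| ≤ (∑ i, ‖w i‖) * ‖x‖ := by
    intro i
    refine (abs_real_inner_le_norm _ _).trans ?_
    gcongr
    exact Finset.single_le_sum (f := fun i => ‖w i‖) (fun i _ => norm_nonneg _)
      (Finset.mem_univ i)
  rw [abs_le]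
  constructor
  · exact (neg_le_of_abs_le (h1 0)).trans (le_mx w 0 x)
  · exact mx_le fun i => le_of_abs_le (h1 i)

theorem integrable_mx (w : Fin (k + 1) → E n) : Integrable (mx w) (gam n) := by
  refine Integrable.mono' ((integrable_norm n).const_mul (∑ i, ‖w i‖))
    (continuous_mx w).aestronglyMeasurable (Filter.Eventually.of_forall fun x => ?_)
  rw [Real.norm_eq_abs]
  exact abs_mx_le w x

theorem integral_mx_nonneg (w : Fin (k + 1) → E n) : 0 ≤ ∫ x, mx w x ∂(gam n) := by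
  rw [← integral_inner (w 0)]
  exact integral_mono (integrable_inner _) (integrable_mx w) fun x => le_mx w 0 x

theorem mx_smul {c : ℝ} (hc : 0 ≤ c) (w : Fin (k + 1) → E n) (x : E n) :
    mx (fun i => c • w i) x = c * mx w x := by
  apply le_antisymm
  · refine mx_le fun i => ?_
    rw [real_inner_smul_left]
    exact mul_le_mul_of_nonneg_left (le_mx w i x) hc
  · obtain ⟨i, _, hi⟩ := Finset.exists_mem_eq_sup' Finset.univ_nonempty
      (fun i => inner ℝ (w i) x)
    have h1 : mx w x = inner ℝ (w i) x := hi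
    rw [h1, ← real_inner_smul_left]
    exact le_mx (fun i => c • w i) i x

theorem integral_mx_smul {c : ℝ} (hc : 0 ≤ c) (w : Fin (k + 1) → E n) :
    ∫ x, mx (fun i => c • w i) x ∂(gam n) = c * ∫ x, mx w x ∂(gam n) := by
  rw [← integral_const_mul]
  exact integral_congr_ae (Filter.Eventually.of_forall fun x => mx_smul hc w x)

theorem mx_sub_le (w w' : Fin (k + 1) → E n) (x : E n) :
    mx w x ≤ mx w' x + ‖w - w'‖ * ‖x‖ := by
  refine mx_le fun i => ?_
  have h1 : inner ℝ (w i) x = inner ℝ (w' i) x + inner ℝ (w i - w' i) x := by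
    rw [inner_sub_left]; ring
  have h2 : inner ℝ (w i - w' i) x ≤ ‖w - w'‖ * ‖x‖ := by
    refine (real_inner_le_norm _ _).trans ?_
    gcongr
    exact norm_le_pi_norm (w - w') i
  rw [h1]
  exact add_le_add (le_mx w' i x) h2

theorem integral_mx_sub_le (w w' : Fin (k + 1) → E n) :
    ∫ x, mx w x ∂(gam n) ≤ ∫ x, mx w' x ∂(gam n) + (∫ x, ‖x‖ ∂(gam n)) * ‖w - w'‖ := by
  have h1 : ∫ x, mx w x ∂(gam n) ≤ ∫ x, (mx w' x + ‖w - w'‖ * ‖x‖) ∂(gam n) :=
    integral_mono (integrable_mx w) ((integrable_mx w').add ((integrable_norm n).const_mul _))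
      fun x => mx_sub_le w w' x
  rw [integral_add (integrable_mx w') ((integrable_norm n).const_mul _), integral_const_mul] at h1
  linarith

theorem continuous_integral_mx :
    Continuous (fun w : Fin (k + 1) → E n => ∫ x, mx w x ∂(gam n)) := by
  have h0 : 0 ≤ ∫ x, ‖x‖ ∂(gam n) := integral_nonneg fun x => norm_nonneg x
  refine LipschitzWith.continuous (K := ⟨∫ x, ‖x‖ ∂(gam n), h0⟩) ?_
  refine LipschitzWith.of_dist_le_mul fun w w' => ?_
  rw [Real.dist_eq, dist_eq_norm]
  show |_| ≤ (∫ x, ‖x‖ ∂(gam n)) * ‖w - w'‖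
  rw [abs_le]
  have h1 := integral_mx_sub_le w w'
  have h2 := integral_mx_sub_le w' w
  rw [norm_sub_rev] at h2
  constructor <;> linarith

/-- argmax cells with ties broken by the smallest index -/
def cell (w : Fin (k + 1) → E n) (i : Fin (k + 1)) : Set (E n) :=
  {x | (∀ j, inner ℝ (w j) x ≤ inner ℝ (w i) x) ∧ ∀ j, j < i → inner ℝ (w j) x < inner ℝ (w i) x}

theorem cell_meas (w : Fin (k + 1) → E n) (i : Fin (k + 1)) : MeasurableSet (cell w i) := by
  have h : cell w i = (⋂ j, {x | inner ℝ (w j) x ≤ inner ℝ (w i) x}) ∩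
      ⋂ j, ⋂ (_ : j < i), {x | inner ℝ (w j) x < inner ℝ (w i) x} := by
    ext x
    simp [cell]
  rw [h]
  refine MeasurableSet.inter ?_ ?_
  · refine MeasurableSet.iInter fun j => ?_
    exact measurableSet_le (by fun_prop) (by fun_prop)
  · refine MeasurableSet.iInter fun j => MeasurableSet.iInter fun _ => ?_
    exact measurableSet_lt (by fun_prop) (by fun_prop)

theorem cell_disj (w : Fin (k + 1) → E n) (i j : Fin (k + 1)) (hij : i ≠ j) :
    Disjoint (cell w i) (cell w j) := by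
  rw [Set.disjoint_left]
  rintro x ⟨h1, h2⟩ ⟨h3, h4⟩
  rcases lt_or_gt_of_ne hij with h | h
  · exact absurd (h1 j) (not_le.2 (h4 i h))
  · exact absurd (h3 i) (not_le.2 (h2 j h))

theorem cell_cover (w : Fin (k + 1) → E n) (x : E n) : ∃ i, x ∈ cell w i := by
  classical
  obtain ⟨S, hS⟩ : ∃ S : Finset (Fin (k + 1)),
      ∀ i, i ∈ S ↔ ∀ j, inner ℝ (w j) x ≤ inner ℝ (w i) x :=
    ⟨Finset.univ.filter fun i => ∀ j, inner ℝ (w j) x ≤ inner ℝ (w i) x, fun i => by simp⟩
  have hne : S.Nonempty := by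
    obtain ⟨i, _, hi⟩ := Finset.exists_max_image Finset.univ (fun i => inner ℝ (w i) x)
      Finset.univ_nonempty
    exact ⟨i, (hS i).2 fun j => hi j (Finset.mem_univ _)⟩
  have hmem := (hS _).1 (S.min'_mem hne)
  refine ⟨S.min' hne, hmem, ?_⟩
  intro j hj
  by_contra hcon
  rw [not_lt] at hcon
  have : j ∈ S := (hS j).2 fun l => (hmem l).trans hcon
  exact absurd (S.min'_le j this) (not_le.2 hj)

theorem cell_cone (w : Fin (k + 1) → E n) (i : Fin (k + 1)) (x : E n) (hx : x ∈ cell w i) (t : ℝ)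
    (ht : 0 < t) : t • x ∈ cell w i := by
  obtain ⟨h1, h2⟩ := hx
  refine ⟨fun j => ?_, fun j hj => ?_⟩
  · rw [real_inner_smul_right, real_inner_smul_right]
    exact mul_le_mul_of_nonneg_left (h1 j) ht.le
  · rw [real_inner_smul_right, real_inner_smul_right]
    exact mul_lt_mul_of_pos_left (h2 j hj) ht

/-- integral over a partition -/
theorem integral_partition {A : Fin (k + 1) → Set (E n)} (hm : ∀ i, MeasurableSet (A i))
    (hd : ∀ i j, i ≠ j → Disjoint (A i) (A j)) (hc : ∀ x, ∃ i, x ∈ A i)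
    {F : Type} [NormedAddCommGroup F] [NormedSpace ℝ F] {f : E n → F}
    (hf : Integrable f (gam n)) : ∫ x, f x ∂(gam n) = ∑ i, ∫ x in A i, f x ∂(gam n) := by
  have h1 : (⋃ i, A i) = Set.univ := by
    ext x
    simp only [Set.mem_iUnion, Set.mem_univ, iff_true]
    exact hc x
  rw [← integral_iUnion_fintype hm (fun i j hij => hd i j hij) (fun i => hf.integrableOn), h1,
    setIntegral_univ]

/-- lower bound of the integral of the maximum by a choice of cells -/
theorem sum_le_integral_mx {A : Fin (k + 1) → Set (E n)} (hm : ∀ i, MeasurableSet (A i))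
    (hd : ∀ i j, i ≠ j → Disjoint (A i) (A j)) (hc : ∀ x, ∃ i, x ∈ A i)
    (u : Fin (k + 1) → E n) (g : Fin (k + 1) → E n → ℝ) (hg : ∀ i, Integrable (g i) (gam n))
    (hgu : ∀ i, ∀ x ∈ A i, g i x ≤ mx u x) :
    ∑ i, ∫ x in A i, g i x ∂(gam n) ≤ ∫ x, mx u x ∂(gam n) := by
  rw [integral_partition hm hd hc (integrable_mx u)]
  refine Finset.sum_le_sum fun i _ => ?_
  exact setIntegral_mono_on (hg i).integrableOn (integrable_mx u).integrableOn (hm i)
    fun x hx => hgu i x hx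

end OptAux

open OptAux

theorem exists_opt {k n : ℕ} (h : ¬ Ineq k n) : Nonempty (Opt k n) := by
  unfold Ineq at h
  push Not at h
  obtain ⟨w, hw⟩ := h
  set F : (Fin (k + 1) → E n) → ℝ := fun w => ∫ x, mx w x ∂(gam n) with hF
  have hF0 : ∀ w, 0 ≤ F w := fun w => integral_mx_nonneg w
  have hFc : Continuous F := continuous_integral_mx
  have hFs : ∀ (c : ℝ), 0 ≤ c → ∀ w : Fin (k + 1) → E n, F (fun i => c • w i) = c * F w :=
    fun c hc w => integral_mx_smul hc w
  -- the unit sphere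
  set S : Set (Fin (k + 1) → E n) := {w | ∑ i, ‖w i‖ ^ 2 = 1} with hS
  have hScomp : IsCompact S := by
    have hclosed : IsClosed S := isClosed_eq (by fun_prop) continuous_const
    refine IsCompact.of_isClosed_subset (isCompact_closedBall (0 : Fin (k + 1) → E n) 1) hclosed ?_
    intro v hv
    rw [mem_closedBall_zero_iff, pi_norm_le_iff_of_nonneg zero_le_one]
    intro i
    have h1 : ‖v i‖ ^ 2 ≤ ∑ i, ‖v i‖ ^ 2 :=
      Finset.single_le_sum (f := fun i => ‖v i‖ ^ 2) (fun i _ => by positivity) (Finset.mem_univ i)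
    have h2 : ∑ i, ‖v i‖ ^ 2 = 1 := hv
    rw [h2] at h1
    nlinarith [norm_nonneg (v i)]
  have hm0 : 0 < m0 := by unfold m0; positivity
  have hwpos : 0 < ∑ i, ‖w i‖ ^ 2 := by
    rcases (Finset.sum_nonneg (fun i _ => by positivity) :
      0 ≤ ∑ i : Fin (k + 1), ‖w i‖ ^ 2).lt_or_eq with h1 | h1
    · exact h1
    · exfalso
      have h2 : ∀ i, w i = 0 := by
        intro i
        have := (Finset.sum_eq_zero_iff_of_nonneg (fun i _ => by positivity)).1 h1.symm i
          (Finset.mem_univ i)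
        simpa using this
      have h3 : (∫ x, mx w x ∂(gam n)) = 0 := by
        have : ∀ x, mx w x = 0 := by
          intro x
          rw [mx_eq (i := 0) (fun j => by rw [h2 j, h2 0])]
          rw [h2 0, inner_zero_left]
        simp [this]
      rw [h3, ← h1] at hw
      simp at hw
  -- normalisation
  have hnorm : ∀ u : Fin (k + 1) → E n, 0 < ∑ i, ‖u i‖ ^ 2 →
      (fun i => (√(∑ i, ‖u i‖ ^ 2))⁻¹ • u i) ∈ S ∧
      F u = √(∑ i, ‖u i‖ ^ 2) * F (fun i => (√(∑ i, ‖u i‖ ^ 2))⁻¹ • u i) := by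
    intro u hu
    have hs : 0 < √(∑ i, ‖u i‖ ^ 2) := Real.sqrt_pos.2 hu
    constructor
    · show ∑ i, ‖(√(∑ i, ‖u i‖ ^ 2))⁻¹ • u i‖ ^ 2 = 1
      have : ∀ i, ‖(√(∑ i, ‖u i‖ ^ 2))⁻¹ • u i‖ ^ 2 = (∑ i, ‖u i‖ ^ 2)⁻¹ * ‖u i‖ ^ 2 := by
        intro i
        rw [norm_smul, mul_pow, norm_inv, inv_pow, Real.norm_of_nonneg hs.le, Real.sq_sqrt hu.le]
      simp only [this]
      rw [← Finset.mul_sum, inv_mul_cancel₀ hu.ne']
    · rw [hFs _ (by positivity), ← mul_assoc, mul_inv_cancel₀ hs.ne', one_mul]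
  have hSne : S.Nonempty := ⟨_, (hnorm w hwpos).1⟩
  obtain ⟨v, hvS, hvmax⟩ := hScomp.exists_isMaxOn hSne hFc.continuousOn
  have hvS' : ∑ i, ‖v i‖ ^ 2 = 1 := hvS
  set s : ℝ := F v with hs
  have hs0 : 0 ≤ s := hF0 v
  -- the optimality inequality
  have hopt : ∀ u : Fin (k + 1) → E n, F u ^ 2 ≤ s ^ 2 * ∑ i, ‖u i‖ ^ 2 := by
    intro u
    rcases (Finset.sum_nonneg (fun i _ => by positivity) :
      0 ≤ ∑ i : Fin (k + 1), ‖u i‖ ^ 2).lt_or_eq with h1 | h1
    · obtain ⟨h2, h3⟩ := hnorm u h1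
      have h4 : F (fun i => (√(∑ i, ‖u i‖ ^ 2))⁻¹ • u i) ≤ s := hvmax h2
      rw [h3, mul_pow, Real.sq_sqrt h1.le, mul_comm]
      have := hF0 (fun i => (√(∑ i, ‖u i‖ ^ 2))⁻¹ • u i)
      gcongr
    · have h2 : ∀ i, u i = 0 := by
        intro i
        have := (Finset.sum_eq_zero_iff_of_nonneg (fun i _ => by positivity)).1 h1.symm i
          (Finset.mem_univ i)
        simpa using this
      have h3 : F u = 0 := by
        have h4 := hFs 0 le_rfl u
        rw [zero_mul] at h4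
        rw [← h4]
        congr 1
        funext i
        rw [h2 i, smul_zero]
      rw [h3, ← h1]
      simp
  have hbig : m0 < s ^ 2 := by
    have h1 := hopt w
    have h2 : m0 * ∑ i, ‖w i‖ ^ 2 < s ^ 2 * ∑ i, ‖w i‖ ^ 2 := lt_of_lt_of_le hw h1
    exact lt_of_mul_lt_mul_right h2 hwpos.le
  -- the configuration
  set z' : Fin (k + 1) → E n := fun i => s • v i with hz'
  set z : Fin (k + 1) → E n := fun i => ∫ x in cell z' i, x ∂(gam n) with hz
  have hz'sq : ∑ i, ‖z' i‖ ^ 2 = s ^ 2 := by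
    have : ∀ i, ‖z' i‖ ^ 2 = s ^ 2 * ‖v i‖ ^ 2 := by
      intro i
      rw [hz', norm_smul, mul_pow, Real.norm_of_nonneg hs0]
    simp only [this]
    rw [← Finset.mul_sum, hvS', mul_one]
  have hFz' : F z' = s ^ 2 := by
    rw [hz', hFs s hs0, ← hs]; ring
  have hcm := cell_meas z'
  have hcd := cell_disj z'
  have hcc := cell_cover z'
  have h1 : F z' = ∑ i, inner ℝ (z' i) (z i) := by
    rw [hF]
    simp only
    rw [integral_partition hcm hcd hcc (integrable_mx z')]
    refine Finset.sum_congr rfl fun i _ => ?_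
    rw [← setIntegral_inner]
    exact setIntegral_congr_fun (hcm i) fun x hx => mx_eq hx.1
  have h2 : ∑ i, ‖z i‖ ^ 2 ≤ F z := by
    have h3 := sum_le_integral_mx hcm hcd hcc z (fun i x => inner ℝ (z i) x)
      (fun i => integrable_inner (z i)) (fun i x _ => le_mx z i x)
    refine le_trans (le_of_eq ?_) h3
    refine Finset.sum_congr rfl fun i _ => ?_
    rw [setIntegral_inner, ← real_inner_self_eq_norm_sq]
  have h3 : ∑ i, ‖z i‖ ^ 2 ≤ s ^ 2 := by
    have h4 := hopt z
    have h5 : 0 ≤ ∑ i, ‖z i‖ ^ 2 := Finset.sum_nonneg (fun i _ => by positivity)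
    have h6 : (∑ i, ‖z i‖ ^ 2) ^ 2 ≤ s ^ 2 * ∑ i, ‖z i‖ ^ 2 :=
      le_trans (by gcongr) h4
    rcases h5.lt_or_eq with h7 | h7
    · rw [sq] at h6
      exact le_of_mul_le_mul_right h6 h7
    · rw [← h7]; positivity
  have hzz : ∀ i, z' i = z i := by
    have h4 : ∑ i, ‖z' i - z i‖ ^ 2 ≤ 0 := by
      have h5 : ∀ i, ‖z' i - z i‖ ^ 2 = ‖z' i‖ ^ 2 - 2 * inner ℝ (z' i) (z i) + ‖z i‖ ^ 2 :=
        fun i => norm_sub_sq_real _ _
      simp only [h5]
      rw [Finset.sum_add_distrib, Finset.sum_sub_distrib, ← Finset.mul_sum, ← h1, hz'sq, hFz']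
      linarith
    intro i
    have h5 : ∑ i, ‖z' i - z i‖ ^ 2 = 0 :=
      le_antisymm h4 (Finset.sum_nonneg (fun i _ => by positivity))
    have := (Finset.sum_eq_zero_iff_of_nonneg (fun i _ => by positivity)).1 h5 i
      (Finset.mem_univ i)
    have h6 : ‖z' i - z i‖ = 0 := by simpa using this
    exact sub_eq_zero.1 (norm_eq_zero.1 h6)
  have hzz' : z' = z := funext hzz
  have hzsq : ∑ i, ‖z i‖ ^ 2 = s ^ 2 := by rw [← hzz', hz'sq]
  refine ⟨⟨z, cell z', hcm, hcd, hcc, fun i x hx t ht => cell_cone z' i x hx t ht,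
    fun i => rfl, ?_, ?_, ?_⟩⟩
  · intro i x hx j
    rw [← hzz j, ← hzz i]
    exact hx.1 j
  · rw [hzsq]; exact hbig
  · intro u
    rw [hzsq]
    exact hopt u

end Vale.Agent.P226
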