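import Vale.Agent.P226.Defs

/-!
# P226: reduction of the dimension

The law of `(<w_i, x>)_i` under the standard Gaussian only depends on the Gram matrix of `w`.
Centring the `w_i` their span has dimension at most `k`, hence embeds isometrically in `R^n`.
-/

open MeasureTheory ProbabilityTheory Real

namespace Vale.Agent.P226

/-- the linear map `x ↦ (<w_i, x>)_i` -/
noncomputable def ev {K n : ℕ} (w : Fin K → E n) (x : E n) : EuclideanSpace ℝ (Fin K) :=
  WithLp.toLp 2 (fun i => inner ℝ (w i) x)

theorem ev_continuous {K n : ℕ} (w : Fin K → E n) : Continuous (ev w) := by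
  unfold ev
  fun_prop

theorem inner_ev {K n : ℕ} (w : Fin K → E n) (x : E n) (t : EuclideanSpace ℝ (Fin K)) :
    inner ℝ (ev w x) t = inner ℝ x (∑ i, t i • w i) := by
  rw [inner_sum, PiLp.inner_apply]
  refine Finset.sum_congr rfl fun i _ => ?_
  rw [inner_smul_right, real_inner_comm (w i) x]
  simp only [ev, RCLike.inner_apply, conj_trivial]

theorem norm_sq_sum {K n : ℕ} (w : Fin K → E n) (t : EuclideanSpace ℝ (Fin K)) :
    ‖∑ i, t i • w i‖ ^ 2 = ∑ i, ∑ j, t i * (t j * inner ℝ (w i) (w j)) := by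
  rw [← real_inner_self_eq_norm_sq, sum_inner]
  refine Finset.sum_congr rfl fun i _ => ?_
  rw [inner_sum]
  refine Finset.sum_congr rfl fun j _ => ?_
  rw [inner_smul_left, inner_smul_right, conj_trivial]

/-- the law of `(<w_i, x>)_i` only depends on the Gram matrix -/
theorem map_ev_eq {K m n : ℕ} (w : Fin K → E m) (w' : Fin K → E n)
    (h : ∀ i j, inner ℝ (w i) (w j) = inner ℝ (w' i) (w' j)) :
    (gam m).map (ev w) = (gam n).map (ev w') := by
  have key : ∀ {n : ℕ} (w : Fin K → E n) (t : EuclideanSpace ℝ (Fin K)),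
      charFun ((gam n).map (ev w)) t = charFun (gam n) (∑ i, t i • w i) := by
    intro n w t
    rw [charFun_apply, charFun_apply, integral_map (ev_continuous w).measurable.aemeasurable
      (by fun_prop)]
    refine integral_congr_ae (Filter.Eventually.of_forall fun x => ?_)
    simp only [inner_ev]
  have : IsProbabilityMeasure ((gam m).map (ev w)) :=
    Measure.isProbabilityMeasure_map (ev_continuous w).measurable.aemeasurable
  have : IsProbabilityMeasure ((gam n).map (ev w')) :=
    Measure.isProbabilityMeasure_map (ev_continuous w').measurable.aemeasurable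
  refine Measure.ext_of_charFun ?_
  funext t
  rw [key, key, charFun_stdGaussian, charFun_stdGaussian]
  congr 3
  have h1 := norm_sq_sum w t
  have h2 := norm_sq_sum w' t
  have h3 : ‖∑ i, t i • w i‖ ^ 2 = ‖∑ i, t i • w' i‖ ^ 2 := by
    rw [h1, h2]
    refine Finset.sum_congr rfl fun i _ => ?_
    refine Finset.sum_congr rfl fun j _ => ?_
    rw [h]
  exact_mod_cast congrArg (fun x : ℝ => (x : ℂ)) h3

/-- the maximum of the coordinates -/
noncomputable def mxc {k : ℕ} (y : EuclideanSpace ℝ (Fin (k + 1))) : ℝ :=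
  Finset.univ.sup' Finset.univ_nonempty (fun i => y i)

theorem mxc_continuous {k : ℕ} : Continuous (mxc (k := k)) := by
  unfold mxc
  exact Continuous.finset_sup'_apply _ (fun i _ => by fun_prop)

theorem mx_eq {k n : ℕ} (w : Fin (k + 1) → E n) (x : E n) : mx w x = mxc (ev w x) := rfl

theorem integral_mx_eq {k m n : ℕ} (w : Fin (k + 1) → E m) (w' : Fin (k + 1) → E n)
    (h : ∀ i j, inner ℝ (w i) (w j) = inner ℝ (w' i) (w' j)) :
    ∫ x, mx w x ∂(gam m) = ∫ x, mx w' x ∂(gam n) := by
  have h1 : ∀ {n : ℕ} (w : Fin (k + 1) → E n),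
      ∫ x, mx w x ∂(gam n) = ∫ y, mxc y ∂((gam n).map (ev w)) := by
    intro n w
    rw [integral_map (ev_continuous w).measurable.aemeasurable
      mxc_continuous.aestronglyMeasurable]
    rfl
  rw [h1, h1, map_ev_eq w w' h]

theorem integrable_inner {n : ℕ} (c : E n) : Integrable (fun x => inner ℝ c x) (gam n) := by
  have : Integrable (fun x : E n => x) (gam n) := IsGaussian.integrable_id
  exact this.const_inner c

theorem integral_inner_zero {n : ℕ} (c : E n) : ∫ x, inner ℝ c x ∂(gam n) = 0 := by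
  have h := integral_inner (𝕜 := ℝ) (IsGaussian.integrable_id (μ := gam n)) c
  have h0 : ∫ x : E n, x ∂(gam n) = 0 := integral_id_stdGaussian (E := E n)
  simp only [id] at h
  rw [h, h0, inner_zero_right]

theorem integrable_mx {k n : ℕ} (w : Fin (k + 1) → E n) : Integrable (mx w) (gam n) := by
  have h1 : ∀ x, ‖mx w x‖ ≤ (∑ i, ‖w i‖) * ‖x‖ := by
    intro x
    rw [Real.norm_eq_abs, abs_le]
    have hi : ∀ i, |inner ℝ (w i) x| ≤ (∑ i, ‖w i‖) * ‖x‖ := by
      intro i
      refine (abs_real_inner_le_norm _ _).trans ?_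
      refine mul_le_mul_of_nonneg_right ?_ (norm_nonneg _)
      exact Finset.single_le_sum (f := fun i => ‖w i‖) (fun j _ => norm_nonneg _)
        (Finset.mem_univ i)
    constructor
    · refine le_trans (neg_le_of_abs_le (hi 0)) ?_
      exact Finset.le_sup' (fun i => inner ℝ (w i) x) (Finset.mem_univ (0 : Fin (k + 1)))
    · refine Finset.sup'_le _ _ fun i _ => ?_
      exact le_of_abs_le (hi i)
  have h2 : Continuous (mx w) := by
    have : mx w = fun x => mxc (ev w x) := rfl
    rw [this]
    exact mxc_continuous.comp (ev_continuous w)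
  have h3 : Integrable (fun x : E n => (∑ i, ‖w i‖) * ‖x‖) (gam n) := by
    have : Integrable (fun x : E n => x) (gam n) := IsGaussian.integrable_id
    exact this.norm.const_mul _
  exact h3.mono' h2.aestronglyMeasurable (Filter.Eventually.of_forall h1)

/-- translating all the vectors does not change the expectation -/
theorem integral_mx_sub {k n : ℕ} (w : Fin (k + 1) → E n) (c : E n) :
    ∫ x, mx (fun i => w i - c) x ∂(gam n) = ∫ x, mx w x ∂(gam n) := by
  have h1 : ∀ x, mx (fun i => w i - c) x = mx w x - inner ℝ c x := by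
    intro x
    unfold mx
    apply le_antisymm
    · refine Finset.sup'_le _ _ fun i _ => ?_
      have := Finset.le_sup' (fun i => inner ℝ (w i) x) (Finset.mem_univ i)
      simp only [inner_sub_left]
      linarith
    · rw [sub_le_iff_le_add]
      refine Finset.sup'_le _ _ fun i _ => ?_
      have := Finset.le_sup' (fun i => inner ℝ (w i - c) x) (Finset.mem_univ i)
      simp only [inner_sub_left] at this ⊢
      linarith
  simp only [h1]
  rw [integral_sub (integrable_mx w) (integrable_inner c), integral_inner_zero, sub_zero]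

/-- vectors summing to zero have the Gram matrix of a family in `R^n`, `n ≥ k` -/
theorem exists_gram {k n m : ℕ} (hkn : k ≤ n) (w : Fin (k + 1) → E m) (h0 : ∑ i, w i = 0) :
    ∃ w' : Fin (k + 1) → E n, ∀ i j, inner ℝ (w i) (w j) = inner ℝ (w' i) (w' j) := by
  set S : Submodule ℝ (E m) := Submodule.span ℝ (Set.range (fun i : Fin k => w i.succ)) with hS
  have hd : Module.finrank ℝ S ≤ n := by
    refine le_trans ?_ hkn
    have := finrank_range_le_card (R := ℝ) (fun i : Fin k => w i.succ)
    simpa [Set.finrank] using this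
  have hmem : ∀ i, w i ∈ S := by
    intro i
    refine Fin.cases ?_ (fun j => ?_) i
    · rw [Fin.sum_univ_succ] at h0
      have : w 0 = -∑ i : Fin k, w i.succ := eq_neg_of_add_eq_zero_left h0
      rw [this]
      exact S.neg_mem (S.sum_mem fun j _ => Submodule.subset_span ⟨j, rfl⟩)
    · exact Submodule.subset_span ⟨j, rfl⟩
  let b := stdOrthonormalBasis ℝ S
  let v : Fin (Module.finrank ℝ S) → E n := fun j => EuclideanSpace.basisFun (Fin n) ℝ
    (Fin.castLE hd j)
  have hv : Orthonormal ℝ v :=
    (EuclideanSpace.basisFun (Fin n) ℝ).orthonormal.comp _ (Fin.castLE_injective hd)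
  refine ⟨fun i => ∑ j, inner ℝ (b j) (⟨w i, hmem i⟩ : S) • v j, fun i j => ?_⟩
  rw [hv.inner_sum]
  have h1 := b.sum_inner_mul_inner (⟨w i, hmem i⟩ : S) (⟨w j, hmem j⟩ : S)
  have h2 : inner ℝ (⟨w i, hmem i⟩ : S) (⟨w j, hmem j⟩ : S) = inner ℝ (w i) (w j) := rfl
  rw [← h2, ← h1]
  refine Finset.sum_congr rfl fun l _ => ?_
  rw [conj_trivial, real_inner_comm]

theorem reduce {k n : ℕ} (hkn : k ≤ n) (h : Ineq k n) (m : ℕ) : Ineq k m := by
  intro w
  set c : E m := ((k : ℝ) + 1)⁻¹ • ∑ i, w i with hc
  have hk : ((k : ℝ) + 1) ≠ 0 := by positivity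
  have hsum : ∑ i, (w i - c) = 0 := by
    rw [Finset.sum_sub_distrib, Finset.sum_const, Finset.card_univ, Fintype.card_fin, hc,
      ← Nat.cast_smul_eq_nsmul ℝ, smul_smul]
    push_cast
    rw [mul_inv_cancel₀ hk, one_smul, sub_self]
  obtain ⟨w', hw'⟩ := exists_gram hkn (fun i => w i - c) hsum
  have h1 := h w'
  rw [← integral_mx_eq (fun i => w i - c) w' hw', integral_mx_sub] at h1
  refine h1.trans ?_
  have hm0 : 0 ≤ m0 := by unfold m0; positivity
  refine mul_le_mul_of_nonneg_left ?_ hm0
  have h2 : ∀ i, ‖w' i‖ ^ 2 = ‖w i - c‖ ^ 2 := by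
    intro i
    rw [← real_inner_self_eq_norm_sq, ← real_inner_self_eq_norm_sq, ← hw' i i]
  simp only [h2]
  have h3 : ∀ i, ‖w i‖ ^ 2 = ‖w i - c‖ ^ 2 + 2 * inner ℝ (w i - c) c + ‖c‖ ^ 2 := by
    intro i
    have := norm_add_sq_real (w i - c) c
    rw [sub_add_cancel] at this
    exact this
  simp only [h3]
  rw [Finset.sum_add_distrib, Finset.sum_add_distrib, ← Finset.mul_sum, ← sum_inner, hsum,
    inner_zero_left]
  simp only [Finset.sum_const, Finset.card_univ, Fintype.card_fin, nsmul_eq_mul]
  have : 0 ≤ ((k + 1 : ℕ) : ℝ) * ‖c‖ ^ 2 := by positivity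
  linarith

end Vale.Agent.P226
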