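import Vale.Agent.P226.Defs
import Vale.Agent.P226.OptEx
import Vale.Agent.P226.Facts
import Vale.Agent.P226.Reduce
import Vale.Agent.P226.Base

/-!
# P226: from the inequality for vectors to the inequality for partitions
-/

open MeasureTheory ProbabilityTheory Real

namespace Vale.Agent.P226

theorem m0_pos : 0 < m0 := by unfold m0; positivity

/-- fewer vectors: add a zero vector -/
theorem ineq_mono {k n : ℕ} (h : Ineq (k + 1) n) : Ineq k n := by
  intro w
  have h1 := h (Fin.snoc (α := fun _ => E n) w 0)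
  have h2 : ∑ i, ‖(Fin.snoc (α := fun _ => E n) w 0 : Fin (k + 2) → E n) i‖ ^ 2
      = ∑ i, ‖w i‖ ^ 2 := by
    rw [Fin.sum_univ_castSucc]
    simp [Fin.snoc_castSucc, Fin.snoc_last]
  have h3 : ∀ x, mx w x ≤ mx (Fin.snoc (α := fun _ => E n) w 0 : Fin (k + 2) → E n) x := by
    intro x
    refine OptAux.mx_le fun i => ?_
    have := OptAux.le_mx (Fin.snoc (α := fun _ => E n) w 0 : Fin (k + 2) → E n) i.castSucc x
    simpa [Fin.snoc_castSucc] using this
  have h4 : ∫ x, mx w x ∂(gam n)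
      ≤ ∫ x, mx (Fin.snoc (α := fun _ => E n) w 0 : Fin (k + 2) → E n) x ∂(gam n) :=
    integral_mono (OptAux.integrable_mx _) (OptAux.integrable_mx _) h3
  have h5 := OptAux.integral_mx_nonneg w
  rw [h2] at h1
  exact le_trans (pow_le_pow_left₀ h5 h4 2) h1

/-- the partition form -/
theorem partition_of_ineq {k n : ℕ} (h : Ineq k n) (A : Fin (k + 1) → Set (E n))
    (hm : ∀ i, MeasurableSet (A i)) (hd : ∀ i j, i ≠ j → Disjoint (A i) (A j))
    (hc : ∀ x, ∃ i, x ∈ A i) : ∑ i, ‖∫ x in A i, x ∂(gam n)‖ ^ 2 ≤ m0 := by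
  set z : Fin (k + 1) → E n := fun i => ∫ x in A i, x ∂(gam n) with hz
  have h1 := OptAux.sum_le_integral_mx hm hd hc z (fun i x => inner ℝ (z i) x)
    (fun i => OptAux.integrable_inner (z i)) (fun i x _ => OptAux.le_mx z i x)
  have h2 : ∀ i, ∫ x in A i, inner ℝ (z i) x ∂(gam n) = ‖z i‖ ^ 2 := by
    intro i
    rw [OptAux.setIntegral_inner, ← real_inner_self_eq_norm_sq]
  rw [Finset.sum_congr rfl (fun i _ => h2 i)] at h1
  have h3 := h z
  have hS : 0 ≤ ∑ i, ‖z i‖ ^ 2 := Finset.sum_nonneg fun i _ => by positivity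
  have h4 : (∑ i, ‖z i‖ ^ 2) ^ 2 ≤ m0 * ∑ i, ‖z i‖ ^ 2 := le_trans (pow_le_pow_left₀ hS h1 2) h3
  rcases eq_or_lt_of_le hS with h0 | h0
  · change ∑ i, ‖z i‖ ^ 2 ≤ m0
    rw [← h0]; exact m0_pos.le
  · change ∑ i, ‖z i‖ ^ 2 ≤ m0
    nlinarith

end Vale.Agent.P226
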