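import Vale.Agent.P226.OM

/-!
# P226, piece GL: the half-space bound in dual form
-/

open MeasureTheory ProbabilityTheory Real

namespace Vale.Agent.P226

theorem integrableOn_mul_exp (t : ℝ) :
    IntegrableOn (fun s : ℝ => s * exp (-s ^ 2 / 2)) (Set.Ioi t) := by
  have h := integrable_mul_exp_neg_mul_sq (b := 1 / 2) (by norm_num)
  refine (h.congr (Filter.Eventually.of_forall fun s => ?_)).integrableOn
  simp only
  congr 2
  ring

theorem integrableOn_exp (t : ℝ) :
    IntegrableOn (fun s : ℝ => exp (-s ^ 2 / 2)) (Set.Ioi t) := by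
  have h := integrable_exp_neg_mul_sq (b := 1 / 2) (by norm_num)
  refine (h.congr (Filter.Eventually.of_forall fun s => ?_)).integrableOn
  simp only
  congr 1
  ring

theorem integral_mul_exp_Ioi (t : ℝ) :
    ∫ s in Set.Ioi t, s * exp (-s ^ 2 / 2) = exp (-t ^ 2 / 2) := by
  have h := integral_Ioi_of_hasDerivAt_of_tendsto (f := fun s : ℝ => -exp (-s ^ 2 / 2))
    (f' := fun s : ℝ => s * exp (-s ^ 2 / 2)) (a := t) (m := 0) ?_ ?_ (integrableOn_mul_exp t) ?_
  · rw [h]; ring
  · exact Continuous.continuousWithinAt (by fun_prop)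
  · intro x _
    have e1 : HasDerivAt (fun s : ℝ => -s ^ 2 / 2) (-x) x := by
      refine (((hasDerivAt_id x).pow 2).neg.div_const 2).congr_deriv ?_
      simp only [id]
      norm_num
      ring
    refine (e1.exp.neg).congr_deriv ?_
    ring
  · rw [← neg_zero]
    refine Filter.Tendsto.neg ?_
    refine tendsto_exp_atBot.comp ?_
    have : Filter.Tendsto (fun s : ℝ => s ^ 2 / 2) Filter.atTop Filter.atTop :=
      (Filter.tendsto_pow_atTop (by norm_num)).atTop_div_const (by norm_num)
    refine (Filter.tendsto_neg_atTop_atBot.comp this).congr fun s => ?_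
    simp only [Function.comp]
    ring

theorem integral_sub_mul_exp_Ioi (t : ℝ) :
    ∫ s in Set.Ioi t, (s - t) * exp (-s ^ 2 / 2)
      = exp (-t ^ 2 / 2) - t * (∫ s in Set.Ioi t, exp (-s ^ 2 / 2)) := by
  have : ∀ s : ℝ, (s - t) * exp (-s ^ 2 / 2) = s * exp (-s ^ 2 / 2) - t * exp (-s ^ 2 / 2) :=
    fun s => by ring
  simp_rw [this]
  rw [integral_sub (integrableOn_mul_exp t) ((integrableOn_exp t).const_mul t),
    integral_mul_exp_Ioi, integral_const_mul]

theorem integral_max_gaussian (t : ℝ) :
    √(2 * π) * ∫ s, max (s - t) 0 ∂(gaussianReal 0 1)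
      = exp (-t ^ 2 / 2) - t * (∫ s in Set.Ioi t, exp (-s ^ 2 / 2)) := by
  rw [integral_gaussianReal_eq_integral_smul (by norm_num), ← integral_sub_mul_exp_Ioi,
    ← integral_const_mul, ← integral_indicator measurableSet_Ioi]
  refine integral_congr_ae (Filter.Eventually.of_forall fun s => ?_)
  have hp : (0 : ℝ) < √(2 * π) := sqrt_pos.mpr (by positivity)
  simp only [gaussianPDFReal, NNReal.coe_one, mul_one, sub_zero, smul_eq_mul]
  by_cases hs : t < s
  · rw [Set.indicator_of_mem (by exact hs), max_eq_left (by linarith)]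
    field_simp
  · rw [Set.indicator_of_notMem (by exact hs), max_eq_right (by linarith)]
    ring

/-- the half-space bound in dual form -/
theorem gauss_line {n : ℕ} (A : Set (E n)) (hA : MeasurableSet A) (t : ℝ) (ht : 0 ≤ t) :
    √(2 * π) * ‖∫ x in A, x ∂(gam n)‖
      ≤ exp (-t ^ 2 / 2) - t * (∫ s in Set.Ioi t, exp (-s ^ 2 / 2))
        + √(2 * π) * t * (gam n).real A := by
  have hp : (0 : ℝ) < √(2 * π) := sqrt_pos.mpr (by positivity)
  have hnn : 0 ≤ √(2 * π) * t * (gam n).real A := by positivity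
  set z : E n := ∫ x in A, x ∂(gam n) with hz
  rcases eq_or_ne z 0 with h0 | h0
  · rw [h0, norm_zero, mul_zero, ← integral_sub_mul_exp_Ioi]
    have : 0 ≤ ∫ s in Set.Ioi t, (s - t) * exp (-s ^ 2 / 2) := by
      refine setIntegral_nonneg measurableSet_Ioi fun s hs => ?_
      have : t < s := hs
      have := exp_pos (-s ^ 2 / 2)
      nlinarith
    linarith
  have hz0 : ‖z‖ ≠ 0 := norm_ne_zero_iff.mpr h0
  set e : E n := ‖z‖⁻¹ • z with he
  have he1 : ‖e‖ = 1 := by
    rw [he, norm_smul, norm_inv, norm_norm, inv_mul_cancel₀ hz0]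
  have hint : Integrable (fun x : E n => x) (gam n) := IsGaussian.integrable_id
  have hinte : Integrable (fun x : E n => inner ℝ e x) (gam n) := hint.const_inner e
  have h1 : ‖z‖ = ∫ x in A, inner ℝ e x ∂(gam n) := by
    rw [integral_inner hint.integrableOn e, ← hz, he, real_inner_smul_left,
      real_inner_self_eq_norm_sq]
    field_simp
  have h2 : ∫ x in A, inner ℝ e x ∂(gam n)
      = (∫ x in A, (inner ℝ e x - t) ∂(gam n)) + t * (gam n).real A := by
    rw [integral_sub hinte.integrableOn (integrable_const _).integrableOn]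
    simp [mul_comm]
  have hmaxint : Integrable (fun x : E n => max (inner ℝ e x - t) 0) (gam n) :=
    (hinte.sub (integrable_const t)).pos_part
  have h3 : ∫ x in A, (inner ℝ e x - t) ∂(gam n) ≤ ∫ x, max (inner ℝ e x - t) 0 ∂(gam n) := by
    calc ∫ x in A, (inner ℝ e x - t) ∂(gam n)
        ≤ ∫ x in A, max (inner ℝ e x - t) 0 ∂(gam n) :=
          integral_mono (hinte.sub (integrable_const t)).integrableOn hmaxint.integrableOn
            fun x => le_max_left _ _
      _ ≤ ∫ x, max (inner ℝ e x - t) 0 ∂(gam n) :=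
          setIntegral_le_integral hmaxint (Filter.Eventually.of_forall fun x => le_max_right _ _)
  have h4 : ∫ x, max (inner ℝ e x - t) 0 ∂(gam n)
      = ∫ s, max (s - t) 0 ∂(gaussianReal 0 1) := by
    rw [← map_unit _ he1, integral_map (Measurable.aemeasurable (by fun_prop))
      (Measurable.aestronglyMeasurable (by fun_prop))]
  have h5 := integral_max_gaussian t
  rw [← h4] at h5
  rw [← h5]
  have h6 : ‖z‖ ≤ (∫ x, max (inner ℝ e x - t) 0 ∂(gam n)) + t * (gam n).real A := by
    rw [h1, h2]; linarith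
  nlinarith

end Vale.Agent.P226
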