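import Vale.Agent.P226.GaussLine

/-!
# P226, piece GLN: numerical tangent lines from the half-space bound
-/

open MeasureTheory ProbabilityTheory Real

namespace Vale.Agent.P226

/-- Taylor polynomial of `exp (-y)` -/
noncomputable def tay (n : ℕ) (y : ℝ) : ℝ := ∑ k ∈ Finset.range (n + 1), (-y) ^ k / (k.factorial : ℝ)

theorem hasDerivAt_tay (n : ℕ) (y : ℝ) : HasDerivAt (tay (n + 1)) (-tay n y) y := by
  have h : ∀ k ∈ Finset.range (n + 1 + 1), HasDerivAt (fun y : ℝ => (-y) ^ k / (k.factorial : ℝ))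
      (((k : ℝ) * (-y) ^ (k - 1) * (-1)) / (k.factorial : ℝ)) y := by
    intro k _
    exact (((hasDerivAt_id y).neg).pow k).div_const _
  have h2 := HasDerivAt.fun_sum h
  refine h2.congr_deriv ?_
  rw [Finset.sum_range_succ']
  simp only [Nat.cast_zero, zero_mul, zero_div, add_zero]
  unfold tay
  rw [← Finset.sum_neg_distrib]
  refine Finset.sum_congr rfl fun k _ => ?_
  have : ((k + 1 : ℕ).factorial : ℝ) = (k + 1) * (k.factorial : ℝ) := by
    rw [Nat.factorial_succ]; push_cast; ring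
  rw [this]
  have h3 : (k.factorial : ℝ) ≠ 0 := by positivity
  have h4 : ((k : ℝ) + 1) ≠ 0 := by positivity
  push_cast
  field_simp

theorem tay_sign (n : ℕ) : ∀ y : ℝ, 0 ≤ y → 0 ≤ (-1) ^ n * (tay n y - exp (-y)) := by
  induction n with
  | zero =>
    intro y hy
    have : exp (-y) ≤ 1 := by
      rw [exp_le_one_iff]; linarith
    simp [tay]
    linarith
  | succ n ih =>
    intro y hy
    have hd : ∀ x : ℝ, HasDerivAt (fun y : ℝ => (-1) ^ (n + 1) * (tay (n + 1) y - exp (-y)))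
        ((-1) ^ n * (tay n x - exp (-x))) x := by
      intro x
      have h1 := (((hasDerivAt_tay n x).sub ((hasDerivAt_id x).neg.exp)).const_mul
        ((-1 : ℝ) ^ (n + 1)))
      refine h1.congr_deriv ?_
      simp only [Pi.neg_apply, id_eq]
      ring
    have hmono : MonotoneOn (fun y : ℝ => (-1) ^ (n + 1) * (tay (n + 1) y - exp (-y)))
        (Set.Ici 0) := by
      refine monotoneOn_of_deriv_nonneg (convex_Ici 0) ?_ ?_ ?_
      · exact fun x _ => (hd x).continuousAt.continuousWithinAt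
      · exact fun x _ => (hd x).differentiableAt.differentiableWithinAt
      · intro x hx
        rw [interior_Ici] at hx
        rw [(hd x).deriv]
        exact ih x (le_of_lt hx)
    have h0 : (fun y : ℝ => (-1) ^ (n + 1) * (tay (n + 1) y - exp (-y))) 0 = 0 := by
      simp [tay, Finset.sum_range_succ']
    have := hmono (Set.mem_Ici.mpr le_rfl) (Set.mem_Ici.mpr hy) hy
    rw [h0] at this
    exact this

theorem exp_neg_le_tay (m : ℕ) {y : ℝ} (hy : 0 ≤ y) : exp (-y) ≤ tay (2 * m) y := by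
  have := tay_sign (2 * m) y hy
  rw [pow_mul] at this
  norm_num at this
  linarith

/-- `∫_0^t e^{-s^2/2} ds` bounded by the integrated Taylor polynomial -/
theorem integral_exp_le (m : ℕ) {t : ℝ} (ht : 0 ≤ t) :
    ∫ s in (0 : ℝ)..t, exp (-s ^ 2 / 2)
      ≤ ∑ k ∈ Finset.range (2 * m + 1), (-1) ^ k * t ^ (2 * k + 1) /
        (2 ^ k * (k.factorial : ℝ) * (2 * k + 1)) := by
  have h1 : ∫ s in (0 : ℝ)..t, exp (-s ^ 2 / 2) ≤ ∫ s in (0 : ℝ)..t, tay (2 * m) (s ^ 2 / 2) := by
    refine intervalIntegral.integral_mono_on ht (Continuous.intervalIntegrable (by fun_prop) _ _)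
      (Continuous.intervalIntegrable (by unfold tay; fun_prop) _ _) fun s _ => ?_
    have : -s ^ 2 / 2 = -(s ^ 2 / 2) := by ring
    rw [this]
    exact exp_neg_le_tay m (by positivity)
  refine h1.trans (le_of_eq ?_)
  unfold tay
  rw [intervalIntegral.integral_finsetSum
    (fun k _ => Continuous.intervalIntegrable (by fun_prop) _ _)]
  refine Finset.sum_congr rfl fun k _ => ?_
  have h2 : ∀ s : ℝ, (-(s ^ 2 / 2)) ^ k / (k.factorial : ℝ)
      = ((-1) ^ k / (2 ^ k * (k.factorial : ℝ))) * s ^ (2 * k) := by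
    intro s
    rw [neg_pow, div_pow, ← pow_mul]
    field_simp
  simp_rw [h2]
  rw [intervalIntegral.integral_const_mul, integral_pow]
  have h3 : (k.factorial : ℝ) ≠ 0 := by positivity
  have h4 : (2 * (k : ℝ) + 1) ≠ 0 := by positivity
  push_cast
  rw [zero_pow (by omega), sub_zero]
  field_simp

theorem integral_Ioi_zero_exp : ∫ s in Set.Ioi (0 : ℝ), exp (-s ^ 2 / 2) = √(π / 2) := by
  have h := integral_gaussian_Ioi (1 / 2)
  have h2 : ∀ s : ℝ, exp (-s ^ 2 / 2) = exp (-(1 / 2) * s ^ 2) := by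
    intro s; congr 1; ring
  simp_rw [h2]
  rw [h]
  have : π / (1 / 2) = 2 ^ 2 * (π / 2) := by ring
  rw [this, sqrt_mul (by norm_num), sqrt_sq (by norm_num)]
  ring

theorem integral_Ioi_exp {t : ℝ} (ht : 0 ≤ t) :
    ∫ s in Set.Ioi t, exp (-s ^ 2 / 2) = √(π / 2) - ∫ s in (0 : ℝ)..t, exp (-s ^ 2 / 2) := by
  have h := intervalIntegral.integral_interval_add_Ioi (integrableOn_exp 0)
    (integrableOn_exp t)
  rw [← integral_Ioi_zero_exp, ← h]
  ring

theorem sqrt_pi_div_two_lb : (12533141 / 10000000 : ℝ) ≤ √(π / 2) := by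
  apply le_sqrt_of_sq_le
  have := pi_gt_d20
  norm_num at this ⊢
  linarith

theorem sqrt_two_pi_ub : √(2 * π) ≤ 25066283 / 10000000 := by
  rw [sqrt_le_left (by norm_num)]
  have := pi_lt_d20
  norm_num at this ⊢
  linarith

/-- the generic numerical line -/
theorem line_gen {n : ℕ} (A : Set (E n)) (hA : MeasurableSet A) (t a b : ℝ) (ht : 0 ≤ t) (m : ℕ)
    (ha : 25066283 / 10000000 * t ≤ a)
    (hb : tay (2 * m) (t ^ 2 / 2) - t * (12533141 / 10000000 -
      ∑ k ∈ Finset.range (2 * m + 1), (-1) ^ k * t ^ (2 * k + 1) /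
        (2 ^ k * (k.factorial : ℝ) * (2 * k + 1))) ≤ b) :
    √(2 * π) * ‖∫ x in A, x ∂(gam n)‖ ≤ a * (gam n).real A + b := by
  have h := gauss_line A hA t ht
  have h1 : exp (-t ^ 2 / 2) ≤ tay (2 * m) (t ^ 2 / 2) := by
    have : -t ^ 2 / 2 = -(t ^ 2 / 2) := by ring
    rw [this]
    exact exp_neg_le_tay m (by positivity)
  have h2 := integral_Ioi_exp ht
  have h3 := integral_exp_le m ht
  have h4 := sqrt_pi_div_two_lb
  have h5 : √(2 * π) * t ≤ a := (mul_le_mul_of_nonneg_right sqrt_two_pi_ub ht).trans ha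
  have hp : 0 ≤ (gam n).real A := measureReal_nonneg
  have h6 := mul_le_mul_of_nonneg_right h5 hp
  have h7 : t * (12533141 / 10000000 -
      ∑ k ∈ Finset.range (2 * m + 1), (-1) ^ k * t ^ (2 * k + 1) /
        (2 ^ k * (k.factorial : ℝ) * (2 * k + 1))) ≤ t * ∫ s in Set.Ioi t, exp (-s ^ 2 / 2) := by
    refine mul_le_mul_of_nonneg_left ?_ ht
    rw [h2]
    linarith
  linarith

theorem hasDerivAt_mills {s : ℝ} (hs : 0 < s) :
    HasDerivAt (fun s : ℝ => -(exp (-s ^ 2 / 2) * (1 / s - 1 / s ^ 3)))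
      (exp (-s ^ 2 / 2) * (1 - 3 / s ^ 4)) s := by
  have e1 : HasDerivAt (fun s : ℝ => -s ^ 2 / 2) (-s) s := by
    refine (((hasDerivAt_id s).pow 2).neg.div_const 2).congr_deriv ?_
    simp only [id]
    norm_num
    ring
  have e2 : HasDerivAt (fun s : ℝ => 1 / s - 1 / s ^ 3) (-1 / s ^ 2 + 3 / s ^ 4) s := by
    have h1 := (hasDerivAt_inv hs.ne')
    have h2 := ((hasDerivAt_id s).pow 3).inv (pow_ne_zero 3 hs.ne')
    have h3 := h1.sub h2
    have h4 : HasDerivAt (fun s : ℝ => s⁻¹ - (s ^ 3)⁻¹) (-1 / s ^ 2 + 3 / s ^ 4) s := by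
      refine h3.congr_deriv ?_
      simp only [id, Pi.pow_apply]
      field_simp
      norm_num
      ring
    simpa [one_div] using h4
  refine ((e1.exp.mul e2).neg).congr_deriv ?_
  field_simp
  ring

theorem mills_lower {t : ℝ} (ht : 3 / 2 ≤ t) :
    exp (-t ^ 2 / 2) * (1 / t - 1 / t ^ 3) ≤ ∫ s in Set.Ioi t, exp (-s ^ 2 / 2) := by
  have ht0 : 0 < t := by linarith
  have hnn : ∀ s ∈ Set.Ioi t, 0 ≤ exp (-s ^ 2 / 2) * (1 - 3 / s ^ 4) := by
    intro s hs
    have hs' : t < s := hs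
    have hs2 : 3 / 2 ≤ s := by linarith
    have : (3 : ℝ) ≤ s ^ 4 := by
      have : (3 / 2 : ℝ) ^ 4 ≤ s ^ 4 := pow_le_pow_left₀ (by norm_num) hs2 4
      norm_num at this
      linarith
    have h2 : 3 / s ^ 4 ≤ 1 := by
      rw [div_le_one (by positivity)]; exact this
    have := exp_pos (-s ^ 2 / 2)
    nlinarith
  have htend : Filter.Tendsto (fun s : ℝ => -(exp (-s ^ 2 / 2) * (1 / s - 1 / s ^ 3)))
      Filter.atTop (nhds 0) := by
    have h1 : Filter.Tendsto (fun s : ℝ => exp (-s ^ 2 / 2)) Filter.atTop (nhds 0) := by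
      refine tendsto_exp_atBot.comp ?_
      have : Filter.Tendsto (fun s : ℝ => s ^ 2 / 2) Filter.atTop Filter.atTop :=
        (Filter.tendsto_pow_atTop (by norm_num)).atTop_div_const (by norm_num)
      refine (Filter.tendsto_neg_atTop_atBot.comp this).congr fun s => ?_
      simp only [Function.comp]
      ring
    have h2 : Filter.Tendsto (fun s : ℝ => 1 / s - 1 / s ^ 3) Filter.atTop (nhds (0 - 0)) := by
      refine Filter.Tendsto.sub ?_ ?_
      · exact (tendsto_inv_atTop_zero (𝕜 := ℝ)).congr fun s => (one_div s).symm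
      · have h3 : Filter.Tendsto (fun s : ℝ => s ^ 3) Filter.atTop Filter.atTop :=
          Filter.tendsto_pow_atTop (by norm_num)
        exact ((tendsto_inv_atTop_zero (𝕜 := ℝ)).comp h3).congr fun s => (one_div (s ^ 3)).symm
    have := (h1.mul h2).neg
    simpa using this
  have hd : ∀ x ∈ Set.Ioi t, HasDerivAt (fun s : ℝ => -(exp (-s ^ 2 / 2) * (1 / s - 1 / s ^ 3)))
      (exp (-x ^ 2 / 2) * (1 - 3 / x ^ 4)) x := fun x hx =>
    hasDerivAt_mills (lt_trans ht0 hx)
  have hcont : ContinuousWithinAt (fun s : ℝ => -(exp (-s ^ 2 / 2) * (1 / s - 1 / s ^ 3)))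
      (Set.Ici t) t := (hasDerivAt_mills ht0).continuousAt.continuousWithinAt
  have hint := integrableOn_Ioi_deriv_of_nonneg hcont hd hnn htend
  have heq := integral_Ioi_of_hasDerivAt_of_nonneg hcont hd hnn htend
  have : exp (-t ^ 2 / 2) * (1 / t - 1 / t ^ 3)
      = ∫ s in Set.Ioi t, exp (-s ^ 2 / 2) * (1 - 3 / s ^ 4) := by
    rw [heq]; ring
  rw [this]
  refine setIntegral_mono_on hint (integrableOn_exp t) measurableSet_Ioi fun s hs => ?_
  have hs0 : 0 < s := lt_trans ht0 hs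
  have h5 : 0 < 3 / s ^ 4 := by positivity
  have := exp_pos (-s ^ 2 / 2)
  nlinarith

theorem exp_small {t : ℝ} (ht : 1652 / 1000 ≤ t) : exp (-t ^ 2 / 2) ≤ 1735 / 10000 * t := by
  have h1 : exp (-t ^ 2 / 2) ≤ exp (-(13 / 10)) := by
    apply exp_le_exp.mpr
    nlinarith
  have h2 : exp (-(13 / 10)) ≤ tay (2 * 3) (13 / 10) := exp_neg_le_tay 3 (by norm_num)
  have h3 : tay (2 * 3) (13 / 10) ≤ 1735 / 10000 * (1652 / 1000) := by
    norm_num [tay, Finset.sum_range_succ, Nat.factorial]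
  linarith

theorem gauss_small {n : ℕ} (A : Set (E n)) (hA : MeasurableSet A)
    (hX : √(2 * π) * ‖∫ x in A, x ∂(gam n)‖ ≤ 21 / 100) :
    (√(2 * π) * ‖∫ x in A, x ∂(gam n)‖) ^ 2 ≤ 174 / 100 * (gam n).real A := by
  set X := √(2 * π) * ‖∫ x in A, x ∂(gam n)‖ with hXdef
  have hX0 : 0 ≤ X := by positivity
  have hp : 0 ≤ (gam n).real A := measureReal_nonneg
  rcases hX0.eq_or_lt with h0 | h0
  · rw [← h0]; simp
  set t := 347 / 1000 / X with ht
  have hXt : t * X = 347 / 1000 := by rw [ht]; field_simp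
  have htl : 1652 / 1000 ≤ t := by
    rw [ht, le_div_iff₀ h0]; linarith
  have ht0 : 0 < t := by linarith
  have h := gauss_line A hA t ht0.le
  rw [← hXdef] at h
  have h1 := mills_lower (t := t) (by linarith)
  have h2 := exp_small htl
  have h3 : exp (-t ^ 2 / 2) - t * (∫ s in Set.Ioi t, exp (-s ^ 2 / 2)) ≤ exp (-t ^ 2 / 2) / t ^ 2 := by
    have : t * (exp (-t ^ 2 / 2) * (1 / t - 1 / t ^ 3))
        = exp (-t ^ 2 / 2) - exp (-t ^ 2 / 2) / t ^ 2 := by
      field_simp
    nlinarith [mul_le_mul_of_nonneg_left h1 ht0.le]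
  have h4 : exp (-t ^ 2 / 2) / t ^ 2 ≤ X / 2 := by
    rw [div_le_iff₀ (by positivity)]
    have : X / 2 * t ^ 2 = 1735 / 10000 * t := by
      have : X / 2 * t ^ 2 = (t * X) * t / 2 := by ring
      rw [this, hXt]; ring
    rw [this]; exact h2
  have h5 : X ≤ X / 2 + √(2 * π) * t * (gam n).real A := by linarith
  have h6 : √(2 * π) * t * (gam n).real A ≤ 25066283 / 10000000 * t * (gam n).real A := by
    have := sqrt_two_pi_ub
    exact mul_le_mul_of_nonneg_right (mul_le_mul_of_nonneg_right this ht0.le) hp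
  have h7 : X ≤ 2 * (25066283 / 10000000 * t * (gam n).real A) := by linarith
  have h8 : X * X ≤ 2 * (25066283 / 10000000 * t * (gam n).real A) * X :=
    mul_le_mul_of_nonneg_right h7 h0.le
  have h9 : 2 * (25066283 / 10000000 * t * (gam n).real A) * X
      = 2 * (25066283 / 10000000) * (t * X) * (gam n).real A := by ring
  rw [h9, hXt] at h8
  nlinarith

theorem gauss_lines {n : ℕ} (A : Set (E n)) (hA : MeasurableSet A) :
    √(2 * π) * ‖∫ x in A, x ∂(gam n)‖ ≤ 87732 / 100000 * (gam n).real A + 62200 / 100000 ∧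
    √(2 * π) * ‖∫ x in A, x ∂(gam n)‖ ≤ 112799 / 100000 * (gam n).real A + 53561 / 100000 ∧
    √(2 * π) * ‖∫ x in A, x ∂(gam n)‖ ≤ 137865 / 100000 * (gam n).real A + 45825 / 100000 ∧
    √(2 * π) * ‖∫ x in A, x ∂(gam n)‖ ≤ 162931 / 100000 * (gam n).real A + 38949 / 100000 ∧
    √(2 * π) * ‖∫ x in A, x ∂(gam n)‖ ≤ 225597 / 100000 * (gam n).real A + 25177 / 100000 ∧
    √(2 * π) * ‖∫ x in A, x ∂(gam n)‖ ≤ 275730 / 100000 * (gam n).real A + 17203 / 100000 ∧
    √(2 * π) * ‖∫ x in A, x ∂(gam n)‖ ≤ 325862 / 100000 * (gam n).real A + 11415 / 100000 ∧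
    √(2 * π) * ‖∫ x in A, x ∂(gam n)‖ ≤ 526392 / 100000 * (gam n).real A + 1624 / 100000 ∧
    √(2 * π) * ‖∫ x in A, x ∂(gam n)‖ ≤ 626658 / 100000 * (gam n).real A + 505 / 100000 := by
  refine ⟨?_, ?_, ?_, ?_, ?_, ?_, ?_, ?_, ?_⟩
  · exact line_gen A hA (35 / 100) _ _ (by norm_num) 3 (by norm_num)
      (by norm_num [tay, Finset.sum_range_succ, Nat.factorial])
  · exact line_gen A hA (45 / 100) _ _ (by norm_num) 3 (by norm_num)
      (by norm_num [tay, Finset.sum_range_succ, Nat.factorial])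
  · exact line_gen A hA (55 / 100) _ _ (by norm_num) 3 (by norm_num)
      (by norm_num [tay, Finset.sum_range_succ, Nat.factorial])
  · exact line_gen A hA (65 / 100) _ _ (by norm_num) 3 (by norm_num)
      (by norm_num [tay, Finset.sum_range_succ, Nat.factorial])
  · exact line_gen A hA (9 / 10) _ _ (by norm_num) 4 (by norm_num)
      (by norm_num [tay, Finset.sum_range_succ, Nat.factorial])
  · exact line_gen A hA (11 / 10) _ _ (by norm_num) 5 (by norm_num)
      (by norm_num [tay, Finset.sum_range_succ, Nat.factorial])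
  · exact line_gen A hA (13 / 10) _ _ (by norm_num) 5 (by norm_num)
      (by norm_num [tay, Finset.sum_range_succ, Nat.factorial])
  · exact line_gen A hA (21 / 10) _ _ (by norm_num) 7 (by norm_num)
      (by norm_num [tay, Finset.sum_range_succ, Nat.factorial])
  · exact line_gen A hA (25 / 10) _ _ (by norm_num) 9 (by norm_num)
      (by norm_num [tay, Finset.sum_range_succ, Nat.factorial])

theorem gauss_line_04 {n : ℕ} (A : Set (E n)) (hA : MeasurableSet A) :
    √(2 * π) * ‖∫ x in A, x ∂(gam n)‖ ≤ 100266 / 100000 * (gam n).real A + 57765 / 100000 :=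
  line_gen A hA (4 / 10) _ _ (by norm_num) 3 (by norm_num)
    (by norm_num [tay, Finset.sum_range_succ, Nat.factorial])

end Vale.Agent.P226
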