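import Vale.Agent.P226.Final
import Vale.Agent.P226.Asm
import Vale.Agent.P226.CapNum4
import Vale.Agent.P226.GaussNum
import Vale.Agent.P226.Clos5
import Vale.Agent.P226.Clos6
import Vale.Agent.P226.Clos7
import Vale.Agent.P226.Clos8
import Vale.Agent.P226.Clos9
import Vale.Agent.P226.ClosG

/-!
# P226: the induction on the number of cells, `k >= 5` cells
-/

open MeasureTheory ProbabilityTheory Real

set_option linter.unusedVariables false

namespace Vale.Agent.P226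

theorem gl1 {n : ℕ} (A : Set (E n)) (hA : MeasurableSet A) :
    √(2 * π) * ‖∫ x in A, x ∂(gam n)‖ ≤ 1 := by
  have h := gauss_line A hA 0 le_rfl
  simpa using h

theorem Opt.X_le_one {k n : ℕ} (O : Opt k n) (i : Fin (k + 1)) : O.X i ≤ 1 := by
  have h := gl1 (O.A i) (O.meas i)
  rw [← O.hz i] at h
  exact h

theorem Opt.hN1' {k n : ℕ} (O : Opt k n) (hz : ∀ a, O.z a ≠ 0) :
    ∀ a i j l, a ≠ i → a ≠ j → a ≠ l → i ≠ j → i ≠ l → j ≠ l → ∀ m : ℝ, 0 ≤ m →
      m ≤ O.X i ^ 2 → m ≤ O.X j ^ 2 → m ≤ O.X l ^ 2 →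
      1624 / 10000 * m * (m - O.X a ^ 2) ≤ O.X a ^ 2 :=
  fun a i j l hai haj hal hij hil hjl m hm hmi hmj hml =>
    O.hN1 hz hai haj hal hij hil hjl m hm hmi hmj hml

theorem ln5_of {x p : ℝ} (hp : 0 ≤ p) (h : ∀ c : ℝ, 0 ≤ c → c ≤ 1 →
    x ≤ (1 - c ^ 2) * √(1 - c ^ 2) + 3 * c * (π / 2 * p - J 4 c)) : Ln5 x p := by
  obtain ⟨a1, a2, a3, a4, a5, a6, a7⟩ := cap4_lines hp h
  refine ⟨?_, ?_, ?_, ?_, ?_, ?_, ?_⟩
  · linarith
  · linarith
  · linarith
  · linarith
  · linarith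
  · linarith
  · linarith

theorem step5 (n : ℕ) (h : Ineq 3 4) : Ineq 4 n := by
  refine reduce (n := 4) le_rfl ?_ n
  by_contra hc
  obtain ⟨O⟩ := exists_opt hc
  have hz := O.z_ne_zero h
  have h1 := closing5 O.X O.p (O.X_pos hz) O.p_nonneg O.sum_p
    (fun i => ln5_of (O.p_nonneg i) (fun c h0 h1 => O.line4 i c h0 h1)) O.X_le_one
    (O.hN1' hz) (fun a m hm hmj => O.hN4 hz a m hm hmj)
  exact absurd O.sum_X_sq (not_lt.2 h1)

theorem step6 (n : ℕ) (h : Ineq 4 5) : Ineq 5 n := by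
  refine reduce (n := 5) le_rfl ?_ n
  by_contra hc
  obtain ⟨O⟩ := exists_opt hc
  have hz := O.z_ne_zero h
  have h1 := closing6 O.X O.p (O.X_pos hz) O.p_nonneg O.sum_p
    (fun i => ln6_of _ _ (O.p_nonneg i) (fun c h0 h1 => O.line5 i c h0 h1)) O.X_le_one
    (O.hN1' hz)
  exact absurd O.sum_X_sq (not_lt.2 h1)

theorem step7 (n : ℕ) (h : Ineq 5 7) : Ineq 6 n := by
  refine reduce (n := 7) (by norm_num) ?_ n
  by_contra hc
  obtain ⟨O⟩ := exists_opt hc
  have hz := O.z_ne_zero h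
  have h1 := closing7 O.X O.p (O.X_pos hz) O.p_nonneg O.sum_p
    (fun i => ln7_of _ _ (O.p_nonneg i) (fun c h0 h1 => O.line7 i c h0 h1)) O.X_le_one
    (O.hN1' hz)
  exact absurd O.sum_X_sq (not_lt.2 h1)

theorem step8 (n : ℕ) (h : Ineq 6 7) : Ineq 7 n := by
  refine reduce (n := 7) le_rfl ?_ n
  by_contra hc
  obtain ⟨O⟩ := exists_opt hc
  have hz := O.z_ne_zero h
  have h1 := closing8 O.X O.p (O.X_pos hz) O.p_nonneg O.sum_p
    (fun i => ln8_of _ _ (O.p_nonneg i) (fun c h0 h1 => O.line7 i c h0 h1)) O.X_le_one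
    (O.hN1' hz)
  exact absurd O.sum_X_sq (not_lt.2 h1)

theorem step9 (n : ℕ) (h : Ineq 7 9) : Ineq 8 n := by
  refine reduce (n := 9) (by norm_num) ?_ n
  by_contra hc
  obtain ⟨O⟩ := exists_opt hc
  have hz := O.z_ne_zero h
  have h1 := closing9 O.X O.p (O.X_pos hz) O.p_nonneg O.sum_p
    (fun i => ln9_of _ _ (O.p_nonneg i) (fun c h0 h1 => O.line9 i c h0 h1)) O.X_le_one
    (O.hN1' hz)
  exact absurd O.sum_X_sq (not_lt.2 h1)

theorem stepG {k : ℕ} (hk : 9 ≤ k + 1) (n : ℕ) (h : Ineq k n) : Ineq (k + 1) n := by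
  by_contra hc
  obtain ⟨O⟩ := exists_opt hc
  have hz := O.z_ne_zero h
  have hL : ∀ i, LnG (O.X i) (O.p i) := by
    intro i
    have h1 := gauss_lines (O.A i) (O.meas i)
    have h2 := gauss_line_04 (O.A i) (O.meas i)
    rw [← O.hz i] at h1 h2
    change O.X i ≤ _ * O.p i + _ ∧ O.X i ≤ _ * O.p i + _ ∧ O.X i ≤ _ * O.p i + _ ∧
      O.X i ≤ _ * O.p i + _ ∧ O.X i ≤ _ * O.p i + _ ∧ O.X i ≤ _ * O.p i + _ ∧
      O.X i ≤ _ * O.p i + _ ∧ O.X i ≤ _ * O.p i + _ ∧ O.X i ≤ _ * O.p i + _ at h1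
    change O.X i ≤ _ * O.p i + _ at h2
    obtain ⟨a1, a2, a3, a4, a5, a6, a7, a8, a9⟩ := h1
    refine ⟨?_, ?_, ?_, ?_, ?_, ?_, ?_, ?_, ?_, ?_⟩
    · linarith
    · linarith
    · linarith
    · linarith
    · linarith
    · linarith
    · linarith
    · linarith
    · linarith
    · linarith
  have hS : ∀ i, Sm (O.X i) (O.p i) := by
    intro i hi
    have h1 := gauss_small (O.A i) (O.meas i)
    rw [← O.hz i] at h1
    exact h1 hi
  have h1 := closingG (k := k + 1 + 1) (by omega) O.X O.p (O.X_pos hz) O.p_nonneg O.sum_p hL hS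
    O.X_le_one (O.hN1' hz)
  exact absurd O.sum_X_sq (not_lt.2 h1)

/-- from four cells to any number of cells -/
theorem ineq_all_of_four (h3 : ∀ n, Ineq 3 n) (k n : ℕ) : Ineq k n := by
  have h4 : ∀ n, Ineq 4 n := fun n => step5 n (h3 4)
  have h5 : ∀ n, Ineq 5 n := fun n => step6 n (h4 5)
  have h6 : ∀ n, Ineq 6 n := fun n => step7 n (h5 7)
  have h7 : ∀ n, Ineq 7 n := fun n => step8 n (h6 7)
  have h8 : ∀ n, Ineq 8 n := fun n => step9 n (h7 9)
  have hbig : ∀ k, 8 ≤ k → ∀ n, Ineq k n := by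
    intro k hk
    induction k, hk using Nat.le_induction with
    | base => exact h8
    | succ k hk ih => exact fun n => stepG (by omega) n (ih n)
  rcases le_total 8 k with hk | hk
  · exact hbig k hk n
  · have hdown : ∀ j, Ineq (8 - j) n := by
      intro j
      induction j with
      | zero => exact h8 n
      | succ j ih =>
        rcases Nat.lt_or_ge j 8 with hj | hj
        · have : 8 - j = (8 - (j + 1)) + 1 := by omega
          rw [this] at ih
          exact ineq_mono ih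
        · have : 8 - (j + 1) = 8 - j := by omega
          rw [this]; exact ih
    have := hdown (8 - k)
    rwa [Nat.sub_sub_self hk] at this

end Vale.Agent.P226
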