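import Vale.Agent.P226.Final

/-!
# P226: the propeller attains `9/(8 pi)` (lower bound), for `d >= 2` and `k >= 3`
-/

open MeasureTheory ProbabilityTheory Real

namespace Vale.Agent.P226

/-- For any vectors `w`, the argmax cells satisfy `(E max)^2 <= (sum |w_i|^2) * (sum |z_i|^2)`. -/
theorem cell_lower {k n : ℕ} (w : Fin (k + 1) → E n) :
    (∫ x, mx w x ∂(gam n)) ^ 2
      ≤ (∑ i, ‖w i‖ ^ 2) * ∑ i, ‖∫ x in OptAux.cell w i, x ∂(gam n)‖ ^ 2 := by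
  set z : Fin (k + 1) → E n := fun i => ∫ x in OptAux.cell w i, x ∂(gam n) with hz
  have h1 : ∫ x, mx w x ∂(gam n) = ∑ i, inner ℝ (w i) (z i) := by
    rw [OptAux.integral_partition (OptAux.cell_meas w) (OptAux.cell_disj w) (OptAux.cell_cover w)
      (OptAux.integrable_mx w)]
    refine Finset.sum_congr rfl fun i _ => ?_
    rw [hz, ← OptAux.setIntegral_inner]
    refine setIntegral_congr_fun (OptAux.cell_meas w i) fun x hx => ?_
    exact OptAux.mx_eq fun j => hx.1 j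
  rw [h1]
  have h2 : |∑ i, inner ℝ (w i) (z i)| ≤ ∑ i, ‖w i‖ * ‖z i‖ :=
    le_trans (Finset.abs_sum_le_sum_abs _ _)
      (Finset.sum_le_sum fun i _ => abs_real_inner_le_norm _ _)
  have h3 : (∑ i, ‖w i‖ * ‖z i‖) ^ 2 ≤ (∑ i, ‖w i‖ ^ 2) * ∑ i, ‖z i‖ ^ 2 :=
    Finset.sum_mul_sq_le_sq_mul_sq _ _ _
  have h4 : 0 ≤ ∑ i, ‖w i‖ * ‖z i‖ := Finset.sum_nonneg fun i _ => by positivity
  calc (∑ i, inner ℝ (w i) (z i)) ^ 2 = |∑ i, inner ℝ (w i) (z i)| ^ 2 := (sq_abs _).symm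
    _ ≤ (∑ i, ‖w i‖ * ‖z i‖) ^ 2 := pow_le_pow_left₀ (abs_nonneg _) h2 2
    _ ≤ _ := h3

theorem propeller_three {d : ℕ} (hd : 2 ≤ d) :
    ∃ w : Fin (2 + 1) → E d, m0 ≤ ∑ i, ‖∫ x in OptAux.cell w i, x ∂(gam d)‖ ^ 2 := by
  set e0 : E d := EuclideanSpace.single ⟨0, by omega⟩ 1 with he0
  set e1 : E d := EuclideanSpace.single ⟨1, by omega⟩ 1 with he1
  have n0 : ‖e0‖ = 1 := by simp [he0]
  have n1 : ‖e1‖ = 1 := by simp [he1]
  have i01 : inner ℝ e0 e1 = 0 := by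
    rw [he0, he1, EuclideanSpace.inner_single_left]
    simp
  have gen : ∀ a b : ℝ, ‖a • e0 + b • e1‖ ^ 2 = a ^ 2 + b ^ 2 := by
    intro a b
    rw [norm_add_sq_real, norm_smul, norm_smul, real_inner_smul_left, real_inner_smul_right, i01,
      n0, n1]
    simp
  have s3 : (√3) ^ 2 = 3 := Real.sq_sqrt (by norm_num)
  let w : Fin (2 + 1) → E d := ![(1 : ℝ) • e0 + (0 : ℝ) • e1, (-(1 / 2) : ℝ) • e0 + (√3 / 2) • e1,
    (-(1 / 2) : ℝ) • e0 + (-(√3 / 2)) • e1]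
  have w0 : w 0 = (1 : ℝ) • e0 + (0 : ℝ) • e1 := rfl
  have w1 : w 1 = (-(1 / 2) : ℝ) • e0 + (√3 / 2) • e1 := rfl
  have w2 : w 2 = (-(1 / 2) : ℝ) • e0 + (-(√3 / 2)) • e1 := rfl
  have hsub : ∀ a b a' b' : ℝ, (a • e0 + b • e1) - (a' • e0 + b' • e1)
      = (a - a') • e0 + (b - b') • e1 := by
    intro a b a' b'
    module
  have hn : ∀ v : E d, ‖v‖ ^ 2 = 3 → ‖v‖ = √3 := by
    intro v hv
    rw [← hv, Real.sqrt_sq (norm_nonneg _)]
  have d01 : ‖w 0 - w 1‖ = √3 := hn _ (by rw [w0, w1, hsub, gen]; nlinarith)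
  have d12 : ‖w 1 - w 2‖ = √3 := hn _ (by rw [w1, w2, hsub, gen]; nlinarith)
  have d02 : ‖w 0 - w 2‖ = √3 := hn _ (by rw [w0, w2, hsub, gen]; nlinarith)
  have hS : ∑ i, ‖w i‖ ^ 2 = 3 := by
    rw [Fin.sum_univ_three, w0, w1, w2, gen, gen, gen]
    nlinarith
  refine ⟨w, ?_⟩
  have h1 := cell_lower w
  rw [hS, integral_mx_three, d01, d12, d02] at h1
  have h2 : (√(2 / π) / 4 * (√3 + √3 + √3)) ^ 2 = 27 / (8 * π) := by
    have h3 : (√(2 / π)) ^ 2 = 2 / π := Real.sq_sqrt (by positivity)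
    have : (√(2 / π) / 4 * (√3 + √3 + √3)) ^ 2 = (√(2 / π)) ^ 2 * (√3) ^ 2 * 9 / 16 := by ring
    rw [this, h3, s3]
    field_simp
    ring
  rw [h2] at h1
  have h4 : (27 : ℝ) / (8 * π) = 3 * m0 := by unfold m0; ring
  rw [h4] at h1
  linarith

/-- the propeller partition with extra empty cells -/
theorem exists_propeller {d k : ℕ} (hd : 2 ≤ d) (hk : 3 ≤ k) :
    ∃ A : Fin k → Set (E d), (∀ i, MeasurableSet (A i)) ∧ (∀ i j, i ≠ j → Disjoint (A i) (A j)) ∧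
      (∀ x, ∃ i, x ∈ A i) ∧ m0 ≤ ∑ i, ‖∫ x in A i, x ∂(gam d)‖ ^ 2 := by
  obtain ⟨w, hw⟩ := propeller_three hd
  refine ⟨fun i => if h : (i : ℕ) < 3 then OptAux.cell w ⟨i, h⟩ else ∅, ?_, ?_, ?_, ?_⟩
  · intro i
    by_cases h : (i : ℕ) < 3
    · simp only [h, dif_pos]; exact OptAux.cell_meas w _
    · simp only [h, dif_neg, not_false_eq_true]; exact MeasurableSet.empty
  · intro i j hij
    by_cases h : (i : ℕ) < 3
    · by_cases h' : (j : ℕ) < 3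
      · simp only [h, h', dif_pos]
        refine OptAux.cell_disj w _ _ ?_
        intro hc
        exact hij (Fin.ext (Fin.mk.inj_iff.1 hc))
      · simp only [h', dif_neg, not_false_eq_true]; exact Set.disjoint_empty _
    · simp only [h, dif_neg, not_false_eq_true]; exact Set.empty_disjoint _
  · intro x
    obtain ⟨i, hi⟩ := OptAux.cell_cover w x
    refine ⟨⟨i, by omega⟩, ?_⟩
    have : ((⟨(i : ℕ), by omega⟩ : Fin k) : ℕ) < 3 := i.2
    simp only [this, dif_pos]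
    exact hi
  · refine le_trans hw ?_
    have hinj : Function.Injective (fun i : Fin (2 + 1) => (⟨(i : ℕ), by omega⟩ : Fin k)) := by
      intro a b hab
      exact Fin.ext (Fin.mk.inj_iff.1 hab)
    have h1 : ∑ i : Fin (2 + 1), ‖∫ x in OptAux.cell w i, x ∂(gam d)‖ ^ 2
        = ∑ i ∈ Finset.univ.map ⟨_, hinj⟩, ‖∫ x in (fun i : Fin k => if h : (i : ℕ) < 3 then
            OptAux.cell w ⟨i, h⟩ else ∅) i, x ∂(gam d)‖ ^ 2 := by
      rw [Finset.sum_map]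
      refine Finset.sum_congr rfl fun i _ => ?_
      have : (i : ℕ) < 3 := i.2
      simp [this]
    rw [h1]
    exact Finset.sum_le_sum_of_subset_of_nonneg (Finset.subset_univ _)
      (fun i _ _ => by positivity)

end Vale.Agent.P226
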