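import Vale.Agent.P226.OM

/-!
# P226: the small ball estimate (piece SB)
-/

open MeasureTheory ProbabilityTheory Real Set

namespace Vale.Agent.P226
namespace SB

lemma ofReal_max0 (m : ℝ) : ENNReal.ofReal (max 0 m) = ENNReal.ofReal m := by
  rcases le_or_gt m 0 with h | h
  · rw [max_eq_left h, ENNReal.ofReal_zero, ENNReal.ofReal_of_nonpos h]
  · rw [max_eq_right h.le]

/-- `∫_a^∞ ((b-u)_+)^(n+1) du = ((b-a)_+)^(n+2)/(n+2)` -/
lemma lint_pow_right (a b : ℝ) (n : ℕ) :
    ∫⁻ u in Ioi a, ENNReal.ofReal ((max 0 (b - u)) ^ (n + 1))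
      = ENNReal.ofReal ((max 0 (b - a)) ^ (n + 2) / (n + 2)) := by
  rcases le_or_gt b a with hab | hab
  · have h1 : max 0 (b - a) = 0 := max_eq_left (by linarith)
    rw [h1]
    have h2 : ∫⁻ u in Ioi a, ENNReal.ofReal ((max 0 (b - u)) ^ (n + 1)) = ∫⁻ u in Ioi a, 0 := by
      apply setLIntegral_congr_fun measurableSet_Ioi
      intro u hu
      have hu' : a < u := hu
      have : max 0 (b - u) = 0 := max_eq_left (by linarith)
      simp [this]
    rw [h2]
    simp
  · have hsplit : Ioi a = Ioc a b ∪ Ioi b := (Ioc_union_Ioi_eq_Ioi hab.le).symm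
    have hdisj : Disjoint (Ioc a b) (Ioi b) := by
      rw [Set.disjoint_left]
      intro x hx hx'
      exact absurd hx.2 (not_le.mpr hx')
    rw [hsplit, lintegral_union measurableSet_Ioi hdisj]
    have h2 : ∫⁻ u in Ioi b, ENNReal.ofReal ((max 0 (b - u)) ^ (n + 1)) = 0 := by
      have : ∫⁻ u in Ioi b, ENNReal.ofReal ((max 0 (b - u)) ^ (n + 1)) = ∫⁻ u in Ioi b, 0 := by
        apply setLIntegral_congr_fun measurableSet_Ioi
        intro u hu
        have hu' : b < u := hu
        have : max 0 (b - u) = 0 := max_eq_left (by linarith)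
        simp [this]
      rw [this]; simp
    rw [h2, add_zero]
    have h3 : ∫⁻ u in Ioc a b, ENNReal.ofReal ((max 0 (b - u)) ^ (n + 1))
        = ∫⁻ u in Ioc a b, ENNReal.ofReal ((b - u) ^ (n + 1)) := by
      apply setLIntegral_congr_fun measurableSet_Ioc
      intro u hu
      have hu' : u ≤ b := hu.2
      have : max 0 (b - u) = b - u := max_eq_right (by linarith)
      simp [this]
    rw [h3, ← ofReal_integral_eq_lintegral_ofReal]
    · congr 1
      rw [← intervalIntegral.integral_of_le hab.le]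
      rw [max_eq_right (by linarith : (0:ℝ) ≤ b - a)]
      rw [intervalIntegral.integral_comp_sub_left (fun x => x ^ (n + 1)) b]
      rw [integral_pow]
      simp
      ring
    · exact (Continuous.integrableOn_Icc (by fun_prop)).mono_set Ioc_subset_Icc_self
    · filter_upwards [ae_restrict_mem measurableSet_Ioc] with u hu
      exact pow_nonneg (by linarith [hu.2]) _

/-- `∫_{-∞}^b ((u-a)_+)^(n+1) du = ((b-a)_+)^(n+2)/(n+2)` -/
lemma lint_pow_left (a b : ℝ) (n : ℕ) :
    ∫⁻ u in Iio b, ENNReal.ofReal ((max 0 (u - a)) ^ (n + 1))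
      = ENNReal.ofReal ((max 0 (b - a)) ^ (n + 2) / (n + 2)) := by
  have h := lint_pow_right (-b) (-a) n
  have h1 : -a - -b = b - a := by ring
  rw [h1] at h
  rw [← h, ← lintegral_indicator measurableSet_Iio, ← lintegral_indicator measurableSet_Ioi]
  rw [← lintegral_neg_eq_self (μ := (volume : Measure ℝ))]
  apply lintegral_congr
  intro u
  simp only [indicator, mem_Iio, mem_Ioi]
  by_cases hu : -u < b
  · have hu' : -b < u := by linarith
    rw [if_pos hu, if_pos hu']
    congr 3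
    ring
  · have hu' : ¬ (-b < u) := by intro h'; exact hu (by linarith)
    rw [if_neg hu, if_neg hu']

/-- area of the triangle cut out by three half-planes -/
lemma area_tri (α β γ A B C t : ℝ) (hα : 0 < α) (hγ : 0 < γ) :
    ∫⁻ X : ℝ, ∫⁻ Y : ℝ, (if t < min (A - α * X) (min (B - β * X - γ * Y)
      (C + α * X + β * X + γ * Y)) then (1 : ENNReal) else 0)
      = ENNReal.ofReal ((max 0 (A + B + C - 3 * t)) ^ 2 / (2 * α * γ)) := by
  have hin : ∀ X : ℝ, ∫⁻ Y : ℝ, (if t < min (A - α * X) (min (B - β * X - γ * Y)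
      (C + α * X + β * X + γ * Y)) then (1 : ENNReal) else 0)
      = (Iio ((A - t) / α)).indicator (fun X => ENNReal.ofReal (α / γ)
          * ENNReal.ofReal ((max 0 (X - (2 * t - B - C) / α)) ^ (0 + 1))) X := by
    intro X
    by_cases hX : t < A - α * X
    · have hX' : X ∈ Iio ((A - t) / α) := by
        rw [mem_Iio, lt_div_iff₀ hα]; linarith
      rw [indicator_of_mem hX']
      have h1 : ∀ Y : ℝ, (if t < min (A - α * X) (min (B - β * X - γ * Y)
          (C + α * X + β * X + γ * Y)) then (1 : ENNReal) else 0)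
          = (Ioo ((t - C - α * X - β * X) / γ) ((B - β * X - t) / γ)).indicator 1 Y := by
        intro Y
        simp only [indicator, mem_Ioo, lt_min_iff, Pi.one_apply]
        congr 1
        rw [div_lt_iff₀ hγ, lt_div_iff₀ hγ]
        apply propext
        constructor
        · rintro ⟨_, h2, h3⟩
          constructor <;> linarith
        · rintro ⟨h2, h3⟩
          refine ⟨hX, ?_, ?_⟩ <;> linarith
      simp_rw [h1]
      rw [lintegral_indicator_one measurableSet_Ioo, Real.volume_Ioo,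
        ← ENNReal.ofReal_mul (by positivity)]
      have h3 : (B - β * X - t) / γ - (t - C - α * X - β * X) / γ
          = α / γ * (X - (2 * t - B - C) / α) := by
        field_simp
        ring
      rw [h3]
      rcases le_or_gt (X - (2 * t - B - C) / α) 0 with h4 | h4
      · rw [max_eq_left h4, ENNReal.ofReal_of_nonpos
          (mul_nonpos_of_nonneg_of_nonpos (by positivity) h4)]
        simp
      · rw [max_eq_right h4.le]
        congr 1
        ring
    · have hX' : X ∉ Iio ((A - t) / α) := by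
        rw [mem_Iio, lt_div_iff₀ hα]; intro h; exact hX (by linarith)
      rw [indicator_of_notMem hX']
      have h1 : ∀ Y : ℝ, (if t < min (A - α * X) (min (B - β * X - γ * Y)
          (C + α * X + β * X + γ * Y)) then (1 : ENNReal) else 0) = 0 := by
        intro Y
        rw [if_neg]
        rw [lt_min_iff]
        intro h
        exact hX h.1
      simp_rw [h1]
      simp
  simp_rw [hin]
  rw [lintegral_indicator measurableSet_Iio, lintegral_const_mul _ (by fun_prop), lint_pow_left,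
    ← ENNReal.ofReal_mul (by positivity)]
  congr 1
  have h1 : (A - t) / α - (2 * t - B - C) / α = (A + B + C - 3 * t) / α := by
    field_simp
    ring
  rw [h1]
  rcases le_or_gt (A + B + C - 3 * t) 0 with h4 | h4
  · rw [max_eq_left h4, max_eq_left (div_nonpos_of_nonpos_of_nonneg h4 hα.le)]
    simp
  · rw [max_eq_right h4.le, max_eq_right (by positivity)]
    push_cast
    field_simp
    ring

/-- volume of the pyramid -/
lemma pyramid (α β γ A B C : ℝ) (hα : 0 < α) (hγ : 0 < γ) :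
    ∫⁻ X : ℝ, ∫⁻ Y : ℝ, ENNReal.ofReal (max 0 (min (A - α * X) (min (B - β * X - γ * Y)
      (C + α * X + β * X + γ * Y))))
      = ENNReal.ofReal ((max 0 (A + B + C)) ^ 3 / (18 * α * γ)) := by
  have h1 : ∀ m : ℝ, ENNReal.ofReal (max 0 m)
      = ∫⁻ t in Ioi (0:ℝ), (if t < m then (1 : ENNReal) else 0) := by
    intro m
    rw [← lintegral_indicator measurableSet_Ioi]
    have : ∀ t : ℝ, (Ioi (0:ℝ)).indicator (fun t => if t < m then (1 : ENNReal) else 0) t
        = (Ioo 0 m).indicator 1 t := by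
      intro t
      simp only [indicator, mem_Ioi, mem_Ioo, Pi.one_apply]
      by_cases h : 0 < t <;> by_cases h' : t < m <;> simp [h, h']
    simp_rw [this]
    rw [lintegral_indicator_one measurableSet_Ioo, Real.volume_Ioo, ofReal_max0, sub_zero]
  simp_rw [h1]
  have hm : Measurable (fun q : (ℝ × ℝ) × ℝ => (if q.2 < min (A - α * q.1.1)
      (min (B - β * q.1.1 - γ * q.1.2) (C + α * q.1.1 + β * q.1.1 + γ * q.1.2))
      then (1 : ENNReal) else 0)) := by
    apply Measurable.ite _ measurable_const measurable_const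
    apply measurableSet_lt <;> fun_prop
  have h2 : ∀ X : ℝ, ∫⁻ Y : ℝ, ∫⁻ t in Ioi (0:ℝ), (if t < min (A - α * X)
      (min (B - β * X - γ * Y) (C + α * X + β * X + γ * Y)) then (1 : ENNReal) else 0)
      = ∫⁻ t in Ioi (0:ℝ), ∫⁻ Y : ℝ, (if t < min (A - α * X)
      (min (B - β * X - γ * Y) (C + α * X + β * X + γ * Y)) then (1 : ENNReal) else 0) := by
    intro X
    apply lintegral_lintegral_swap
    apply Measurable.aemeasurable
    exact hm.comp (f := fun p : ℝ × ℝ => ((X, p.1), p.2)) (by fun_prop)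
  simp_rw [h2]
  rw [lintegral_lintegral_swap]
  · simp_rw [area_tri α β γ A B C _ hα hγ]
    have h3 : ∀ t : ℝ, ENNReal.ofReal ((max 0 (A + B + C - 3 * t)) ^ 2 / (2 * α * γ))
        = ENNReal.ofReal (9 / (2 * α * γ))
          * ENNReal.ofReal ((max 0 ((A + B + C) / 3 - t)) ^ (1 + 1)) := by
      intro t
      rw [← ENNReal.ofReal_mul (by positivity)]
      congr 1
      have : A + B + C - 3 * t = 3 * ((A + B + C) / 3 - t) := by ring
      rw [this]
      rcases le_or_gt ((A + B + C) / 3 - t) 0 with h4 | h4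
      · rw [max_eq_left h4, max_eq_left (by linarith)]
        simp
      · rw [max_eq_right h4.le, max_eq_right (by positivity)]
        ring
    simp_rw [h3]
    rw [lintegral_const_mul _ (by fun_prop), lint_pow_right, ← ENNReal.ofReal_mul (by positivity)]
    congr 1
    rw [sub_zero]
    rcases le_or_gt (A + B + C) 0 with h4 | h4
    · rw [max_eq_left h4, max_eq_left (by linarith)]
      simp
    · rw [max_eq_right h4.le, max_eq_right (by positivity)]
      push_cast
      field_simp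
      norm_num
  · apply Measurable.aemeasurable
    apply Measurable.lintegral_prod_right'
      (f := fun q : (ℝ × ℝ) × ℝ => (if q.1.2 < min (A - α * q.1.1)
      (min (B - β * q.1.1 - γ * q.2) (C + α * q.1.1 + β * q.1.1 + γ * q.2))
      then (1 : ENNReal) else 0))
    apply Measurable.ite _ measurable_const measurable_const
    apply measurableSet_lt <;> fun_prop

lemma gauss_le (f : ℝ → ENNReal) (hf : Measurable f) :
    ∫⁻ x, f x ∂(gaussianReal 0 1) ≤ ENNReal.ofReal ((√(2 * π))⁻¹) * ∫⁻ x, f x := by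
  rw [gaussianReal_of_var_ne_zero 0 (by norm_num : (1 : NNReal) ≠ 0),
    lintegral_withDensity_eq_lintegral_mul _ (measurable_gaussianPDF 0 1) hf,
    ← lintegral_const_mul _ hf]
  apply lintegral_mono
  intro x
  simp only [Pi.mul_apply]
  gcongr
  rw [gaussianPDF]
  apply ENNReal.ofReal_le_ofReal
  rw [gaussianPDFReal]
  simp only [NNReal.coe_one, mul_one, sub_zero]
  have h1 : rexp (-x ^ 2 / 2) ≤ 1 := by
    rw [Real.exp_le_one_iff]
    have := sq_nonneg x
    linarith
  have h2 : 0 ≤ (√(2 * π))⁻¹ := by positivity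
  nlinarith

lemma cube_moment :
    ∫⁻ s, ENNReal.ofReal ((max 0 s) ^ 3) ∂(gaussianReal 0 1) = ENNReal.ofReal (√(2 / π)) := by
  rw [gaussianReal_of_var_ne_zero 0 (by norm_num : (1 : NNReal) ≠ 0),
    lintegral_withDensity_eq_lintegral_mul _ (measurable_gaussianPDF 0 1) (by fun_prop)]
  have h1 : ∀ s : ℝ, (gaussianPDF 0 1 * fun s => ENNReal.ofReal ((max 0 s) ^ 3)) s
      = (Ioi (0:ℝ)).indicator (fun s => ENNReal.ofReal
        ((√(2 * π))⁻¹ * (s ^ (3:ℝ) * rexp (-(1/2) * s ^ (2:ℝ))))) s := by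
    intro s
    by_cases hs : 0 < s
    · rw [indicator_of_mem (by exact hs : s ∈ Ioi (0:ℝ))]
      rw [Pi.mul_apply, gaussianPDF, ← ENNReal.ofReal_mul (gaussianPDFReal_nonneg _ _ _)]
      congr 1
      rw [gaussianPDFReal, max_eq_right hs.le]
      have e1 : s ^ (3:ℝ) = s ^ 3 := by
        rw [← Real.rpow_natCast]; norm_num
      have e2 : s ^ (2:ℝ) = s ^ 2 := by
        rw [← Real.rpow_natCast]; norm_num
      rw [e1, e2]
      simp only [NNReal.coe_one, mul_one, sub_zero]
      have : -s ^ 2 / 2 = -(1/2) * s ^ 2 := by ring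
      rw [this]
      ring
    · rw [indicator_of_notMem (by exact hs : s ∉ Ioi (0:ℝ))]
      rw [Pi.mul_apply, max_eq_left (not_lt.mp hs)]
      simp
  simp_rw [h1]
  rw [lintegral_indicator measurableSet_Ioi, ← ofReal_integral_eq_lintegral_ofReal]
  · congr 1
    rw [integral_const_mul, integral_rpow_mul_exp_neg_mul_rpow (by norm_num) (by norm_num)
      (by norm_num)]
    have e3 : ((3:ℝ) + 1) / 2 = 2 := by norm_num
    rw [e3, Real.Gamma_two]
    have e4 : (1 / 2 : ℝ) ^ (-(3 + 1) / 2 : ℝ) = 4 := by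
      have : (-(3 + 1) / 2 : ℝ) = ((-2 : ℤ) : ℝ) := by norm_num
      rw [this, Real.rpow_intCast]
      norm_num
    rw [e4]
    rw [Real.sqrt_div (by norm_num), Real.sqrt_mul (by norm_num)]
    have h2 : √2 * √2 = 2 := Real.mul_self_sqrt (by norm_num)
    have h3 : √2 ≠ 0 := by positivity
    have h4 : √π ≠ 0 := by positivity
    field_simp
    nlinarith
  · apply Integrable.const_mul
    exact integrableOn_rpow_mul_exp_neg_mul_rpow (by norm_num) (by norm_num) (by norm_num)
  · filter_upwards [ae_restrict_mem measurableSet_Ioi] with u hu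
    have hu' : (0:ℝ) < u := hu
    positivity

/-- the core estimate in coordinates -/
lemma gauss_three (α β γ k1 k2 k3 L : ℝ) (hα : 0 < α) (hγ : 0 < γ) (hk : k1 + k2 + k3 = 3 * L)
    (hL : 0 ≤ L) :
    ∫⁻ s, ∫⁻ X, ∫⁻ Y, ENNReal.ofReal (max 0 (min (k1 * s - α * X) (min (k2 * s - β * X - γ * Y)
      (k3 * s + α * X + β * X + γ * Y)))) ∂(gaussianReal 0 1) ∂(gaussianReal 0 1)
        ∂(gaussianReal 0 1)
      ≤ ENNReal.ofReal (3 * √(2 / π) / (4 * π * (α * γ)) * L ^ 3) := by
  have hc : ENNReal.ofReal ((√(2 * π))⁻¹) * ENNReal.ofReal ((√(2 * π))⁻¹)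
      = ENNReal.ofReal (1 / (2 * π)) := by
    rw [← ENNReal.ofReal_mul (by positivity)]
    congr 1
    rw [← mul_inv, Real.mul_self_sqrt (by positivity)]
    simp
  have h1 : ∀ s : ℝ, ∫⁻ X, ∫⁻ Y, ENNReal.ofReal (max 0 (min (k1 * s - α * X)
      (min (k2 * s - β * X - γ * Y) (k3 * s + α * X + β * X + γ * Y)))) ∂(gaussianReal 0 1)
        ∂(gaussianReal 0 1)
      ≤ ENNReal.ofReal (3 * L ^ 3 / (4 * π * (α * γ))) * ENNReal.ofReal ((max 0 s) ^ 3) := by
    intro s
    calc ∫⁻ X, ∫⁻ Y, ENNReal.ofReal (max 0 (min (k1 * s - α * X)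
          (min (k2 * s - β * X - γ * Y) (k3 * s + α * X + β * X + γ * Y)))) ∂(gaussianReal 0 1)
        ∂(gaussianReal 0 1)
        ≤ ∫⁻ X, (ENNReal.ofReal ((√(2 * π))⁻¹) * ∫⁻ Y : ℝ, ENNReal.ofReal (max 0
          (min (k1 * s - α * X) (min (k2 * s - β * X - γ * Y)
          (k3 * s + α * X + β * X + γ * Y))))) ∂(gaussianReal 0 1) := by
          apply lintegral_mono
          intro X
          apply gauss_le
          fun_prop
      _ ≤ ENNReal.ofReal ((√(2 * π))⁻¹) * ∫⁻ X : ℝ, ENNReal.ofReal ((√(2 * π))⁻¹)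
          * ∫⁻ Y : ℝ, ENNReal.ofReal (max 0 (min (k1 * s - α * X) (min (k2 * s - β * X - γ * Y)
          (k3 * s + α * X + β * X + γ * Y)))) := by
          apply gauss_le
          apply Measurable.const_mul
          apply Measurable.lintegral_prod_right'
            (f := fun q : ℝ × ℝ => ENNReal.ofReal (max 0 (min (k1 * s - α * q.1)
              (min (k2 * s - β * q.1 - γ * q.2) (k3 * s + α * q.1 + β * q.1 + γ * q.2)))))
          fun_prop
      _ = ENNReal.ofReal (1 / (2 * π)) * ENNReal.ofReal ((max 0 (k1 * s + k2 * s + k3 * s)) ^ 3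
            / (18 * α * γ)) := by
          rw [lintegral_const_mul, pyramid α β γ _ _ _ hα hγ, ← mul_assoc, hc]
          apply Measurable.lintegral_prod_right'
            (f := fun q : ℝ × ℝ => ENNReal.ofReal (max 0 (min (k1 * s - α * q.1)
              (min (k2 * s - β * q.1 - γ * q.2) (k3 * s + α * q.1 + β * q.1 + γ * q.2)))))
          fun_prop
      _ = ENNReal.ofReal (3 * L ^ 3 / (4 * π * (α * γ))) * ENNReal.ofReal ((max 0 s) ^ 3) := by
          rw [← ENNReal.ofReal_mul (by positivity), ← ENNReal.ofReal_mul (by positivity)]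
          congr 1
          have : k1 * s + k2 * s + k3 * s = 3 * L * s := by rw [← hk]; ring
          rw [this]
          rcases le_or_gt s 0 with hs | hs
          · rw [max_eq_left hs, max_eq_left (by nlinarith)]
            simp
          · rw [max_eq_right hs.le, max_eq_right (by positivity)]
            field_simp
            ring
  calc _ ≤ ∫⁻ s, ENNReal.ofReal (3 * L ^ 3 / (4 * π * (α * γ))) * ENNReal.ofReal ((max 0 s) ^ 3)
        ∂(gaussianReal 0 1) := lintegral_mono h1
    _ = _ := by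
      rw [lintegral_const_mul _ (by fun_prop), cube_moment, ← ENNReal.ofReal_mul (by positivity)]
      congr 1
      ring

lemma lintegral_pi3 (μ : Measure ℝ) [IsProbabilityMeasure μ] (G : ℝ → ℝ → ℝ → ENNReal)
    (hG : Measurable (fun q : ℝ × ℝ × ℝ => G q.1 q.2.1 q.2.2)) :
    ∫⁻ y : Fin 3 → ℝ, G (y 0) (y 1) (y 2) ∂(Measure.pi fun _ => μ)
      = ∫⁻ s, ∫⁻ X, ∫⁻ Y, G s X Y ∂μ ∂μ ∂μ := by
  have h1 := (measurePreserving_piFinSuccAbove (fun _ : Fin 3 => μ) 0).lintegral_comp
    (f := fun q : ℝ × (Fin 2 → ℝ) => G q.1 (q.2 0) (q.2 1))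
    (hG.comp (f := fun q : ℝ × (Fin 2 → ℝ) => (q.1, q.2 0, q.2 1)) (by fun_prop))
  have h2 : ∀ y : Fin 3 → ℝ, (fun q : ℝ × (Fin 2 → ℝ) => G q.1 (q.2 0) (q.2 1))
      ((MeasurableEquiv.piFinSuccAbove (fun _ : Fin 3 => ℝ) 0) y) = G (y 0) (y 1) (y 2) := by
    intro y
    rfl
  simp_rw [h2] at h1
  have hm1 : Measurable (fun q : ℝ × (Fin 2 → ℝ) => G q.1 (q.2 0) (q.2 1)) :=
    hG.comp (f := fun q : ℝ × (Fin 2 → ℝ) => (q.1, q.2 0, q.2 1)) (by fun_prop)
  rw [h1, lintegral_prod _ hm1.aemeasurable]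
  apply lintegral_congr
  intro s
  have h3 := (measurePreserving_finTwoArrow μ).lintegral_comp
    (f := fun q : ℝ × ℝ => G s q.1 q.2)
    (hG.comp (f := fun q : ℝ × ℝ => (s, q.1, q.2)) (by fun_prop))
  have h4 : ∀ y : Fin 2 → ℝ, (fun q : ℝ × ℝ => G s q.1 q.2)
      (MeasurableEquiv.finTwoArrow y) = G s (y 0) (y 1) := by
    intro y
    rfl
  simp_rw [h4] at h3
  have hm2 : Measurable (fun q : ℝ × ℝ => G s q.1 q.2) :=
    hG.comp (f := fun q : ℝ × ℝ => (s, q.1, q.2)) (by fun_prop)
  rw [← lintegral_prod (fun q : ℝ × ℝ => G s q.1 q.2) hm2.aemeasurable, ← h3]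

/-- the core estimate in `E n` -/
lemma smallball_lint {n : ℕ} (v1 v2 v3 e : E n) (he : ‖e‖ = 1) (he1 : inner ℝ e v1 = 0)
    (he2 : inner ℝ e v2 = 0) (hv : v1 + v2 + v3 = 0) (D : ℝ) (hD : 0 < D)
    (hD2 : D ^ 2 = ‖v1‖ ^ 2 * ‖v2‖ ^ 2 - (inner ℝ v1 v2) ^ 2)
    (k1 k2 k3 L : ℝ) (hk : k1 + k2 + k3 = 3 * L) (hL : 0 ≤ L) :
    ∫⁻ x, ENNReal.ofReal (max 0 (min (k1 * inner ℝ e x - inner ℝ v1 x)
      (min (k2 * inner ℝ e x - inner ℝ v2 x) (k3 * inner ℝ e x - inner ℝ v3 x)))) ∂(gam n)
      ≤ ENNReal.ofReal (3 * √(2 / π) / (4 * π * D) * L ^ 3) := by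
  have hv1 : v1 ≠ 0 := by
    rintro rfl
    simp at hD2
    exact hD.ne' hD2
  have hα : 0 < ‖v1‖ := norm_pos_iff.mpr hv1
  set α := ‖v1‖ with hαdef
  set e1 : E n := α⁻¹ • v1 with he1def
  set β : ℝ := inner ℝ e1 v2 with hβ
  set v2' : E n := v2 - β • e1 with hv2'
  have e1n : ‖e1‖ = 1 := by
    rw [he1def, norm_smul, Real.norm_eq_abs, abs_of_pos (inv_pos.mpr hα), ← hαdef]
    exact inv_mul_cancel₀ hα.ne'
  have e11 : inner ℝ e1 e1 = (1:ℝ) := by rw [real_inner_self_eq_norm_sq, e1n]; norm_num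
  have hv1e : v1 = α • e1 := by
    rw [he1def, smul_smul, mul_inv_cancel₀ hα.ne', one_smul]
  have hβ2 : β = α⁻¹ * inner ℝ v1 v2 := by
    rw [hβ, he1def, real_inner_smul_left]
  have e1v2' : inner ℝ e1 v2' = (0:ℝ) := by
    rw [hv2', inner_sub_right, real_inner_smul_right, e11, ← hβ]; ring
  have hγ2 : ‖v2'‖ ^ 2 = ‖v2‖ ^ 2 - β ^ 2 := by
    rw [hv2', norm_sub_sq_real, real_inner_smul_right, norm_smul, e1n, real_inner_comm, ← hβ]
    rw [mul_one, Real.norm_eq_abs, sq_abs]
    ring
  have hαγ : (α * ‖v2'‖) ^ 2 = D ^ 2 := by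
    rw [mul_pow, hγ2, hβ2, hD2, mul_sub]
    field_simp
  have hαγ' : α * ‖v2'‖ = D := by
    have h1 : 0 ≤ α * ‖v2'‖ := by positivity
    nlinarith
  have hγ : 0 < ‖v2'‖ := by
    rcases (norm_nonneg v2').lt_or_eq with h | h
    · exact h
    · rw [← h] at hαγ'
      simp at hαγ'
      exact absurd hαγ' hD.ne
  set γ := ‖v2'‖ with hγdef
  set e2 : E n := γ⁻¹ • v2' with he2def
  have e2n : ‖e2‖ = 1 := by
    rw [he2def, norm_smul, Real.norm_eq_abs, abs_of_pos (inv_pos.mpr hγ), ← hγdef]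
    exact inv_mul_cancel₀ hγ.ne'
  have hv2e : v2 = β • e1 + γ • e2 := by
    have : γ • e2 = v2' := by
      rw [he2def, smul_smul, mul_inv_cancel₀ hγ.ne', one_smul]
    rw [this, hv2']
    abel
  have ee1 : inner ℝ e e1 = (0:ℝ) := by
    rw [he1def, real_inner_smul_right, he1]; ring
  have ee2 : inner ℝ e e2 = (0:ℝ) := by
    rw [he2def, real_inner_smul_right, hv2', inner_sub_right, real_inner_smul_right, he2, ee1]; ring
  have e12 : inner ℝ e1 e2 = (0:ℝ) := by
    rw [he2def, real_inner_smul_right, e1v2']; ring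
  have hort : Orthonormal ℝ ![e, e1, e2] := by
    constructor
    · intro i
      fin_cases i
      · exact he
      · exact e1n
      · exact e2n
    · intro i j hij
      fin_cases i <;> fin_cases j
      · exact absurd rfl hij
      · exact ee1
      · exact ee2
      · rw [real_inner_comm]; exact ee1
      · exact absurd rfl hij
      · exact e12
      · rw [real_inner_comm]; exact ee2
      · rw [real_inner_comm]; exact e12
      · exact absurd rfl hij
  have hmap := map_orthonormal ![e, e1, e2] hort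
  have hmeas : Measurable (fun x : E n => (fun i => inner ℝ (![e, e1, e2] i) x : Fin 3 → ℝ)) := by
    fun_prop
  set G : ℝ → ℝ → ℝ → ENNReal := fun s X Y => ENNReal.ofReal (max 0 (min (k1 * s - α * X)
    (min (k2 * s - β * X - γ * Y) (k3 * s + α * X + β * X + γ * Y)))) with hG
  have hGm : Measurable (fun q : ℝ × ℝ × ℝ => G q.1 q.2.1 q.2.2) := by
    rw [hG]
    fun_prop
  have hpt : ∀ x : E n, ENNReal.ofReal (max 0 (min (k1 * inner ℝ e x - inner ℝ v1 x)
      (min (k2 * inner ℝ e x - inner ℝ v2 x) (k3 * inner ℝ e x - inner ℝ v3 x))))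
      = (fun y : Fin 3 → ℝ => G (y 0) (y 1) (y 2))
        (fun i => inner ℝ (![e, e1, e2] i) x : Fin 3 → ℝ) := by
    intro x
    have h3 : v3 = -(v1 + v2) := by
      rw [eq_neg_iff_add_eq_zero]
      rw [← hv]; abel
    have i1 : inner ℝ v1 x = α * inner ℝ e1 x := by
      conv_lhs => rw [hv1e]
      rw [real_inner_smul_left]
    have i2 : inner ℝ v2 x = β * inner ℝ e1 x + γ * inner ℝ e2 x := by
      conv_lhs => rw [hv2e]
      rw [inner_add_left, real_inner_smul_left e1 x β, real_inner_smul_left e2 x γ]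
    have i3 : inner ℝ v3 x = -(α * inner ℝ e1 x + (β * inner ℝ e1 x + γ * inner ℝ e2 x)) := by
      rw [h3, inner_neg_left, inner_add_left, i1, i2]
    rw [i1, i2, i3]
    simp only [hG, Matrix.cons_val_zero, Matrix.cons_val_one, Matrix.cons_val]
    congr 4
    · ring
    · ring
  simp_rw [hpt]
  rw [← lintegral_map (μ := gam n) (f := fun y : Fin 3 → ℝ => G (y 0) (y 1) (y 2))
    (hGm.comp (f := fun y : Fin 3 → ℝ => (y 0, y 1, y 2)) (by fun_prop)) hmeas, hmap,
    lintegral_pi3 _ G hGm, ← hαγ']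
  exact gauss_three α β γ k1 k2 k3 L hα hγ hk hL

end SB

/-- **Small ball estimate.** -/
theorem smallball' {n : ℕ} (v1 v2 v3 e : E n) (he : ‖e‖ = 1) (he1 : inner ℝ e v1 = 0)
    (he2 : inner ℝ e v2 = 0) (hv : v1 + v2 + v3 = 0) (D : ℝ) (hD : 0 < D)
    (hD2 : D ^ 2 = ‖v1‖ ^ 2 * ‖v2‖ ^ 2 - (inner ℝ v1 v2) ^ 2)
    (c1 c2 c3 : ℝ) (hc : c1 + c2 + c3 = 0) (L : ℝ) (hL : 0 ≤ L)
    (A : Set (E n)) :
    L * inner ℝ e (∫ x in A, x ∂(gam n))
      ≤ (∫ x in A, max (max (inner ℝ v1 x + c1 * inner ℝ e x) (inner ℝ v2 x + c2 * inner ℝ e x))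
          (inner ℝ v3 x + c3 * inner ℝ e x) ∂(gam n))
        + 3 * √(2 / π) / (4 * π * D) * L ^ 3 := by
  have hid : Integrable (fun x : E n => x) (gam n) := IsGaussian.integrable_id
  have hin : ∀ w : E n, Integrable (fun x => inner ℝ w x) (gam n) := fun w =>
    hid.const_inner w
  set T : E n → ℝ := fun x => max (max (inner ℝ v1 x + c1 * inner ℝ e x)
    (inner ℝ v2 x + c2 * inner ℝ e x)) (inner ℝ v3 x + c3 * inner ℝ e x) with hT
  have hTi : Integrable T (gam n) :=
    (((hin v1).add ((hin e).const_mul c1)).sup ((hin v2).add ((hin e).const_mul c2))).sup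
      ((hin v3).add ((hin e).const_mul c3))
  set F : E n → ℝ := fun x => max 0 (min ((L - c1) * inner ℝ e x - inner ℝ v1 x)
      (min ((L - c2) * inner ℝ e x - inner ℝ v2 x) ((L - c3) * inner ℝ e x - inner ℝ v3 x))) with hF
  have hFT : ∀ x, F x = max 0 (L * inner ℝ e x - T x) := by
    intro x
    simp only [hF, hT]
    congr 1
    rw [sub_eq_add_neg (L * inner ℝ e x), ← min_neg_neg, ← min_neg_neg, min_assoc, 
      ← min_add_add_left, ← min_add_add_left]
    congr 1
    · ring
    · congr 1 <;> ring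
  have hFi : Integrable F (gam n) := by
    have : F = fun x => max 0 (L * inner ℝ e x - T x) := funext hFT
    rw [this]
    exact (integrable_zero _ _ _).sup (((hin e).const_mul L).sub hTi)
  have hbound : ∫ x, F x ∂(gam n) ≤ 3 * √(2 / π) / (4 * π * D) * L ^ 3 := by
    have h1 := SB.smallball_lint v1 v2 v3 e he he1 he2 hv D hD hD2 (L - c1) (L - c2) (L - c3) L
      (by linarith) hL
    have h2 : ENNReal.ofReal (∫ x, F x ∂(gam n)) ≤ ENNReal.ofReal (3 * √(2 / π) / (4 * π * D) * L ^ 3) := by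
      rw [ofReal_integral_eq_lintegral_ofReal hFi
        (Filter.Eventually.of_forall fun x => le_max_left _ _)]
      exact h1
    rwa [ENNReal.ofReal_le_ofReal_iff (by positivity)] at h2
  have h3 : L * inner ℝ e (∫ x in A, x ∂(gam n)) - ∫ x in A, T x ∂(gam n)
      = ∫ x in A, (L * inner ℝ e x - T x) ∂(gam n) := by
    rw [integral_sub (((hin e).const_mul L).integrableOn) hTi.integrableOn, integral_const_mul]
    congr 2
    exact (integral_inner hid.integrableOn e).symm
  have h4 : ∫ x in A, (L * inner ℝ e x - T x) ∂(gam n) ≤ ∫ x in A, F x ∂(gam n) := by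
    apply setIntegral_mono ((((hin e).const_mul L).sub hTi).integrableOn) hFi.integrableOn
    intro x
    simp only
    rw [hFT]
    exact le_max_right _ _
  have h5 : ∫ x in A, F x ∂(gam n) ≤ ∫ x, F x ∂(gam n) :=
    setIntegral_le_integral hFi (Filter.Eventually.of_forall fun x => le_max_left _ _)
  linarith

end Vale.Agent.P226
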