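import Vale.Agent.P226.Main
import Vale.Agent.P226.Clos4

/-!
# P226: four cells, and the full inequality
-/

open MeasureTheory ProbabilityTheory Real

namespace Vale.Agent.P226

theorem step4 (n : ℕ) (h : Ineq 2 3) : Ineq 3 n := by
  refine reduce (n := 3) le_rfl ?_ n
  by_contra hc
  obtain ⟨O⟩ := exists_opt hc
  have hz := O.z_ne_zero h
  set σ := Tuple.sort O.X with hσ
  have hmono : Monotone (O.X ∘ σ) := Tuple.monotone_sort O.X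
  have e01 : O.X (σ 0) ≤ O.X (σ 1) := hmono (by decide)
  have e12 : O.X (σ 1) ≤ O.X (σ 2) := hmono (by decide)
  have e23 : O.X (σ 2) ≤ O.X (σ 3) := hmono (by decide)
  have hne : ∀ i j : Fin 4, i ≠ j → σ i ≠ σ j := fun i j hij h => hij (σ.injective h)
  have hsumX : ∑ i, O.X i ^ 2 = O.X (σ 3) ^ 2 + O.X (σ 2) ^ 2 + O.X (σ 1) ^ 2 + O.X (σ 0) ^ 2 := by
    rw [← Equiv.sum_comp σ, Fin.sum_univ_four]; ring
  have hsump : O.p (σ 3) + O.p (σ 2) + O.p (σ 1) + O.p (σ 0) = 1 := by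
    rw [← O.sum_p, ← Equiv.sum_comp σ, Fin.sum_univ_four]; ring
  have hza : ‖O.z (σ 0)‖ ^ 2 ≠ 0 := by
    have := norm_pos_iff.2 (hz (σ 0)); positivity
  have hza' : 0 < ‖O.z (σ 0)‖ ^ 2 := by
    have := norm_pos_iff.2 (hz (σ 0)); positivity
  have hzsum : inner ℝ (O.z (σ 0)) (O.z (σ 1)) + inner ℝ (O.z (σ 0)) (O.z (σ 2))
      + inner ℝ (O.z (σ 0)) (O.z (σ 3)) = -‖O.z (σ 0)‖ ^ 2 := by
    have h0 := O.sum_zero
    rw [← Equiv.sum_comp σ, Fin.sum_univ_four] at h0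
    have h1 := congrArg (fun v => inner ℝ (O.z (σ 0)) v) h0
    simp only [inner_zero_right, inner_add_right] at h1
    rw [real_inner_self_eq_norm_sq] at h1
    linarith
  have hr0 : ∀ j : Fin 4, (0 : Fin 4) ≠ j →
      0 ≤ -inner ℝ (O.z (σ 0)) (O.z (σ j)) / ‖O.z (σ 0)‖ ^ 2 := by
    intro j hj
    have := O.inner_nonpos (hne 0 j hj)
    exact div_nonneg (by linarith) hza'.le
  have key := O.N3four (hne 0 3 (by decide)) (hne 0 2 (by decide)) (hne 0 1 (by decide))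
    (hne 3 2 (by decide)) (hne 3 1 (by decide)) (hne 2 1 (by decide)) (hz (σ 0)) _ _ _ rfl rfl rfl
  have hb : ∀ j : Fin 4, O.X (σ j) ^ 2
      - (-inner ℝ (O.z (σ 0)) (O.z (σ j)) / ‖O.z (σ 0)‖ ^ 2) ^ 2 * O.X (σ 0) ^ 2
      = 2 * π * (‖O.z (σ j)‖ ^ 2 - (inner ℝ (O.z (σ 0)) (O.z (σ j))) ^ 2 / ‖O.z (σ 0)‖ ^ 2) := by
    intro j
    rw [O.X_sq, O.X_sq]
    field_simp
  have h1 := closing4 (O.X (σ 3)) (O.X (σ 2)) (O.X (σ 1)) (O.X (σ 0)) (O.p (σ 3)) (O.p (σ 2))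
    (O.p (σ 1)) (O.p (σ 0)) (-inner ℝ (O.z (σ 0)) (O.z (σ 3)) / ‖O.z (σ 0)‖ ^ 2)
    (-inner ℝ (O.z (σ 0)) (O.z (σ 2)) / ‖O.z (σ 0)‖ ^ 2)
    (-inner ℝ (O.z (σ 0)) (O.z (σ 1)) / ‖O.z (σ 0)‖ ^ 2)
    (O.X_pos hz _) (O.X_pos hz _) (O.X_pos hz _) (O.X_pos hz _)
    (O.p_nonneg _) (O.p_nonneg _) (O.p_nonneg _) (O.p_nonneg _) hsump e01 e12 e23
    (fun c h0 h1 => O.line3 _ c h0 h1) (fun c h0 h1 => O.line3 _ c h0 h1)
    (fun c h0 h1 => O.line3 _ c h0 h1) (fun c h0 h1 => O.line3 _ c h0 h1)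
    (hr0 3 (by decide)) (hr0 2 (by decide)) (hr0 1 (by decide))
    (by
      rw [← add_div, ← add_div, div_eq_one_iff_eq hza]
      linarith)
    (by
      rw [hb, hb, hb, O.X_sq]
      have hpi := Real.pi_pos
      have h2 := mul_le_mul_of_nonneg_left key (by positivity : (0 : ℝ) ≤ 2 * π)
      refine le_trans (le_of_eq ?_) h2
      ring)
  rw [← hsumX] at h1
  exact absurd O.sum_X_sq (not_lt.2 h1)

theorem ineq_all (k n : ℕ) : Ineq k n :=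
  ineq_all_of_four (fun n => step4 n (base_two 3)) k n

end Vale.Agent.P226
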